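import Vale.Agent.P132.Tomita.Subspace

/-!
# The commutation theorem for the real subspaces

The closure of the self-adjoint vectors of the commutant is the symplectic complement of `K`, so
that passing to the commutant turns `R` into `2 - R` and keeps `D`.

For `ξ` with `⟨a Ω, ξ⟩` real (self-adjoint `a ∈ M`) the projection on the closure of
`{(a Ω, ε a ξ)}` in `H × H` has an off-diagonal entry `ε x` with `x` in the commutant; then
`(x + x*)/2 Ω` is bounded by `‖ξ‖` and tends weakly to `ξ` as `ε → 0`.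
-/

namespace Vale.Agent.P132.Tomita

open Complex
open scoped InnerProductSpace ComplexConjugate

universe u

variable {H : Type u} [NormedAddCommGroup H] [InnerProductSpace ℂ H] [CompleteSpace H]
variable {M : VonNeumannAlgebra H} {Ω : H}

section Graph

/-- The pairs `(a Ω, a ζ)`, `a ∈ M`. -/
def pairs (M : VonNeumannAlgebra H) (Ω ζ : H) : Submodule ℂ (WithLp 2 (H × H)) where
  carrier := {w | ∃ a ∈ M, WithLp.toLp 2 (a Ω, a ζ) = w}
  add_mem' := by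
    rintro _ _ ⟨a, ha, rfl⟩ ⟨b, hb, rfl⟩
    exact ⟨a + b, add_mem ha hb, rfl⟩
  zero_mem' := ⟨0, zero_mem M, rfl⟩
  smul_mem' := by
    rintro c _ ⟨a, ha, rfl⟩
    exact ⟨c • a, M.toStarSubalgebra.smul_mem ha c, rfl⟩

instance (M : VonNeumannAlgebra H) (Ω ζ : H) :
    CompleteSpace (pairs M Ω ζ).topologicalClosure :=
  (pairs M Ω ζ).isClosed_topologicalClosure.completeSpace_coe

/-- The action `a ⊕ a` on pairs. -/
noncomputable def diagPair (a : H →L[ℂ] H) : WithLp 2 (H × H) →L[ℂ] WithLp 2 (H × H) :=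
  ((WithLp.prodContinuousLinearEquiv 2 ℂ H H).symm : H × H →L[ℂ] WithLp 2 (H × H)).comp
    ((a.prodMap a).comp
      (WithLp.prodContinuousLinearEquiv 2 ℂ H H : WithLp 2 (H × H) →L[ℂ] H × H))

omit [CompleteSpace H] in
lemma diagPair_toLp (a : H →L[ℂ] H) (u v : H) :
    diagPair a (WithLp.toLp 2 (u, v)) = WithLp.toLp 2 (a u, a v) := rfl

lemma inner_diagPair (a : H →L[ℂ] H) (w w' : WithLp 2 (H × H)) :
    ⟪diagPair (star a) w, w'⟫_ℂ = ⟪w, diagPair a w'⟫_ℂ := by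
  simp [diagPair, WithLp.prod_inner_apply, inner_star_left]

lemma diagPair_mem (ζ : H) {a : H →L[ℂ] H} (ha : a ∈ M) {w : WithLp 2 (H × H)}
    (hw : w ∈ (pairs M Ω ζ).topologicalClosure) :
    diagPair a w ∈ (pairs M Ω ζ).topologicalClosure := by
  refine map_mem_closure (f := diagPair a) (diagPair a).continuous hw ?_
  rintro _ ⟨b, hb, rfl⟩
  exact ⟨a * b, mul_mem ha hb, rfl⟩

/-- The orthogonal projection on the closure of the pairs. -/
noncomputable def pairProj (M : VonNeumannAlgebra H) (Ω ζ : H) :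
    WithLp 2 (H × H) →L[ℂ] WithLp 2 (H × H) :=
  (pairs M Ω ζ).topologicalClosure.starProjection

lemma pairProj_diagPair (ζ : H) {a : H →L[ℂ] H} (ha : a ∈ M) (w : WithLp 2 (H × H)) :
    pairProj M Ω ζ (diagPair a w) = diagPair a (pairProj M Ω ζ w) := by
  refine Submodule.eq_starProjection_of_mem_of_inner_eq_zero
    (diagPair_mem ζ ha (Submodule.starProjection_apply_mem _ _)) fun u hu => ?_
  rw [← map_sub, ← inner_conj_symm, ← inner_diagPair, inner_conj_symm]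
  exact Submodule.starProjection_inner_eq_zero w _ (diagPair_mem ζ (star_mem ha) hu)

/-- The off-diagonal entry of the projection. -/
noncomputable def offDiag (M : VonNeumannAlgebra H) (Ω ζ : H) : H →L[ℂ] H :=
  (WithLp.sndL 2 ℂ H H).comp ((pairProj M Ω ζ).comp
    (((WithLp.prodContinuousLinearEquiv 2 ℂ H H).symm : H × H →L[ℂ] WithLp 2 (H × H)).comp
      (ContinuousLinearMap.inl ℂ H H)))

lemma offDiag_apply (ζ w : H) :
    offDiag M Ω ζ w = (pairProj M Ω ζ (WithLp.toLp 2 (w, 0))).snd := rfl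

lemma offDiag_mem_commutant (ζ : H) : offDiag M Ω ζ ∈ M.commutant := by
  rw [VonNeumannAlgebra.mem_commutant_iff]
  intro a ha
  refine ContinuousLinearMap.ext fun w => ?_
  have e : WithLp.toLp 2 (a w, (0 : H)) = diagPair a (WithLp.toLp 2 (w, 0)) := by
    rw [diagPair_toLp, map_zero]
  rw [mul_apply_eq_comp, mul_apply_eq_comp, offDiag_apply, offDiag_apply, e,
    pairProj_diagPair ζ ha]
  rfl

lemma star_offDiag_apply (ζ w : H) :
    star (offDiag M Ω ζ) w = (pairProj M Ω ζ (WithLp.toLp 2 (0, w))).fst := by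
  refine ext_inner_right ℂ fun v => ?_
  rw [inner_star_left, offDiag_apply]
  have e := Submodule.inner_starProjection_left_eq_right (pairs M Ω ζ).topologicalClosure
    (WithLp.toLp 2 (0, w)) (WithLp.toLp 2 (v, 0))
  change ⟪pairProj M Ω ζ _, _⟫_ℂ = ⟪_, pairProj M Ω ζ _⟫_ℂ at e
  simpa [WithLp.prod_inner_apply] using e.symm


end Graph

/-- `ξ` symplectically orthogonal to `K` is a `*`-symmetric vector. -/
lemma inner_eq_of_im_zero {ξ : H} (hξ : ∀ a ∈ M, IsSelfAdjoint a → (⟪a Ω, ξ⟫_ℂ).im = 0)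
    {a : H →L[ℂ] H} (ha : a ∈ M) : ⟪a Ω, ξ⟫_ℂ = ⟪ξ, star a Ω⟫_ℂ := by
  have hsa : ∀ b ∈ M, IsSelfAdjoint b → ⟪ξ, b Ω⟫_ℂ = ⟪b Ω, ξ⟫_ℂ := fun b hb hb' => by
    rw [← inner_conj_symm, Complex.conj_eq_iff_im.2 (hξ b hb hb')]
  obtain ⟨a₁, h₁, a₂, h₂, s₁, s₂, rfl⟩ := exists_sa_decomp ha
  simp [inner_smul_right, s₁.star_eq, s₂.star_eq, hsa _ h₁ s₁, hsa _ h₂ s₂, mul_comm]

/-- Weak approximation of `ξ` by self-adjoint vectors of the commutant. -/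
lemma exists_approx {ξ : H} (hξ : ∀ a ∈ M, IsSelfAdjoint a → (⟪a Ω, ξ⟫_ℂ).im = 0)
    {ε : ℝ} (hε : 0 < ε) :
    ∃ x ∈ M.commutant, IsSelfAdjoint x ∧ ‖x Ω‖ ≤ ‖ξ‖ ∧ ∀ b ∈ M,
      ‖⟪b Ω, x Ω⟫_ℂ - ⟪b Ω, ξ⟫_ℂ‖ ≤ ε * ((‖b ξ‖ + ‖star b ξ‖) * ‖ξ‖) := by
  have hsym := fun a ha => inner_eq_of_im_zero (M := M) hξ (a := a) ha
  set ζ : H := (ε : ℂ) • ξ with hζ
  have hnζ : ‖ζ‖ = ε * ‖ξ‖ := by
    rw [hζ, norm_smul, Complex.norm_real, Real.norm_eq_abs, abs_of_pos hε]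
  set G := (pairs M Ω ζ).topologicalClosure with hG
  set p := pairProj M Ω ζ (WithLp.toLp 2 (Ω, 0)) with hp
  set y : H →L[ℂ] H := ((ε⁻¹ : ℝ) : ℂ) • offDiag M Ω ζ with hy
  have hyM : y ∈ M.commutant :=
    M.commutant.toStarSubalgebra.smul_mem (offDiag_mem_commutant ζ) _
  have hpG : p ∈ G := Submodule.starProjection_apply_mem _ _
  -- `p` is at least as close to `(Ω, 0)` as `(Ω, ζ)`
  have hdist : ‖WithLp.toLp 2 (Ω, (0 : H)) - p‖ ≤ ε * ‖ξ‖ := by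
    have hmem : WithLp.toLp 2 (Ω, ζ) ∈ G :=
      (pairs M Ω ζ).le_topologicalClosure ⟨1, one_mem M, rfl⟩
    rw [hp, pairProj, Submodule.starProjection_minimal]
    refine (ciInf_le ⟨0, by rintro r ⟨w, rfl⟩; exact norm_nonneg _⟩
      (⟨_, hmem⟩ : G)).trans (le_of_eq ?_)
    rw [← WithLp.toLp_sub, Prod.mk_sub_mk, sub_self, zero_sub, WithLp.norm_toLp_snd, norm_neg,
      hnζ]
  have h1 : ‖Ω - p.fst‖ ≤ ε * ‖ξ‖ :=
    le_trans (by simpa using WithLp.norm_fst_le H (WithLp.toLp 2 (Ω, (0 : H)) - p)) hdist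
  have h2 : ‖p.snd‖ ≤ ε * ‖ξ‖ :=
    le_trans (by simpa using WithLp.norm_snd_le H (WithLp.toLp 2 (Ω, (0 : H)) - p)) hdist
  have hyΩ : y Ω = ((ε⁻¹ : ℝ) : ℂ) • p.snd := rfl
  have hn1 : ‖y Ω‖ ≤ ‖ξ‖ := by
    rw [hyΩ, norm_smul, Complex.norm_real, Real.norm_eq_abs, abs_of_pos (inv_pos.2 hε)]
    calc ε⁻¹ * ‖p.snd‖ ≤ ε⁻¹ * (ε * ‖ξ‖) := by gcongr
      _ = ‖ξ‖ := by field_simp
  -- the value of the adjoint
  have hperp : pairProj M Ω ζ (WithLp.toLp 2 (-ζ, Ω)) = 0 := by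
    refine (Submodule.starProjection_apply_eq_zero_iff _).2 fun w hw => ?_
    refine closure_minimal (t := {w : WithLp 2 (H × H) | ⟪w, WithLp.toLp 2 (-ζ, Ω)⟫_ℂ = 0}) ?_
      (isClosed_eq (by fun_prop) continuous_const) hw
    rintro _ ⟨a, ha, rfl⟩
    have e : ⟪a ζ, Ω⟫_ℂ = ⟪a Ω, ζ⟫_ℂ := by
      rw [hζ, map_smul, inner_smul_left, inner_smul_right, Complex.conj_ofReal, hsym a ha]
      congr 1
      rw [← inner_star_left (star a) ξ Ω, star_star]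
    simp [WithLp.prod_inner_apply, e]
  have hn2 : ‖star y Ω‖ ≤ ‖ξ‖ := by
    have e : pairProj M Ω ζ (WithLp.toLp 2 (0, Ω))
        = (ε : ℂ) • pairProj M Ω ζ (WithLp.toLp 2 (ξ, 0)) := by
      rw [← map_smul, ← sub_eq_zero, ← map_sub, ← WithLp.toLp_smul, ← WithLp.toLp_sub]
      simpa [hζ] using hperp
    have e2 : star y Ω = (pairProj M Ω ζ (WithLp.toLp 2 (ξ, 0))).fst := by
      rw [hy, star_smul, smul_apply, star_offDiag_apply, e, WithLp.smul_fst, smul_smul,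
        Complex.star_def, Complex.conj_ofReal, ← Complex.ofReal_mul, inv_mul_cancel₀ hε.ne',
        Complex.ofReal_one, one_smul]
    rw [e2]
    refine (WithLp.norm_fst_le H _).trans ((Submodule.norm_starProjection_apply_le _ _).trans ?_)
    rw [WithLp.norm_toLp_fst]
  -- the two weak approximations
  have hrel : ∀ b ∈ M, ⟪b Ω, p.snd⟫_ℂ = (ε : ℂ) * ⟪b ξ, p.fst⟫_ℂ := by
    intro b hb
    refine closure_minimal
      (t := {w : WithLp 2 (H × H) | ⟪b Ω, w.snd⟫_ℂ = (ε : ℂ) * ⟪b ξ, w.fst⟫_ℂ}) ?_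
      (isClosed_eq (by fun_prop) (by fun_prop)) hpG
    rintro _ ⟨a, ha, rfl⟩
    change ⟪b Ω, a ζ⟫_ℂ = (ε : ℂ) * ⟪b ξ, a Ω⟫_ℂ
    rw [hζ, map_smul, inner_smul_right, ← inner_star_left a (b Ω) ξ]
    congr 1
    rw [← mul_apply_eq_comp (star a) b, hsym _ (mul_mem (star_mem ha) hb), star_mul, star_star,
      mul_apply_eq_comp, ← inner_star_left (star b) ξ (a Ω), star_star]
  have hw1 : ∀ b ∈ M, ‖⟪b Ω, y Ω⟫_ℂ - ⟪b Ω, ξ⟫_ℂ‖ ≤ ε * (‖b ξ‖ * ‖ξ‖) := by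
    intro b hb
    have e : ⟪b Ω, y Ω⟫_ℂ - ⟪b Ω, ξ⟫_ℂ = ⟪b ξ, p.fst - Ω⟫_ℂ := by
      rw [inner_sub_right, hyΩ, inner_smul_right, hrel b hb, ← mul_assoc, ← Complex.ofReal_mul,
        inv_mul_cancel₀ hε.ne', Complex.ofReal_one, one_mul, hsym b hb]
      rw [← inner_star_left (star b) ξ Ω, star_star]
    rw [e]
    refine (norm_inner_le_norm _ _).trans ?_
    rw [norm_sub_rev]
    calc ‖b ξ‖ * ‖Ω - p.fst‖ ≤ ‖b ξ‖ * (ε * ‖ξ‖) := by gcongr
      _ = ε * (‖b ξ‖ * ‖ξ‖) := by ring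
  have hw2 : ∀ b ∈ M, ‖⟪b Ω, star y Ω⟫_ℂ - ⟪b Ω, ξ⟫_ℂ‖ ≤ ε * (‖star b ξ‖ * ‖ξ‖) := by
    intro b hb
    have e : ⟪b Ω, star y Ω⟫_ℂ = conj ⟪star b Ω, y Ω⟫_ℂ := by
      rw [inner_conj_symm, ← inner_star_left (star y) (b Ω) Ω, star_star, commute_apply hb hyM,
        ← inner_star_left (star b) (y Ω) Ω, star_star]
    rw [e, hsym b hb, ← inner_conj_symm ξ, ← map_sub, Complex.norm_conj]
    exact hw1 _ (star_mem hb)
  -- symmetrize
  refine ⟨((1 / 2 : ℝ) : ℂ) • (y + star y),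
    M.commutant.toStarSubalgebra.smul_mem (add_mem hyM (star_mem hyM)) _, ?_, ?_, fun b hb => ?_⟩
  · simp [IsSelfAdjoint, star_smul, add_comm]
  · rw [smul_apply, add_apply, norm_smul, Complex.norm_real]
    have := norm_add_le (y Ω) (star y Ω)
    rw [Real.norm_eq_abs, abs_of_pos (by norm_num : (0:ℝ) < 1/2)]
    linarith
  · have e : ⟪b Ω, (((1 / 2 : ℝ) : ℂ) • (y + star y)) Ω⟫_ℂ - ⟪b Ω, ξ⟫_ℂ
        = (1 / 2 : ℂ) * ((⟪b Ω, y Ω⟫_ℂ - ⟪b Ω, ξ⟫_ℂ) + (⟪b Ω, star y Ω⟫_ℂ - ⟪b Ω, ξ⟫_ℂ)) := by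
      simp only [smul_apply, add_apply, inner_smul_right, inner_add_right]
      push_cast; ring
    rw [e, norm_mul, show ‖(1 / 2 : ℂ)‖ = 1 / 2 by norm_num]
    have := norm_nonneg
      (⟪b Ω, y Ω⟫_ℂ - ⟪b Ω, ξ⟫_ℂ + (⟪b Ω, star y Ω⟫_ℂ - ⟪b Ω, ξ⟫_ℂ))
    linear_combination (1 : ℝ) * hw1 b hb + (1 : ℝ) * hw2 b hb +
      (1 : ℝ) * norm_add_le (⟪b Ω, y Ω⟫_ℂ - ⟪b Ω, ξ⟫_ℂ) (⟪b Ω, star y Ω⟫_ℂ - ⟪b Ω, ξ⟫_ℂ) +
      (1 / 2 : ℝ) * this

theorem CycSep.mem_K_commutant (h : CycSep M Ω) {ξ : H}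
    (hξ : ∀ a ∈ M, IsSelfAdjoint a → (⟪a Ω, ξ⟫_ℂ).im = 0) : ξ ∈ K M.commutant Ω := by
  rw [← Submodule.orthogonal_orthogonal (K M.commutant Ω)]
  intro η hη
  show (⟪η, ξ⟫_ℂ).re = 0
  have key : |(⟪η, ξ⟫_ℂ).re| ≤ 0 := by
    refine le_of_forall_pos_le_add fun δ hδ => ?_
    obtain ⟨_, ⟨b, hb, rfl⟩, hbd⟩ :=
      h.cyclic.exists_dist_lt η (show 0 < δ / (4 * (‖ξ‖ + 1)) by positivity)
    set C : ℝ := (‖b ξ‖ + ‖star b ξ‖) * ‖ξ‖ with hC
    have hC0 : 0 ≤ C := by positivity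
    obtain ⟨x, hx, hxs, hxn, hxb⟩ := exists_approx hξ (show 0 < δ / (4 * (C + 1)) by positivity)
    have h0 : (⟪η, x Ω⟫_ℂ).re = 0 := by
      have := hη _ (apply_mem_K hx hxs)
      rwa [real_inner_def, ← inner_conj_symm, Complex.conj_re] at this
    have e : ⟪η, ξ⟫_ℂ = ⟪η, x Ω⟫_ℂ - (⟪b Ω, x Ω⟫_ℂ - ⟪b Ω, ξ⟫_ℂ)
        + ⟪η - b Ω, ξ - x Ω⟫_ℂ := by
      simp only [inner_sub_left, inner_sub_right]; ring
    have h1 : ‖⟪η - b Ω, ξ - x Ω⟫_ℂ‖ ≤ δ / 2 := by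
      refine (norm_inner_le_norm _ _).trans ?_
      rw [dist_eq_norm] at hbd
      have : ‖ξ - x Ω‖ ≤ 2 * (‖ξ‖ + 1) := by
        have := norm_sub_le ξ (x Ω); linarith [norm_nonneg ξ]
      calc ‖η - b Ω‖ * ‖ξ - x Ω‖ ≤ δ / (4 * (‖ξ‖ + 1)) * (2 * (‖ξ‖ + 1)) :=
            mul_le_mul hbd.le this (norm_nonneg _) (by positivity)
        _ = δ / 2 := by field_simp; ring
    have h2 : ‖⟪b Ω, x Ω⟫_ℂ - ⟪b Ω, ξ⟫_ℂ‖ ≤ δ / 4 := by
      refine (hxb b hb).trans ?_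
      rw [← hC, div_mul_eq_mul_div, div_le_div_iff₀ (by positivity) (by norm_num)]
      nlinarith
    rw [e, Complex.add_re, Complex.sub_re, h0, zero_sub]
    have := (Complex.abs_re_le_norm _).trans h1
    have := (Complex.abs_re_le_norm _).trans h2
    refine (abs_add_le _ _).trans ?_
    rw [abs_neg]
    linarith
  exact abs_nonpos_iff.1 key

theorem CycSep.proj_commutant (h : CycSep M Ω) (ξ : H) :
    proj M.commutant Ω ξ = ξ - projI M Ω ξ := by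
  refine Submodule.eq_starProjection_of_mem_of_inner_eq_zero (h.mem_K_commutant ?_) ?_
  · intro a ha hsa
    have e := re_inner_sa_proj' (v := -I • ξ) ha hsa
    simp only [projI, inner_sub_right, inner_smul_right, Complex.sub_im, Complex.mul_im, Complex.I_re,
      Complex.I_im, Complex.mul_re, Complex.neg_re, Complex.neg_im] at e ⊢
    linarith
  · intro w hw
    have him : ∀ k ∈ K M Ω, (⟪k, w⟫_ℂ).im = 0 := by
      intro k hk
      refine closure_minimal (t := {k : H | (⟪k, w⟫_ℂ).im = 0}) ?_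
        (isClosed_eq (by fun_prop) continuous_const) hk
      rintro _ ⟨a, ha, hsa, rfl⟩
      refine closure_minimal (t := {w : H | (⟪a Ω, w⟫_ℂ).im = 0}) ?_
        (isClosed_eq (by fun_prop) continuous_const) hw
      rintro _ ⟨b, hb, hsb, rfl⟩
      exact inner_im_eq_zero ha hsa hb hsb
    rw [sub_sub_cancel, real_inner_def, projI, inner_smul_left]
    simp [him _ (proj_mem _)]
where
  /-- The projection is invisible against self-adjoint vectors. -/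
  re_inner_sa_proj' {a : H →L[ℂ] H} {v : H} (ha : a ∈ M) (hsa : IsSelfAdjoint a) :
      (⟪a Ω, proj M Ω v⟫_ℂ).re = (⟪a Ω, v⟫_ℂ).re := by
    rw [← re_inner_proj, proj_apply_sa ha hsa]

lemma CycSep.projI_commutant (h : CycSep M Ω) (ξ : H) :
    projI M.commutant Ω ξ = ξ - proj M Ω ξ := by
  rw [projI, h.proj_commutant, projI]
  simp only [smul_sub, smul_smul, neg_mul, mul_neg, Complex.I_mul_I, neg_neg, one_smul]
  simp

theorem CycSep.R_commutant (h : CycSep M Ω) :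
    R M.commutant Ω = (2 : ℂ) • 1 - R M Ω := by
  refine ContinuousLinearMap.ext fun ξ => ?_
  rw [R_apply, h.proj_commutant, h.projI_commutant]
  rw [sub_apply, R_apply, smul_apply, one_apply_eq_self, two_smul]
  abel

theorem CycSep.D_commutant (h : CycSep M Ω) : D M.commutant Ω = D M Ω := by
  refine ContinuousLinearMap.ext fun ξ => ?_
  rw [D_apply, h.proj_commutant, h.projI_commutant, D_apply]
  abel

end Vale.Agent.P132.Tomita
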