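import Mathlib

/-!
The kernel `e^{2θt} / (2 cosh πt)`: its Fourier transform, uniqueness for the Laplace pairing,
and the operator identity that inverts `X ↦ λ e^{-δ/2} X + λ̄ e^{δ/2} X`.
-/

open MeasureTheory Set Filter Topology Complex

noncomputable section

namespace Vale.Agent.P132.Tomita

/-- The map `t ↦ 1 / (1 + e^{-2πt})`. -/
def sigK (t : ℝ) : ℝ := Real.sigmoid (2 * Real.pi * t)

lemma hasDerivAt_sigK (t : ℝ) :
    HasDerivAt sigK (2 * Real.pi * (sigK t * (1 - sigK t))) t := by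
  have h := (Real.hasDerivAt_sigmoid (2 * Real.pi * t)).comp t
    ((hasDerivAt_id t).const_mul (2 * Real.pi))
  refine h.congr_deriv ?_
  simp only [sigK]
  ring

lemma sigK_injective : Function.Injective sigK := fun a b h => by
  have := Real.sigmoid_injective h
  have h2 : (2 : ℝ) * Real.pi ≠ 0 := by positivity
  exact mul_left_cancel₀ h2 this

lemma sigK_image : sigK '' univ = Ioo 0 1 := by
  rw [image_univ, ← Real.range_sigmoid]
  refine Subset.antisymm ?_ ?_
  · rintro _ ⟨t, rfl⟩; exact ⟨_, rfl⟩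
  · rintro _ ⟨x, rfl⟩
    refine ⟨x / (2 * Real.pi), ?_⟩
    rw [sigK, mul_div_cancel₀ _ (show (2 : ℝ) * Real.pi ≠ 0 by positivity)]

lemma beta_subst {u : ℂ} (t : ℝ) :
    |2 * Real.pi * (sigK t * (1 - sigK t))|
        • ((sigK t : ℂ) ^ (u - 1) * (1 - (sigK t : ℂ)) ^ ((1 - u) - 1))
      = 2 * (Real.pi : ℂ)
        * (cexp ((2 * Real.pi * u - Real.pi) * t) / (2 * (Real.cosh (Real.pi * t) : ℂ))) := by
  set x := sigK t with hx
  have hx0 : 0 < x := Real.sigmoid_pos _
  have hx1 : x < 1 := Real.sigmoid_lt_one _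
  have hy0 : (0 : ℝ) < 1 - x := by linarith
  have hxy : x = (1 - x) * Real.exp (2 * Real.pi * t) := by
    have h := Real.sigmoid_mul_rexp_neg (2 * Real.pi * t)
    rw [Real.sigmoid_neg, ← sigK, ← hx] at h
    rw [← h, mul_assoc, ← Real.exp_add, neg_add_cancel, Real.exp_zero, mul_one]
  have hy : 1 - x = Real.exp (-(Real.pi * t)) / (2 * Real.cosh (Real.pi * t)) := by
    have h : (1 - x) * (Real.exp (2 * Real.pi * t) + 1) = 1 := by linarith [hxy]
    rw [eq_div_iff (by positivity), Real.cosh_eq,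
      show Real.exp (-(Real.pi * t)) = Real.exp (-(Real.pi * t)) * 1 by ring]
    conv_rhs => rw [← h]
    have e : Real.exp (Real.pi * t) = Real.exp (-(Real.pi * t)) * Real.exp (2 * Real.pi * t) := by
      rw [← Real.exp_add]; ring_nf
    rw [e]
    ring
  rw [abs_of_pos (by positivity), show (1 - (x : ℂ)) = ((1 - x : ℝ) : ℂ) by push_cast; ring,
    cpow_def_of_ne_zero (by exact_mod_cast hx0.ne'), cpow_def_of_ne_zero (by exact_mod_cast hy0.ne'),
    ← Complex.ofReal_log hx0.le, ← Complex.ofReal_log hy0.le, Complex.real_smul]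
  have hl : Real.log x = Real.log (1 - x) + 2 * Real.pi * t := by
    conv_lhs => rw [hxy]
    rw [Real.log_mul hy0.ne' (Real.exp_pos _).ne', Real.log_exp]
  rw [show 2 * Real.pi * (x * (1 - x)) = 2 * Real.pi * (Real.exp (Real.log x)
    * Real.exp (Real.log (1 - x))) by rw [Real.exp_log hx0, Real.exp_log hy0], hl]
  push_cast
  rw [← Complex.exp_add, ← Complex.exp_add, mul_assoc (2 * (Real.pi : ℂ)),
    ← Complex.exp_add]
  have hl2 : ((Real.log (1 - x) : ℝ) : ℂ) = -((Real.pi : ℂ) * t)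
      - ((Real.log (2 * Real.cosh (Real.pi * t)) : ℝ) : ℂ) := by
    rw [hy, Real.log_div (Real.exp_pos _).ne' (by positivity), Real.log_exp]
    push_cast; ring
  have hc : (2 * Complex.cosh ((Real.pi : ℂ) * t))
      = cexp ((Real.log (2 * Real.cosh (Real.pi * t)) : ℝ) : ℂ) := by
    rw [← Complex.ofReal_exp, Real.exp_log (by positivity)]; push_cast; ring
  rw [hc, ← Complex.exp_sub, hl2]
  ring_nf

/-- (K1) The Fourier-Laplace transform of `1 / (2 cosh πt)`. -/
theorem integral_exp_div_cosh (a : ℂ) (ha : |a.re| < Real.pi) :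
    Integrable (fun t : ℝ => cexp (a * t) / (2 * (Real.cosh (Real.pi * t) : ℂ))) ∧
      ∫ t : ℝ, cexp (a * t) / (2 * (Real.cosh (Real.pi * t) : ℂ))
        = 1 / (2 * Complex.cos (a / 2)) := by
  have hpi : (Real.pi : ℂ) ≠ 0 := by exact_mod_cast Real.pi_ne_zero
  set u : ℂ := (a + Real.pi) / (2 * Real.pi) with hu
  have hua : 2 * (Real.pi : ℂ) * u - Real.pi = a := by rw [hu]; field_simp; ring
  have hre : u.re = (a.re + Real.pi) / (2 * Real.pi) := by
    rw [hu, show (2 * (Real.pi : ℂ)) = ((2 * Real.pi : ℝ) : ℂ) by push_cast; ring,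
      Complex.div_ofReal_re, add_re, ofReal_re]
  obtain ⟨ha1, ha2⟩ := abs_lt.1 ha
  have hu0 : 0 < u.re := by rw [hre]; exact div_pos (by linarith) (by positivity)
  have hu1 : 0 < (1 - u).re := by
    rw [sub_re, one_re, hre, sub_pos, div_lt_one (by positivity)]; linarith
  set g : ℝ → ℂ := fun x => (x : ℂ) ^ (u - 1) * (1 - (x : ℂ)) ^ ((1 - u) - 1) with hg
  have hd : ∀ t ∈ (univ : Set ℝ), HasDerivWithinAt sigK
      (2 * Real.pi * (sigK t * (1 - sigK t))) univ t :=
    fun t _ => (hasDerivAt_sigK t).hasDerivWithinAt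
  have e : ∀ t : ℝ, |2 * Real.pi * (sigK t * (1 - sigK t))| • g (sigK t)
      = 2 * (Real.pi : ℂ) * (cexp (a * t) / (2 * (Real.cosh (Real.pi * t) : ℂ))) := fun t => by
    rw [hg, ← hua]; exact beta_subst t
  have hint : IntegrableOn g (Ioo 0 1) :=
    ((intervalIntegrable_iff_integrableOn_Ioc_of_le zero_le_one).1
      (Complex.betaIntegral_convergent hu0 hu1)).mono_set Ioo_subset_Ioc_self
  rw [← sigK_image, integrableOn_image_iff_integrableOn_abs_deriv_smul MeasurableSet.univ hd
    sigK_injective.injOn, integrableOn_univ] at hint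
  simp only [e] at hint
  have h2 : (2 * (Real.pi : ℂ)) ≠ 0 := mul_ne_zero two_ne_zero hpi
  refine ⟨?_, ?_⟩
  · have := hint.const_mul (2 * (Real.pi : ℂ))⁻¹
    refine this.congr (Eventually.of_forall fun t => ?_)
    exact inv_mul_cancel_left₀ h2 _
  have hB : Complex.betaIntegral u (1 - u) = Real.pi / Complex.sin (Real.pi * u) := by
    have h := Complex.Gamma_mul_Gamma_eq_betaIntegral hu0 hu1
    rw [add_sub_cancel, Complex.Gamma_one, one_mul, Complex.Gamma_mul_Gamma_one_sub] at h
    exact h.symm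
  have hI : Complex.betaIntegral u (1 - u) = ∫ x in Ioo (0 : ℝ) 1, g x := by
    rw [Complex.betaIntegral, intervalIntegral.integral_of_le zero_le_one,
      integral_Ioc_eq_integral_Ioo]
  rw [← sigK_image, integral_image_eq_integral_abs_deriv_smul MeasurableSet.univ hd
    sigK_injective.injOn, setIntegral_univ] at hI
  simp only [e] at hI
  rw [integral_const_mul, hB] at hI
  have hsin : Complex.sin (Real.pi * u) = Complex.cos (a / 2) := by
    rw [show (Real.pi : ℂ) * u = a / 2 + Real.pi / 2 by rw [hu]; field_simp,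
      Complex.sin_add_pi_div_two]
  rw [hsin] at hI
  refine mul_left_cancel₀ h2 (hI.symm.trans ?_)
  ring

/-- The real kernel `e^{ct} / (2 cosh πt)`. -/
def kerc (c t : ℝ) : ℝ := Real.exp (c * t) / (2 * Real.cosh (Real.pi * t))

lemma continuous_kerc (c : ℝ) : Continuous (kerc c) :=
  Continuous.div (by fun_prop) (by fun_prop) fun t => by positivity

lemma kerc_pos (c t : ℝ) : 0 < kerc c t :=
  div_pos (Real.exp_pos _) (by positivity)

lemma ofReal_kerc (c t : ℝ) :
    ((kerc c t : ℝ) : ℂ) = cexp ((c : ℂ) * t) / (2 * (Real.cosh (Real.pi * t) : ℂ)) := by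
  simp [kerc]

lemma integrable_kerc {c : ℝ} (hc : |c| < Real.pi) : Integrable (kerc c) := by
  have h := (integral_exp_div_cosh (c : ℂ) (by simpa using hc)).1.re
  refine h.congr (Eventually.of_forall fun t => ?_)
  exact (congrArg Complex.re (ofReal_kerc c t)).symm.trans (ofReal_re _)

lemma kerc_le_add {c d : ℝ} (h : |c| ≤ d) (t : ℝ) : kerc c t ≤ kerc d t + kerc (-d) t := by
  simp only [kerc, ← add_div]
  refine div_le_div_of_nonneg_right ?_ (by positivity)
  obtain ⟨h1, h2⟩ := abs_le.1 h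
  rcases le_total 0 t with ht | ht
  · exact (Real.exp_le_exp.2 (mul_le_mul_of_nonneg_right h2 ht)).trans
      (le_add_of_nonneg_right (Real.exp_pos _).le)
  · exact (Real.exp_le_exp.2 (mul_le_mul_of_nonpos_right h1 ht)).trans
      (le_add_of_nonneg_left (Real.exp_pos _).le)

lemma abs_mul_kerc_le {c e t : ℝ} (he : 0 < e) :
    |t| * kerc c t ≤ (kerc (c + e) t + kerc (c - e) t) / e := by
  simp only [kerc, ← add_div, ← mul_div_assoc]
  rw [div_right_comm]
  refine div_le_div_of_nonneg_right ?_ (by positivity)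
  rw [le_div_iff₀ he, add_mul c e, sub_mul c e, Real.exp_add, Real.exp_sub, div_eq_mul_inv,
    ← mul_add, ← Real.exp_neg]
  rw [show |t| * Real.exp (c * t) * e = Real.exp (c * t) * (|t| * e) by ring]
  refine mul_le_mul_of_nonneg_left ?_ (Real.exp_pos _).le
  rcases le_total 0 t with ht | ht
  · rw [abs_of_nonneg ht]
    linarith [Real.add_one_le_exp (e * t), Real.exp_pos (-(e * t))]
  · rw [abs_of_nonpos ht]
    linarith [Real.add_one_le_exp (-(e * t)), Real.exp_pos (e * t)]

/-- (K2) Uniqueness for the pairing with the kernels. -/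
theorem eq_zero_of_kernel (h : ℝ → ℂ) (hc : Continuous h) (hb : ∃ C, ∀ t, ‖h t‖ ≤ C)
    (H : ∀ θ : ℝ, |θ| < Real.pi / 2 →
      ∫ t : ℝ, ((Real.exp (2 * θ * t) / (2 * Real.cosh (Real.pi * t)) : ℝ) : ℂ) * h t = 0) :
    h = 0 := by
  obtain ⟨C, hC⟩ := hb
  have hC0 : 0 ≤ C := (norm_nonneg _).trans (hC 0)
  set g : ℝ → ℂ := fun t => ((kerc 0 t : ℝ) : ℂ) * h t with hg
  set F : ℂ → ℂ := fun z => ∫ t : ℝ, cexp (2 * z * t) * g t with hF
  have hgc : Continuous g := (continuous_ofReal.comp (continuous_kerc 0)).mul hc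
  have hnorm : ∀ (z : ℂ) (t : ℝ), ‖cexp (2 * z * t) * g t‖ ≤ C * kerc (2 * z.re) t := by
    intro z t
    have e : Real.exp (2 * z.re * t) * kerc 0 t = kerc (2 * z.re) t := by
      simp only [kerc, zero_mul, Real.exp_zero, mul_one_div]
    rw [hg, norm_mul, norm_mul, Complex.norm_exp, Complex.norm_real,
      Real.norm_of_nonneg (kerc_pos 0 t).le, ← mul_assoc, ← e, mul_comm C]
    simp only [mul_re, re_ofNat, im_ofNat, zero_mul, sub_zero, ofReal_re, ofReal_im, mul_zero]
    exact mul_le_mul_of_nonneg_left (hC t) (mul_nonneg (Real.exp_pos _).le (kerc_pos 0 t).le)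
  set U : Set ℂ := {z | |z.re| < Real.pi / 2}
  have hUo : IsOpen U := isOpen_lt (continuous_abs.comp continuous_re) continuous_const
  have hdiff : DifferentiableOn ℂ F U := by
    intro z hz
    set r := (Real.pi / 2 - |z.re|) / 4 with hr
    have hr0 : 0 < r := by
      have : |z.re| < Real.pi / 2 := hz
      rw [hr]; linarith
    set d := 2 * |z.re| + 4 * r with hd
    have hd1 : |d| < Real.pi := by
      rw [abs_of_nonneg (by positivity), hd, hr]; linarith [show |z.re| < Real.pi / 2 from hz]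
    refine ((hasDerivAt_integral_of_dominated_loc_of_deriv_le (s := Metric.ball z r)
      (bound := fun t => C * ((kerc d t + kerc (-d) t + (kerc d t + kerc (-d) t)) / r))
      (F' := fun w t => 2 * (t : ℂ) * cexp (2 * w * t) * g t) (Metric.ball_mem_nhds z hr0)
      (Eventually.of_forall fun w => (Continuous.mul (by fun_prop) hgc).aestronglyMeasurable)
      ?_ (Continuous.mul (by fun_prop) hgc).aestronglyMeasurable ?_ ?_
      ?_).2).differentiableAt.differentiableWithinAt
    · exact ((integrable_kerc (c := 2 * z.re) (by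
        rw [abs_mul, abs_two]; linarith [show |z.re| < Real.pi / 2 from hz])).const_mul C).mono'
        (Continuous.mul (by fun_prop) hgc).aestronglyMeasurable
        (Eventually.of_forall (hnorm z))
    · refine Eventually.of_forall fun t w hw => ?_
      have hw' : |w.re| ≤ |z.re| + r := by
        have h1 := abs_re_le_norm (w - z)
        rw [sub_re] at h1
        have h2 : ‖w - z‖ < r := by rwa [← Complex.dist_eq]
        have := abs_sub_abs_le_abs_sub w.re z.re
        linarith
      have e : ‖2 * (t : ℂ) * cexp (2 * w * t) * g t‖ = 2 * |t| * ‖cexp (2 * w * t) * g t‖ := by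
        rw [mul_assoc, norm_mul, norm_mul, Complex.norm_real, Complex.norm_two, Real.norm_eq_abs]
      rw [e]
      refine (mul_le_mul_of_nonneg_left (hnorm w t) (by positivity)).trans ?_
      rw [show 2 * |t| * (C * kerc (2 * w.re) t) = C * (2 * (|t| * kerc (2 * w.re) t)) by ring]
      refine mul_le_mul_of_nonneg_left ?_ hC0
      have h3 := abs_mul_kerc_le (c := 2 * w.re) (t := t) (show (0 : ℝ) < 2 * r by linarith)
      have h4 : ∀ s : ℝ, |s| ≤ 2 * r → kerc (2 * w.re + s) t ≤ kerc d t + kerc (-d) t := by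
        intro s hs
        refine kerc_le_add ?_ t
        refine (abs_add_le _ _).trans ?_
        rw [abs_mul, abs_two, hd]; linarith
      have h5 := h4 (2 * r) (by rw [abs_of_pos (by linarith)])
      have h6 := h4 (-(2 * r)) (by rw [abs_neg, abs_of_pos (by linarith)])
      rw [← sub_eq_add_neg] at h6
      calc 2 * (|t| * kerc (2 * w.re) t)
          ≤ 2 * ((kerc (2 * w.re + 2 * r) t + kerc (2 * w.re - 2 * r) t) / (2 * r)) :=
            mul_le_mul_of_nonneg_left h3 two_pos.le
        _ = (kerc (2 * w.re + 2 * r) t + kerc (2 * w.re - 2 * r) t) / r := by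
            field_simp
        _ ≤ (kerc d t + kerc (-d) t + (kerc d t + kerc (-d) t)) / r :=
            div_le_div_of_nonneg_right (add_le_add h5 h6) hr0.le
    · have hk2 := (integrable_kerc hd1).add (integrable_kerc (c := -d) (by rwa [abs_neg]))
      exact ((hk2.add hk2).div_const r).const_mul C
    · refine Eventually.of_forall fun t w _ => ?_
      have h1 : HasDerivAt (fun w : ℂ => 2 * w * t) (2 * t) w := by
        simpa using ((hasDerivAt_id w).const_mul 2).mul_const (t : ℂ)
      refine ((h1.cexp).mul_const (g t)).congr_deriv ?_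
      ring
  have hU : U = reLm ⁻¹' Ioo (-(Real.pi / 2)) (Real.pi / 2) := by
    ext z; simp [U, abs_lt]
  have hconn : IsPreconnected U := hU ▸
    ((convex_Ioo (-(Real.pi / 2)) (Real.pi / 2)).linear_preimage reLm).isPreconnected
  have hreal : ∀ θ : ℝ, |θ| < Real.pi / 2 → F θ = 0 := fun θ hθ => by
    rw [← H θ hθ]
    refine integral_congr_ae (Eventually.of_forall fun t => ?_)
    simp only [hg, kerc, zero_mul, Real.exp_zero]
    push_cast
    ring
  have hzero : EqOn F 0 U := by
    refine (hdiff.analyticOnNhd hUo).eqOn_zero_of_preconnected_of_frequently_eq_zero hconn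
      (z₀ := 0) (by simp [U, Real.pi_pos]) ?_
    have h1 : Tendsto (fun θ : ℝ => (θ : ℂ)) (𝓝[≠] 0) (𝓝[≠] 0) := by
      refine tendsto_nhdsWithin_iff.2 ⟨?_, eventually_nhdsWithin_of_forall fun θ hθ => ?_⟩
      · exact (continuous_ofReal.tendsto' 0 0 ofReal_zero).mono_left nhdsWithin_le_nhds
      · simpa using hθ
    refine h1.frequently (Eventually.frequently ?_)
    have h2 : ∀ᶠ θ : ℝ in 𝓝 0, |θ| < Real.pi / 2 :=
      (continuous_abs.tendsto' 0 0 abs_zero).eventually (gt_mem_nhds (by positivity))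
    exact (h2.filter_mono nhdsWithin_le_nhds).mono hreal
  have hgi : Integrable g :=
    ((integrable_kerc (c := 2 * (0 : ℂ).re) (by simp [Real.pi_pos])).const_mul C).mono'
      hgc.aestronglyMeasurable (Eventually.of_forall fun t => by simpa using hnorm 0 t)
  have hft : FourierTransform.fourier g = 0 := by
    ext ξ
    rw [Real.fourier_real_eq_integral_exp_smul]
    have := hzero (show ((-(Real.pi * ξ) : ℝ) : ℂ) * I ∈ U by simp [U, Real.pi_pos])
    simp only [hF, Pi.zero_apply] at this ⊢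
    rw [← this]
    refine integral_congr_ae (Eventually.of_forall fun t => ?_)
    simp only [smul_eq_mul]
    push_cast
    ring_nf
  have hinv := hgc.fourierInv_fourier_eq hgi (by rw [hft]; exact integrable_zero _ _ _)
  funext t
  have h0 : g t = 0 := by
    rw [← hinv, hft]
    simp [Real.fourierInv_eq]
  simp only [hg, mul_eq_zero, ofReal_eq_zero] at h0
  exact h0.resolve_left (kerc_pos 0 t).ne'

variable {E : Type*} [NormedAddCommGroup E] [InnerProductSpace ℂ E] [CompleteSpace E]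

/-- `exp (z L)`. -/
def expOp (L : E →L[ℂ] E) (z : ℂ) : E →L[ℂ] E := cfc (fun s : ℂ => cexp (z * s)) L

/-- A bump at `c`, normalised over the finite set `S`. -/
def bumpS (S : Finset ℂ) (ε : ℝ) (c x : ℂ) : ℂ :=
  ((max 0 (ε - dist x c) / ∑ d ∈ S, max 0 (ε - dist x d) : ℝ) : ℂ)

/-- The step approximation of `exp (z L)`. -/
def stepOp (L : E →L[ℂ] E) (S : Finset ℂ) (ε : ℝ) (z : ℂ) : E →L[ℂ] E :=
  ∑ c ∈ S, cexp (z * c) • cfc (bumpS S ε c) L

variable {L : E →L[ℂ] E}

lemma expOp_add [IsStarNormal L] (z w : ℂ) : expOp L (z + w) = expOp L z * expOp L w := by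
  rw [expOp, expOp, expOp, ← cfc_mul (fun s : ℂ => cexp (z * s)) (fun s : ℂ => cexp (w * s)) L]
  simp only [add_mul, Complex.exp_add]

lemma expOp_zero [IsStarNormal L] : expOp L 0 = 1 := by
  simp [expOp, cfc_const_one ℂ L]

lemma spectrum_real (hL : IsSelfAdjoint L) {x : ℂ} (hx : x ∈ spectrum ℂ L) :
    x = (x.re : ℂ) ∧ |x.re| ≤ ‖L‖ := by
  refine ⟨hL.mem_spectrum_eq_re hx, (abs_re_le_norm x).trans ?_⟩
  have : Nontrivial E := by
    by_contra hE
    rw [not_nontrivial_iff_subsingleton] at hE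
    exact (spectrum.of_subsingleton (R := ℂ) L ▸ hx : x ∈ (∅ : Set ℂ)).elim
  exact spectrum.norm_le_norm_of_mem hx

lemma norm_expOp_le (hL : IsSelfAdjoint L) (z : ℂ) :
    ‖expOp L z‖ ≤ Real.exp (|z.re| * ‖L‖) := by
  refine norm_cfc_le (Real.exp_pos _).le fun x hx => ?_
  obtain ⟨e, hb⟩ := spectrum_real hL hx
  rw [Complex.norm_exp, e]
  refine Real.exp_le_exp.2 ?_
  simp only [mul_re, ofReal_re, ofReal_im, mul_zero, sub_zero]
  calc z.re * x.re ≤ |z.re * x.re| := le_abs_self _
    _ ≤ |z.re| * ‖L‖ := by rw [abs_mul]; exact mul_le_mul_of_nonneg_left hb (abs_nonneg _)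

lemma exp_sub_exp_le {B : ℝ} (z : ℂ) {x y : ℝ} (hx : |x| ≤ B) (hy : |y| ≤ B) :
    ‖cexp (z * x) - cexp (z * y)‖ ≤ ‖z‖ * Real.exp (|z.re| * B) * |x - y| := by
  have hd : ∀ s ∈ Icc (-B) B, HasDerivWithinAt (fun s : ℝ => cexp (z * s))
      (z * cexp (z * s)) (Icc (-B) B) s := fun s _ => by
    have := ((hasDerivAt_id (s : ℂ)).const_mul z).cexp.comp_ofReal
    refine (this.congr_deriv ?_).hasDerivWithinAt
    simp; ring
  have := (convex_Icc (-B) B).norm_image_sub_le_of_norm_hasDerivWithin_le hd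
    (C := ‖z‖ * Real.exp (|z.re| * B)) (fun s hs => by
      rw [norm_mul, Complex.norm_exp]
      refine mul_le_mul_of_nonneg_left (Real.exp_le_exp.2 ?_) (norm_nonneg _)
      simp only [mul_re, ofReal_re, ofReal_im, mul_zero, sub_zero]
      calc z.re * s ≤ |z.re * s| := le_abs_self _
        _ ≤ |z.re| * B := by
          rw [abs_mul]; exact mul_le_mul_of_nonneg_left (abs_le.2 hs) (abs_nonneg _))
    (abs_le.1 hy) (abs_le.1 hx)
  simpa [Real.norm_eq_abs] using this

lemma exists_step (hL : IsSelfAdjoint L) {ε : ℝ} (hε : 0 < ε) :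
    ∃ S : Finset ℂ, (∀ c ∈ S, c = (c.re : ℂ)) ∧ (∑ c ∈ S, cfc (bumpS S ε c) L = 1) ∧
      ∀ z : ℂ, ‖stepOp L S ε z‖ ≤ Real.exp (|z.re| * ‖L‖) ∧
        ‖expOp L z - stepOp L S ε z‖ ≤ ‖z‖ * Real.exp (|z.re| * ‖L‖) * ε := by
  have : IsStarNormal L := hL.isStarNormal
  obtain ⟨S, hS, hcov⟩ := (spectrum.isCompact (𝕜 := ℂ) L).elim_nhds_subcover
    (fun c => Metric.ball c ε) (fun c _ => Metric.ball_mem_nhds c hε)
  refine ⟨S, fun c hc => (spectrum_real hL (hS c hc)).1, ?_⟩
  have hden : ∀ x ∈ spectrum ℂ L, 0 < ∑ d ∈ S, max 0 (ε - dist x d) := fun x hx => by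
    obtain ⟨d, hd, hxd⟩ := mem_iUnion₂.1 (hcov hx)
    refine Finset.sum_pos' (fun _ _ => le_max_left _ _) ⟨d, hd, lt_max_of_lt_right ?_⟩
    rw [Metric.mem_ball] at hxd; linarith
  have hcont : ∀ c, ContinuousOn (bumpS S ε c) (spectrum ℂ L) := fun c => by
    refine continuous_ofReal.comp_continuousOn (ContinuousOn.div ?_ ?_ fun x hx => (hden x hx).ne')
    · fun_prop
    · fun_prop
  have hsum : ∀ x ∈ spectrum ℂ L, ∑ c ∈ S, bumpS S ε c x = 1 := fun x hx => by
    simp only [bumpS, ← ofReal_sum, ← Finset.sum_div]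
    rw [div_self (hden x hx).ne', ofReal_one]
  have hone : ∑ c ∈ S, cfc (bumpS S ε c) L = 1 := by
    rw [← cfc_sum _ L S fun c _ => hcont c, ← cfc_const_one ℂ L]
    exact cfc_congr fun x hx => by simp [hsum x hx]
  refine ⟨hone, fun z => ?_⟩
  have hstep : stepOp L S ε z = cfc (fun x => ∑ c ∈ S, cexp (z * c) * bumpS S ε c x) L := by
    rw [stepOp, show (fun x => ∑ c ∈ S, cexp (z * c) * bumpS S ε c x)
        = ∑ c ∈ S, fun x => cexp (z * c) * bumpS S ε c x from (Finset.sum_fn _ _).symm,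
      cfc_sum (fun c x => cexp (z * c) * bumpS S ε c x) L S
        fun c _ => continuousOn_const.mul (hcont c)]
    exact Finset.sum_congr rfl fun c _ => (cfc_const_mul _ _ L (hcont c)).symm
  have hw : ∀ x ∈ spectrum ℂ L, ∀ f : ℂ → ℂ, ∀ K : ℝ,
      (∀ c ∈ S, dist x c < ε → ‖f c‖ ≤ K) → ‖∑ c ∈ S, f c * bumpS S ε c x‖ ≤ K := by
    intro x hx f K hK
    refine (norm_sum_le _ _).trans ?_
    have hK' : ∀ c ∈ S, ‖f c * bumpS S ε c x‖
        ≤ K * (max 0 (ε - dist x c) / ∑ d ∈ S, max 0 (ε - dist x d)) := by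
      intro c hc
      rw [norm_mul, bumpS, norm_real,
        Real.norm_of_nonneg (div_nonneg (le_max_left _ _) (hden x hx).le)]
      rcases lt_or_ge (dist x c) ε with h | h
      · exact mul_le_mul_of_nonneg_right (hK c hc h)
          (div_nonneg (le_max_left _ _) (hden x hx).le)
      · rw [max_eq_left (by linarith), zero_div, mul_zero, mul_zero]
    refine (Finset.sum_le_sum hK').trans_eq ?_
    rw [← Finset.mul_sum, ← Finset.sum_div, div_self (hden x hx).ne', mul_one]
  refine ⟨?_, ?_⟩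
  · rw [hstep]
    refine norm_cfc_le (Real.exp_pos _).le fun x hx => hw x hx _ _ fun c hc _ => ?_
    obtain ⟨e, hb⟩ := spectrum_real hL (hS c hc)
    rw [Complex.norm_exp, e]
    refine Real.exp_le_exp.2 ?_
    simp only [mul_re, ofReal_re, ofReal_im, mul_zero, sub_zero]
    calc z.re * c.re ≤ |z.re * c.re| := le_abs_self _
      _ ≤ |z.re| * ‖L‖ := by rw [abs_mul]; exact mul_le_mul_of_nonneg_left hb (abs_nonneg _)
  · have hc2 : ContinuousOn (fun x => ∑ c ∈ S, cexp (z * c) * bumpS S ε c x) (spectrum ℂ L) :=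
      continuousOn_finsetSum S fun c _ => continuousOn_const.mul (hcont c)
    rw [hstep, expOp, ← cfc_sub (fun s => cexp (z * s)) _ L (by fun_prop) hc2]
    refine norm_cfc_le (by positivity) fun x hx => ?_
    have e : cexp (z * x) - ∑ c ∈ S, cexp (z * c) * bumpS S ε c x
        = ∑ c ∈ S, (cexp (z * x) - cexp (z * c)) * bumpS S ε c x := by
      simp only [sub_mul, Finset.sum_sub_distrib, ← Finset.mul_sum, hsum x hx, mul_one]
    rw [e]
    refine hw x hx _ _ fun c hc hxc => ?_
    obtain ⟨ex, hbx⟩ := spectrum_real hL hx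
    obtain ⟨ec, hbc⟩ := spectrum_real hL (hS c hc)
    rw [ex, ec]
    refine (exp_sub_exp_le z hbx hbc).trans (mul_le_mul_of_nonneg_left ?_ (by positivity))
    rw [ex, ec, Complex.dist_eq, ← ofReal_sub, norm_real, Real.norm_eq_abs] at hxc
    exact hxc.le

/-- The operator under the integral in (K3), with `e^{iθ}` spelled out. -/
def kerFun (L X : E →L[ℂ] E) (θ : ℝ) (t : ℝ) : E →L[ℂ] E :=
  cexp (I * θ) • (expOp L (I * t - 1 / 2) * X * expOp L (1 / 2 - I * t))
    + cexp (-(I * θ)) • (expOp L (I * t + 1 / 2) * X * expOp L (-(1 / 2) - I * t))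

lemma kerFun_eq [IsStarNormal L] (X : E →L[ℂ] E) (θ t : ℝ) :
    expOp L (I * t) * (cexp (I * θ) • (expOp L (-(1 / 2)) * X * expOp L (1 / 2))
      + (starRingEnd ℂ) (cexp (I * θ)) • (expOp L (1 / 2) * X * expOp L (-(1 / 2))))
      * expOp L (-(I * t)) = kerFun L X θ t := by
  have e : (starRingEnd ℂ) (cexp (I * θ)) = cexp (-(I * θ)) := by
    rw [← Complex.exp_conj]; simp
  rw [kerFun, e, mul_add, add_mul, sub_eq_add_neg (I * (t : ℂ)), sub_eq_add_neg (1 / 2 : ℂ),
    sub_eq_add_neg (-(1 / 2) : ℂ)]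
  simp only [expOp_add, mul_smul_comm, smul_mul_assoc, mul_assoc]

lemma term_error {a b a' b' X : E →L[ℂ] E} {Ma δ δ' : ℝ} (ha : ‖a‖ ≤ Ma) (hb : ‖b'‖ ≤ Ma)
    (hda : ‖a - a'‖ ≤ δ) (hdb : ‖b - b'‖ ≤ δ') :
    ‖a * X * b - a' * X * b'‖ ≤ ‖X‖ * Ma * (δ + δ') := by
  have hMa : 0 ≤ Ma := (norm_nonneg _).trans ha
  rw [show a * X * b - a' * X * b' = a * X * (b - b') + (a - a') * X * b' by
    rw [mul_sub, sub_mul, sub_mul]; abel]
  refine (norm_add_le _ _).trans ?_
  have h1 : ‖a * X * (b - b')‖ ≤ Ma * ‖X‖ * δ' := by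
    refine (norm_mul_le _ _).trans (mul_le_mul ((norm_mul_le _ _).trans ?_) hdb (norm_nonneg _)
      (by positivity))
    exact mul_le_mul_of_nonneg_right ha (norm_nonneg _)
  have h2 : ‖(a - a') * X * b'‖ ≤ δ * ‖X‖ * Ma := by
    have hδ : 0 ≤ δ := (norm_nonneg _).trans hda
    refine (norm_mul_le _ _).trans (mul_le_mul ((norm_mul_le _ _).trans ?_) hb (norm_nonneg _)
      (by positivity))
    exact mul_le_mul_of_nonneg_right hda (norm_nonneg _)
  linarith

/-- (K3) The kernels invert `X ↦ λ e^{-δ/2} X + λ̄ e^{δ/2} X`. -/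
theorem kernel_operator (hL : IsSelfAdjoint L) (X : E →L[ℂ] E) {θ : ℝ}
    (hθ : |θ| < Real.pi / 2) (ξ η : E) :
    Integrable (fun t : ℝ => ((Real.exp (2 * θ * t) / (2 * Real.cosh (Real.pi * t)) : ℝ) : ℂ)
      * inner ℂ ξ ((expOp L (I * t)
        * (cexp (I * θ) • (expOp L (-(1 / 2)) * X * expOp L (1 / 2))
          + (starRingEnd ℂ) (cexp (I * θ)) • (expOp L (1 / 2) * X * expOp L (-(1 / 2))))
        * expOp L (-(I * t))) η)) ∧
    ∫ t : ℝ, ((Real.exp (2 * θ * t) / (2 * Real.cosh (Real.pi * t)) : ℝ) : ℂ)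
      * inner ℂ ξ ((expOp L (I * t)
        * (cexp (I * θ) • (expOp L (-(1 / 2)) * X * expOp L (1 / 2))
          + (starRingEnd ℂ) (cexp (I * θ)) • (expOp L (1 / 2) * X * expOp L (-(1 / 2))))
        * expOp L (-(I * t))) η) = inner ℂ ξ (X η) := by
  have : IsStarNormal L := hL.isStarNormal
  simp only [kerFun_eq, show ∀ t : ℝ,
    Real.exp (2 * θ * t) / (2 * Real.cosh (Real.pi * t)) = kerc (2 * θ) t from fun _ => rfl]
  have h2θ : |2 * θ| < Real.pi := by rw [abs_mul, abs_two]; linarith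
  set M := Real.exp (‖L‖ / 2) with hM
  have hMz : ∀ z : ℂ, |z.re| = 1 / 2 → Real.exp (|z.re| * ‖L‖) = M := fun z hz => by
    rw [hM, hz]; ring_nf
  set D : ℝ := ‖ξ‖ * ‖η‖ * (4 * (‖X‖ * M * M)) with hD
  set T : (ℂ → E →L[ℂ] E) → ℝ → E →L[ℂ] E := fun e t =>
    cexp (I * θ) • (e (I * t - 1 / 2) * X * e (1 / 2 - I * t))
      + cexp (-(I * θ)) • (e (I * t + 1 / 2) * X * e (-(1 / 2) - I * t)) with hT
  set Φ : ℝ → ℂ := fun t => (kerc (2 * θ) t : ℂ) * inner ℂ ξ (kerFun L X θ t η) with hΦ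
  have hph : ‖cexp (I * θ)‖ = 1 ∧ ‖cexp (-(I * θ))‖ = 1 := by
    constructor <;> simp [Complex.norm_exp]
  have approx : ∀ ε : ℝ, 0 < ε → ∃ Ψ : ℝ → ℂ, Integrable Ψ ∧
      (∫ t, Ψ t = inner ℂ ξ (X η)) ∧
      ∀ t, ‖Φ t - Ψ t‖ ≤ D * ε * ((1 + |t|) * kerc (2 * θ) t) := by
    intro ε hε
    obtain ⟨S, hSre, hone, hb⟩ := exists_step hL hε
    have expand : ∀ t : ℝ, (kerc (2 * θ) t : ℂ) * inner ℂ ξ (T (stepOp L S ε) t η)
        = ∑ c ∈ S, ∑ d ∈ S, (cexp ((2 * θ + I * (c - d)) * t)
            / (2 * (Real.cosh (Real.pi * t) : ℂ)))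
          * ((2 * Complex.cos ((2 * θ + I * (c - d)) / 2))
            * inner ℂ ξ (cfc (bumpS S ε c) L (X (cfc (bumpS S ε d) L η)))) := by
      intro t
      simp only [hT, stepOp, ContinuousLinearMap.add_apply, ContinuousLinearMap.smul_apply,
        ContinuousLinearMap.mul_apply, ContinuousLinearMap.sum_apply,
        ContinuousLinearMap.map_smul, inner_add_right, inner_smul_right, inner_sum,
        Finset.mul_sum, mul_add, ← Finset.sum_add_distrib, Finset.smul_sum]
      conv_lhs => rw [Finset.sum_comm]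
      refine Finset.sum_congr rfl fun c _ => Finset.sum_congr rfl fun d _ => ?_
      have e1 : ∀ σ : ℂ, cexp (σ * (I * θ)) * (cexp ((I * t - σ / 2) * c)
          * cexp ((σ / 2 - I * t) * d)) * cexp (2 * θ * t)
          = cexp ((2 * θ + I * (c - d)) * t)
            * cexp (σ * ((2 * θ + I * (c - d)) / 2 * I)) := by
        intro σ
        simp only [← Complex.exp_add]
        congr 1
        linear_combination (-(σ * (c - d) / 2)) * Complex.I_sq
      have hp := e1 1
      have hm := e1 (-1)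
      rw [Complex.cos, ofReal_kerc]
      push_cast
      generalize Complex.cosh ((Real.pi : ℂ) * t) = K
      generalize inner ℂ ξ (cfc (bumpS S ε c) L (X (cfc (bumpS S ε d) L η))) = J
      ring_nf at hp hm ⊢
      linear_combination (J * K⁻¹ / 2) * (hp + hm)
    have hre : ∀ c ∈ S, ∀ d ∈ S, |((2 * θ + I * (c - d) : ℂ)).re| < Real.pi := by
      intro c hc d hd
      rw [hSre c hc, hSre d hd]
      simpa using h2θ
    have hint : ∀ c ∈ S, ∀ d ∈ S, Integrable (fun t : ℝ =>
        (cexp ((2 * θ + I * (c - d)) * t) / (2 * (Real.cosh (Real.pi * t) : ℂ)))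
          * ((2 * Complex.cos ((2 * θ + I * (c - d)) / 2))
            * inner ℂ ξ (cfc (bumpS S ε c) L (X (cfc (bumpS S ε d) L η))))) :=
      fun c hc d hd => (integral_exp_div_cosh _ (hre c hc d hd)).1.mul_const _
    refine ⟨fun t => (kerc (2 * θ) t : ℂ) * inner ℂ ξ (T (stepOp L S ε) t η), ?_, ?_, ?_⟩
    · simp only [expand]
      exact integrable_finsetSum _ fun c hc => integrable_finsetSum _ fun d hd => hint c hc d hd
    · simp only [expand]
      rw [integral_finsetSum _ fun c hc => integrable_finsetSum _ fun d hd => hint c hc d hd]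
      have : ∀ c ∈ S, ∀ d ∈ S, (∫ t : ℝ, (cexp ((2 * θ + I * (c - d)) * t)
            / (2 * (Real.cosh (Real.pi * t) : ℂ)))
          * ((2 * Complex.cos ((2 * θ + I * (c - d)) / 2))
            * inner ℂ ξ (cfc (bumpS S ε c) L (X (cfc (bumpS S ε d) L η)))))
          = inner ℂ ξ (cfc (bumpS S ε c) L (X (cfc (bumpS S ε d) L η))) := by
        intro c hc d hd
        have h := hre c hc d hd
        have hne : Complex.cos ((2 * θ + I * (c - d)) / 2) ≠ 0 := by
          intro h0
          obtain ⟨k, hk⟩ := Complex.cos_eq_zero_iff.1 h0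
          have hk' := congrArg Complex.re hk
          rw [hSre c hc, hSre d hd] at hk'
          simp at hk'
          rcases le_or_gt 0 k with hk0 | hk0
          · have : (0 : ℝ) ≤ k := by exact_mod_cast hk0
            nlinarith [(abs_lt.1 h2θ).2, Real.pi_pos]
          · have : (k : ℝ) ≤ -1 := by exact_mod_cast Int.le_sub_one_of_lt hk0
            nlinarith [(abs_lt.1 h2θ).1, Real.pi_pos]
        rw [integral_mul_const, (integral_exp_div_cosh _ h).2]
        field_simp
      rw [Finset.sum_congr rfl fun c hc => (integral_finsetSum _ (hint c hc)).trans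
        (Finset.sum_congr rfl (this c hc))]
      simp only [← inner_sum, ← map_sum, ← ContinuousLinearMap.sum_apply, hone,
        ContinuousLinearMap.one_apply]
    · intro t
      rw [hΦ, ← mul_sub, ← inner_sub_right, norm_mul, norm_real,
        Real.norm_of_nonneg (kerc_pos _ t).le, ← ContinuousLinearMap.sub_apply]
      rw [show D * ε * ((1 + |t|) * kerc (2 * θ) t)
        = kerc (2 * θ) t * (D * ε * (1 + |t|)) by ring]
      refine mul_le_mul_of_nonneg_left ?_ (kerc_pos _ t).le
      refine (norm_inner_le_norm _ _).trans ?_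
      rw [show D * ε * (1 + |t|) = ‖ξ‖ * ((4 * (‖X‖ * M * M) * ε * (1 + |t|)) * ‖η‖) by
        rw [hD]; ring]
      refine mul_le_mul_of_nonneg_left ((ContinuousLinearMap.le_opNorm _ _).trans
        (mul_le_mul_of_nonneg_right ?_ (norm_nonneg _))) (norm_nonneg _)
      have hterm : ∀ z w : ℂ, |z.re| = 1 / 2 → |w.re| = 1 / 2 → ‖z‖ ≤ 1 + |t| →
          ‖w‖ ≤ 1 + |t| →
          ‖expOp L z * X * expOp L w - stepOp L S ε z * X * stepOp L S ε w‖
            ≤ 2 * (‖X‖ * M * M) * ε * (1 + |t|) := by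
        intro z w hz hw hzn hwn
        refine (term_error (Ma := M) ((norm_expOp_le hL z).trans_eq (hMz z hz))
          ((hb w).1.trans_eq (hMz w hw)) (hb z).2 (hb w).2).trans ?_
        rw [hMz z hz, hMz w hw,
          show 2 * (‖X‖ * M * M) * ε * (1 + |t|) = ‖X‖ * M * (2 * (M * ε * (1 + |t|))) by ring]
        refine mul_le_mul_of_nonneg_left ?_ (by positivity)
        have := mul_le_mul_of_nonneg_right hzn (show 0 ≤ M * ε by positivity)
        have := mul_le_mul_of_nonneg_right hwn (show 0 ≤ M * ε by positivity)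
        linarith
      have hn : ∀ z : ℂ, |z.re| = 1 / 2 → |z.im| = |t| → ‖z‖ ≤ 1 + |t| := fun z h1 h2 =>
        (Complex.norm_le_abs_re_add_abs_im z).trans (by rw [h1, h2]; linarith)
      simp only [hT, kerFun]
      rw [add_sub_add_comm, ← smul_sub, ← smul_sub]
      refine (norm_add_le _ _).trans ?_
      rw [norm_smul, norm_smul, hph.1, hph.2, one_mul, one_mul]
      refine (add_le_add (hterm _ _ (by simp) (by simp) (hn _ (by simp) (by simp))
        (hn _ (by simp) (by simp))) (hterm _ _ (by simp) (by simp) (hn _ (by simp) (by simp))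
        (hn _ (by simp) (by simp)))).trans ?_
      linarith
  have hk : Integrable (fun t => (1 + |t|) * kerc (2 * θ) t) := by
    obtain ⟨e, he, he2⟩ : ∃ e : ℝ, 0 < e ∧ |2 * θ| + e < Real.pi :=
      ⟨(Real.pi - |2 * θ|) / 2, by linarith, by linarith⟩
    have hb : ∀ s, |s| ≤ e → Integrable (kerc (2 * θ + s)) := fun s hs =>
      integrable_kerc (lt_of_le_of_lt ((abs_add_le _ _).trans (by linarith)) he2)
    refine Integrable.mono' (g := fun t => kerc (2 * θ) t
      + (kerc (2 * θ + e) t + kerc (2 * θ - e) t) / e)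
      ((integrable_kerc h2θ).add (((hb e (abs_of_pos he).le).add
        (by rw [sub_eq_add_neg]; exact hb (-e) (by rw [abs_neg, abs_of_pos he]))).div_const e))
      ((continuous_const.add continuous_abs).mul (continuous_kerc _)).aestronglyMeasurable
      (Eventually.of_forall fun t => ?_)
    rw [Real.norm_of_nonneg (mul_nonneg (by positivity) (kerc_pos _ t).le), one_add_mul]
    exact add_le_add le_rfl (abs_mul_kerc_le he)
  have hD0 : 0 ≤ D := by positivity
  choose Ψ hΨi hΨe hΨb using fun n : ℕ => approx (1 / ((n : ℝ) + 1)) (by positivity)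
  have hlim : ∀ t, Tendsto (fun n => Ψ n t) atTop (𝓝 (Φ t)) := fun t => by
    refine tendsto_iff_norm_sub_tendsto_zero.2 (squeeze_zero (fun n => norm_nonneg _)
      (fun n => (norm_sub_rev _ _).trans_le (hΨb n t)) ?_)
    simpa [mul_comm, mul_left_comm, mul_assoc] using
      (tendsto_one_div_add_atTop_nhds_zero_nat.const_mul D).mul_const ((1 + |t|) * kerc (2 * θ) t)
  have hΦm : AEStronglyMeasurable Φ volume :=
    aestronglyMeasurable_of_tendsto_ae atTop (fun n => (hΨi n).aestronglyMeasurable)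
      (Eventually.of_forall hlim)
  have hdiff : Integrable (fun t => Φ t - Ψ 0 t) := by
    refine (hk.const_mul D).mono' (hΦm.sub (hΨi 0).aestronglyMeasurable)
      (Eventually.of_forall fun t => ?_)
    simpa using hΨb 0 t
  have hΦi : Integrable Φ := (hdiff.add (hΨi 0)).congr
    (Eventually.of_forall fun t => sub_add_cancel (Φ t) (Ψ 0 t))
  refine ⟨hΦi, eq_of_norm_sub_le_zero (le_of_forall_pos_le_add fun δ hδ => ?_)⟩
  set I0 := ∫ t, (1 + |t|) * kerc (2 * θ) t
  have hI0 : 0 ≤ I0 := integral_nonneg fun t => mul_nonneg (by positivity) (kerc_pos _ t).le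
  obtain ⟨n, hn⟩ := exists_nat_one_div_lt (div_pos hδ (show 0 < D * I0 + 1 by positivity))
  rw [← hΨe n, ← integral_sub hΦi (hΨi n), zero_add]
  refine (norm_integral_le_of_norm_le (hk.const_mul _) (Eventually.of_forall (hΨb n))).trans ?_
  rw [integral_const_mul]
  rw [lt_div_iff₀ (by positivity)] at hn
  nlinarith [show (0 : ℝ) ≤ 1 / ((n : ℝ) + 1) by positivity]

end Vale.Agent.P132.Tomita
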