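import Mathlib

/-!
# Convexity and sign tools for the Sakai lemma of Tomita-Takesaki theory

* `isClosed_image_of_convex_bounded` : a bounded closed convex subset of a real Hilbert space
  has closed image under a bounded linear map.
* `isClosed_saBallVec`, `convex_saBallVec` : the vectors `x Ω`, `x` in the self-adjoint unit
  ball of a von Neumann algebra, form a closed convex set when `Ω` is cyclic for the commutant.
* `exists_sign_approx`, `norm_inner_mul_le_abs` : approximate sign of a self-adjoint element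
  and domination of `x' * y` by `|y|`.
-/

noncomputable section

open Filter Topology Set
open scoped InnerProductSpace

namespace Vale.Agent.P132.Tomita

section Image

variable {E F : Type*} [NormedAddCommGroup E] [InnerProductSpace ℝ E] [CompleteSpace E]
  [NormedAddCommGroup F] [NormedSpace ℝ F]

/-- A bounded closed convex subset of a real Hilbert space has closed image under a bounded
linear map. -/
theorem isClosed_image_of_convex_bounded {S : Set E} (hS : IsClosed S) (hc : Convex ℝ S)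
    (hb : Bornology.IsBounded S) (L : E →L[ℝ] F) : IsClosed (L '' S) := by
  rw [← isSeqClosed_iff_isClosed]
  intro u v hu huv
  obtain ⟨B, hB⟩ := hb.exists_norm_le
  set δ : ℕ → ℝ := fun n => 1 / ((n : ℝ) + 1) with hδ
  have hδpos : ∀ n, 0 < δ n := fun n => by positivity
  have hδanti : ∀ m n, m ≤ n → δ n ≤ δ m := fun m n h =>
    one_div_le_one_div_of_le (by positivity) (by exact_mod_cast Nat.add_le_add_right h 1)
  have hδlim : Tendsto δ atTop (𝓝 0) := tendsto_one_div_add_atTop_nhds_zero_nat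
  -- the slices
  set C : ℕ → Set E := fun n => {s ∈ S | ‖L s - v‖ ≤ δ n} with hC
  have hne : ∀ n, (C n).Nonempty := by
    intro n
    obtain ⟨k, hk⟩ := ((tendsto_iff_norm_sub_tendsto_zero.1 huv).eventually
      (Iio_mem_nhds (hδpos n))).exists
    obtain ⟨s, hs, hsu⟩ := hu k
    exact ⟨s, hs, by rw [hsu]; exact le_of_lt hk⟩
  set d : ℕ → ℝ := fun n => sInf ((fun s => ‖s‖ ^ 2) '' C n) with hd
  have hbdd : ∀ n, BddBelow ((fun s => ‖s‖ ^ 2) '' C n) := fun n =>
    ⟨0, by rintro r ⟨s, -, rfl⟩; positivity⟩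
  have hle : ∀ n, ∀ s ∈ C n, d n ≤ ‖s‖ ^ 2 := fun n s hs =>
    csInf_le (hbdd n) ⟨s, hs, rfl⟩
  have hsub : ∀ m n, m ≤ n → C n ⊆ C m := fun m n h s hs =>
    ⟨hs.1, le_trans hs.2 (hδanti m n h)⟩
  have hmono : Monotone d := fun m n h =>
    csInf_le_csInf (hbdd m) ((hne n).image _) (image_mono (hsub m n h))
  have hdB : ∀ n, d n ≤ B ^ 2 := by
    intro n
    obtain ⟨s, hs⟩ := hne n
    exact (hle n s hs).trans (by gcongr; exact hB s hs.1)
  have hbd : BddAbove (range d) := ⟨B ^ 2, by rintro r ⟨n, rfl⟩; exact hdB n⟩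
  have hdlim : Tendsto d atTop (𝓝 (⨆ n, d n)) := tendsto_atTop_ciSup hmono hbd
  -- near minimizers
  have hex : ∀ n, ∃ s ∈ C n, ‖s‖ ^ 2 ≤ d n + δ n := by
    intro n
    obtain ⟨r, ⟨s, hs, rfl⟩, hr⟩ :=
      exists_lt_of_csInf_lt ((hne n).image (fun s => ‖s‖ ^ 2))
        (lt_add_of_pos_right (d n) (hδpos n))
    exact ⟨s, hs, hr.le⟩
  choose s hsC hsd using hex
  have key : ∀ m n, m ≤ n →
      ‖s m - s n‖ ^ 2 ≤ 2 * (d n - d m) + 2 * δ m + 2 * δ n := by
    intro m n h
    have hmid : (1/2 : ℝ) • s m + (1/2 : ℝ) • s n ∈ C m := by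
      refine ⟨hc (hsC m).1 (hsC n).1 (by norm_num) (by norm_num) (by norm_num), ?_⟩
      have h1 := (hsC m).2
      have h2 := (hsub m n h (hsC n)).2
      have e : L ((1/2 : ℝ) • s m + (1/2 : ℝ) • s n) - v
          = (1/2 : ℝ) • (L (s m) - v) + (1/2 : ℝ) • (L (s n) - v) := by
        simp only [map_add, map_smul]; module
      rw [e]
      refine (norm_add_le _ _).trans ?_
      rw [norm_smul, norm_smul, Real.norm_eq_abs, abs_of_pos (by norm_num : (0:ℝ) < 1/2)]
      linarith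
    have h4 := hle m _ hmid
    have e : (1/2 : ℝ) • s m + (1/2 : ℝ) • s n = (1/2 : ℝ) • (s m + s n) := by module
    rw [e, norm_smul, Real.norm_eq_abs, abs_of_pos (by norm_num : (0:ℝ) < 1/2), mul_pow] at h4
    have hp := parallelogram_law_with_norm ℝ (s m) (s n)
    have := hsd m
    have := hsd n
    nlinarith
  have hcauchy : CauchySeq s := by
    refine Metric.cauchySeq_iff'.2 fun ε hε => ?_
    obtain ⟨N, hN1, hN2⟩ :=
      ((hdlim.eventually (lt_mem_nhds (show (⨆ n, d n) - ε ^ 2 / 8 < ⨆ n, d n by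
          have := pow_pos hε 2; linarith))).and
        (hδlim.eventually (gt_mem_nhds (show (0:ℝ) < ε ^ 2 / 8 by positivity)))).exists
    refine ⟨N, fun n hn => ?_⟩
    have h1 := key N n hn
    have h2 : d n ≤ ⨆ n, d n := le_ciSup hbd n
    have h3 := hδanti N n hn
    rw [dist_eq_norm, norm_sub_rev]
    have : ‖s N - s n‖ ^ 2 < ε ^ 2 := by
      have := pow_pos hε 2
      linarith
    exact lt_of_pow_lt_pow_left₀ 2 hε.le this
  obtain ⟨a, ha⟩ := cauchySeq_tendsto_of_complete hcauchy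
  refine ⟨a, hS.mem_of_tendsto ha (Eventually.of_forall fun n => (hsC n).1), ?_⟩
  have hLs : Tendsto (fun n => L (s n)) atTop (𝓝 (L a)) := (L.continuous.tendsto a).comp ha
  have : Tendsto (fun n => L (s n)) atTop (𝓝 v) :=
    tendsto_iff_norm_sub_tendsto_zero.2
      (squeeze_zero (fun n => norm_nonneg _) (fun n => (hsC n).2) hδlim)
  exact tendsto_nhds_unique hLs this

end Image

section Ball

variable {H : Type*} [NormedAddCommGroup H] [InnerProductSpace ℂ H] [CompleteSpace H]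

/-- The vectors `x Ω` with `x` in the self-adjoint unit ball of `M`. -/
def saBallVec (M : VonNeumannAlgebra H) (Ω : H) : Set H :=
  {v | ∃ x ∈ M, IsSelfAdjoint x ∧ ‖x‖ ≤ 1 ∧ x Ω = v}

theorem norm_le_of_mem_saBallVec {M : VonNeumannAlgebra H} {Ω v : H}
    (h : v ∈ saBallVec M Ω) : ‖v‖ ≤ ‖Ω‖ := by
  obtain ⟨x, -, -, hx, rfl⟩ := h
  calc ‖x Ω‖ ≤ ‖x‖ * ‖Ω‖ := x.le_opNorm Ω
    _ ≤ 1 * ‖Ω‖ := by gcongr
    _ = ‖Ω‖ := one_mul _

theorem isBounded_saBallVec (M : VonNeumannAlgebra H) (Ω : H) :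
    Bornology.IsBounded (saBallVec M Ω) :=
  isBounded_iff_forall_norm_le.2 ⟨‖Ω‖, fun _ h => norm_le_of_mem_saBallVec h⟩

theorem smul_real_mem {M : VonNeumannAlgebra H} {x : H →L[ℂ] H} (hx : x ∈ M) (r : ℝ) :
    r • x ∈ M := by
  have : r • x = (r : ℂ) • x := by ext v; simp
  rw [this]
  exact M.toStarSubalgebra.smul_mem hx _

theorem convex_saBallVec (M : VonNeumannAlgebra H) (Ω : H) :
    Convex ℝ (saBallVec M Ω) := by
  rintro _ ⟨x, hxM, hxs, hxn, rfl⟩ _ ⟨y, hyM, hys, hyn, rfl⟩ a b ha hb hab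
  refine ⟨a • x + b • y, add_mem (smul_real_mem hxM a) (smul_real_mem hyM b),
    ((IsSelfAdjoint.all a).smul hxs).add ((IsSelfAdjoint.all b).smul hys), ?_, by simp⟩
  refine (norm_add_le _ _).trans ?_
  rw [norm_smul, norm_smul, Real.norm_eq_abs, Real.norm_eq_abs, abs_of_nonneg ha,
    abs_of_nonneg hb]
  nlinarith [norm_nonneg x, norm_nonneg y]

/-- Strong limits: a bounded sequence in `M` that converges on `Ω` converges strongly to an
element of `M`, if `Ω` is cyclic for the commutant. -/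
theorem exists_strong_limit {M : VonNeumannAlgebra H} {Ω : H}
    (hΩ : Dense {v : H | ∃ a ∈ M.commutant, a Ω = v})
    {x : ℕ → H →L[ℂ] H} (hxM : ∀ n, x n ∈ M) {K : ℝ} (hxn : ∀ n, ‖x n‖ ≤ K)
    (hconv : CauchySeq fun n => x n Ω) :
    ∃ y ∈ M, ‖y‖ ≤ K ∧ ∀ v, Tendsto (fun n => x n v) atTop (𝓝 (y v)) := by
  have hK : 0 ≤ K := (norm_nonneg _).trans (hxn 0)
  have hall : ∀ v, CauchySeq fun n => x n v := by
    intro v
    refine Metric.cauchySeq_iff.2 fun ε hε => ?_
    obtain ⟨w, ⟨a, haM, rfl⟩, hw⟩ :=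
      hΩ.exists_dist_lt v (show 0 < ε / (3 * (K + 1)) by positivity)
    have hca : CauchySeq fun n => x n (a Ω) := by
      have e : (fun n => x n (a Ω)) = fun n => a (x n Ω) := by
        funext n
        have := (VonNeumannAlgebra.mem_commutant_iff.1 haM) (x n) (hxM n)
        exact congrArg (fun T : H →L[ℂ] H => T Ω) this
      rw [e]
      exact a.uniformContinuous.comp_cauchySeq hconv
    obtain ⟨N, hN⟩ := Metric.cauchySeq_iff.1 hca (ε / 3) (by positivity)
    refine ⟨N, fun m hm n hn => ?_⟩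
    have hb : ∀ k, dist (x k v) (x k (a Ω)) ≤ ε / 3 := by
      intro k
      rw [dist_eq_norm, ← map_sub]
      refine ((x k).le_opNorm _).trans ?_
      rw [dist_eq_norm] at hw
      calc ‖x k‖ * ‖v - a Ω‖ ≤ (K + 1) * (ε / (3 * (K + 1))) :=
            mul_le_mul (by linarith [hxn k]) hw.le (norm_nonneg _) (by positivity)
        _ = ε / 3 := by field_simp
    calc dist (x m v) (x n v)
        ≤ dist (x m v) (x m (a Ω)) + dist (x m (a Ω)) (x n (a Ω)) + dist (x n (a Ω)) (x n v) :=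
          dist_triangle4 _ _ _ _
      _ < ε / 3 + ε / 3 + ε / 3 := by
          have := hN m hm n hn
          have h2 := hb n
          rw [dist_comm] at h2
          linarith [hb m]
      _ = ε := by ring
  choose g hg using fun v => cauchySeq_tendsto_of_complete (hall v)
  let lin : H →ₗ[ℂ] H :=
    { toFun := g
      map_add' := fun u v => tendsto_nhds_unique (hg (u + v))
        (by simpa only [map_add] using (hg u).add (hg v))
      map_smul' := fun c v => tendsto_nhds_unique (hg (c • v))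
        (by simpa only [map_smul, RingHom.id_apply] using (hg v).const_smul c) }
  have hbound : ∀ v, ‖lin v‖ ≤ K * ‖v‖ := fun v =>
    le_of_tendsto (hg v).norm (Eventually.of_forall fun n =>
      ((x n).le_opNorm v).trans (mul_le_mul_of_nonneg_right (hxn n) (norm_nonneg v)))
  refine ⟨lin.mkContinuous K hbound, ?_, LinearMap.mkContinuous_norm_le _ hK hbound, hg⟩
  rw [← VonNeumannAlgebra.commutant_commutant M, VonNeumannAlgebra.mem_commutant_iff]
  intro a ha
  ext v
  have h1 : Tendsto (fun n => a (x n v)) atTop (𝓝 (a (g v))) := (a.continuous.tendsto _).comp (hg v)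
  refine tendsto_nhds_unique h1 ?_
  have e : (fun n => a (x n v)) = fun n => x n (a v) := by
    funext n
    have := (VonNeumannAlgebra.mem_commutant_iff.1 ha) (x n) (hxM n)
    exact (congrArg (fun T : H →L[ℂ] H => T v) this).symm
  rw [e]
  exact hg (a v)

theorem isClosed_saBallVec {M : VonNeumannAlgebra H} {Ω : H}
    (hΩ : Dense {v : H | ∃ a ∈ M.commutant, a Ω = v}) : IsClosed (saBallVec M Ω) := by
  rw [← isSeqClosed_iff_isClosed]
  intro u v hu huv
  choose x hxM hxs hxn hxu using hu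
  obtain ⟨y, hyM, hyn, hy⟩ := exists_strong_limit hΩ hxM hxn
    (by simpa only [hxu] using huv.cauchySeq)
  refine ⟨y, hyM, ?_, hyn, tendsto_nhds_unique (hy Ω) (by simpa only [hxu] using huv)⟩
  rw [ContinuousLinearMap.isSelfAdjoint_iff_isSymmetric]
  intro a b
  have h1 : Tendsto (fun n => ⟪x n a, b⟫_ℂ) atTop (𝓝 ⟪y a, b⟫_ℂ) :=
    (hy a).inner tendsto_const_nhds
  have h2 : Tendsto (fun n => ⟪a, x n b⟫_ℂ) atTop (𝓝 ⟪a, y b⟫_ℂ) :=
    tendsto_const_nhds.inner (hy b)
  refine tendsto_nhds_unique h1 (h2.congr fun n => ?_)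
  exact (ContinuousLinearMap.isSelfAdjoint_iff_isSymmetric.1 (hxs n) a b).symm

theorem isClosed_image_saBallVec {F : Type*} [NormedAddCommGroup F] [NormedSpace ℝ F]
    {M : VonNeumannAlgebra H} {Ω : H}
    (hΩ : Dense {v : H | ∃ a ∈ M.commutant, a Ω = v}) (L : H →L[ℝ] F) :
    IsClosed (L '' saBallVec M Ω) :=
  letI : InnerProductSpace ℝ H := InnerProductSpace.complexToReal
  isClosed_image_of_convex_bounded (isClosed_saBallVec hΩ) (convex_saBallVec M Ω)
    (isBounded_saBallVec M Ω) L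

end Ball

section Sign

variable {H : Type*} [NormedAddCommGroup H] [InnerProductSpace ℂ H] [CompleteSpace H]

theorem inner_left_eq {r : H →L[ℂ] H} (hr : IsSelfAdjoint r) (u w : H) :
    ⟪u, r w⟫_ℂ = ⟪r u, w⟫_ℂ :=
  (ContinuousLinearMap.isSelfAdjoint_iff_isSymmetric.1 hr u w).symm

theorem cfc_mem {M : VonNeumannAlgebra H} {y : H →L[ℂ] H} (hy : y ∈ M) (f : ℝ → ℝ) :
    cfc f y ∈ M := by
  rw [← VonNeumannAlgebra.commutant_commutant M, VonNeumannAlgebra.mem_commutant_iff]
  intro a ha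
  have h : Commute y a := (VonNeumannAlgebra.mem_commutant_iff.1 ha) y hy
  exact (h.cfc_real f).eq.symm

/-- `cfc g y` has nonnegative expectations when `g ≥ 0`, as a square of `cfc (√g) y`. -/
theorem inner_cfc_eq_norm_sq {y : H →L[ℂ] H} (hy : IsSelfAdjoint y) {g : ℝ → ℝ}
    (hg : Continuous g) (hg0 : ∀ s, 0 ≤ g s) (v : H) :
    ⟪v, cfc g y v⟫_ℂ = ((‖cfc (fun s => Real.sqrt (g s)) y v‖ ^ 2 : ℝ) : ℂ) := by
  have hr : IsSelfAdjoint (cfc (fun s => Real.sqrt (g s)) y) := cfc_predicate _ y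
  have e : cfc g y = cfc (fun s => Real.sqrt (g s)) y * cfc (fun s => Real.sqrt (g s)) y := by
    rw [← cfc_mul (fun s => Real.sqrt (g s)) (fun s => Real.sqrt (g s)) y]
    exact cfc_congr fun s _ => (Real.mul_self_sqrt (hg0 s)).symm
  rw [e, mul_apply_eq_comp,
    inner_left_eq hr, inner_self_eq_norm_sq_to_K]
  simp

theorem re_inner_cfc_nonneg {y : H →L[ℂ] H} (hy : IsSelfAdjoint y) {g : ℝ → ℝ}
    (hg : Continuous g) (hg0 : ∀ s, 0 ≤ g s) (v : H) : 0 ≤ (⟪v, cfc g y v⟫_ℂ).re := by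
  rw [inner_cfc_eq_norm_sq hy hg hg0, Complex.ofReal_re]
  positivity

/-- The absolute value of `y`, by the functional calculus. -/
def absOp (y : H →L[ℂ] H) : H →L[ℂ] H := cfc (fun s : ℝ => |s|) y

theorem absOp_eq_posPart_add_negPart {y : H →L[ℂ] H} :
    absOp y = cfc (fun s : ℝ => max s 0) y + cfc (fun s : ℝ => max (-s) 0) y := by
  rw [absOp, ← cfc_add (a := y) (fun s : ℝ => max s 0) (fun s : ℝ => max (-s) 0)]
  exact cfc_congr fun s _ => by rcases le_total s 0 with h | h <;> simp [h, abs_of_nonneg, abs_of_nonpos]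

/-- Approximate sign of a self-adjoint element of `M`. -/
theorem exists_sign_approx {M : VonNeumannAlgebra H} {y : H →L[ℂ] H} (hyM : y ∈ M)
    (hy : IsSelfAdjoint y) {ε : ℝ} (hε : 0 < ε) :
    ∃ x ∈ M, IsSelfAdjoint x ∧ ‖x‖ ≤ 1 ∧ y * x = x * y ∧
      ∀ v : H, (⟪v, absOp y v⟫_ℂ).re - ε * ‖v‖ ^ 2 ≤ (⟪v, (y * x) v⟫_ℂ).re := by
  set f : ℝ → ℝ := fun s => max (-1) (min 1 (s / ε)) with hfdef
  have hf : Continuous f := by rw [hfdef]; fun_prop
  have hfb : ∀ s, |f s| ≤ 1 := fun s => abs_le.2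
    ⟨le_max_left _ _, max_le (by norm_num) (min_le_left _ _)⟩
  refine ⟨cfc f y, cfc_mem hyM f, cfc_predicate f y,
    norm_cfc_le zero_le_one fun s _ => by simpa using hfb s,
    ((Commute.refl y).cfc_real f).eq.symm, fun v => ?_⟩
  have hkey : ∀ s, 0 ≤ s * f s - |s| + ε := by
    intro s
    rcases le_total ε |s| with h | h
    · rcases abs_cases s with ⟨e, hs⟩ | ⟨e, hs⟩
      · have : (1:ℝ) ≤ s / ε := (one_le_div hε).2 (by rw [← e]; exact h)
        have : f s = 1 := by simp [hfdef, min_eq_left this]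
        rw [this, e]; linarith
      · have h2 : s / ε ≤ -1 := by rw [div_le_iff₀ hε]; linarith
        have : f s = -1 := by
          simp only [hfdef]
          rw [min_eq_right (by linarith), max_eq_left h2]
        rw [this, e]; linarith
    · rcases abs_le.1 h with ⟨h1, h2⟩
      have : f s = s / ε := by
        simp only [hfdef]
        rw [min_eq_right ((div_le_one hε).2 h2), max_eq_right]
        rw [le_div_iff₀ hε]; linarith
      rw [this]
      have : 0 ≤ s * (s / ε) := by rw [← mul_div_assoc]; exact div_nonneg (mul_self_nonneg s) hε.le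
      linarith
  have h0 := re_inner_cfc_nonneg hy (g := fun s => s * f s - |s| + ε) (by fun_prop) hkey v
  have e : cfc (fun s => s * f s - |s| + ε) y
      = y * cfc f y - absOp y + ε • (1 : H →L[ℂ] H) := by
    rw [cfc_add .., cfc_sub .., cfc_mul .., cfc_id' ℝ y, cfc_const ε y,
      Algebra.algebraMap_eq_smul_one]
    rfl
  rw [e] at h0
  simp only [add_apply, sub_apply,
    smul_apply, one_apply_eq_self, inner_add_right,
    inner_sub_right, Complex.add_re, Complex.sub_re] at h0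
  have e2 : (⟪v, ε • v⟫_ℂ).re = ε * ‖v‖ ^ 2 := by
    rw [← Complex.coe_smul, inner_smul_right, inner_self_eq_norm_sq_to_K]
    simp [← Complex.ofReal_pow]
  linarith

/-- `x'` in the commutant times `y` is dominated by `|y|`. -/
theorem norm_inner_mul_le_abs {M : VonNeumannAlgebra H} {y x' : H →L[ℂ] H} (hyM : y ∈ M)
    (hy : IsSelfAdjoint y) (hx' : x' ∈ M.commutant) (v : H) :
    ‖⟪v, (x' * y) v⟫_ℂ‖ ≤ ‖x'‖ * (⟪v, absOp y v⟫_ℂ).re := by
  have piece : ∀ g : ℝ → ℝ, Continuous g → (∀ s, 0 ≤ g s) →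
      ‖⟪v, x' (cfc g y v)⟫_ℂ‖ ≤ ‖x'‖ * (⟪v, cfc g y v⟫_ℂ).re := by
    intro g hg hg0
    set r := cfc (fun s => Real.sqrt (g s)) y with hr
    have hrs : IsSelfAdjoint r := cfc_predicate _ y
    have hcomm : r * x' = x' * r :=
      VonNeumannAlgebra.mem_commutant_iff.1 hx' r (cfc_mem hyM _)
    have e : cfc g y = r * r := by
      rw [hr, ← cfc_mul (fun s => Real.sqrt (g s)) (fun s => Real.sqrt (g s)) y]
      exact cfc_congr fun s _ => (Real.mul_self_sqrt (hg0 s)).symm
    have e2 : x' (cfc g y v) = r (x' (r v)) := by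
      rw [e]
      exact congrArg (fun T : H →L[ℂ] H => T (r v)) hcomm.symm
    rw [e2, inner_left_eq hrs,
      inner_cfc_eq_norm_sq hy hg hg0, Complex.ofReal_re]
    calc ‖⟪r v, x' (r v)⟫_ℂ‖ ≤ ‖r v‖ * ‖x' (r v)‖ := norm_inner_le_norm _ _
      _ ≤ ‖r v‖ * (‖x'‖ * ‖r v‖) := by gcongr; exact x'.le_opNorm _
      _ = ‖x'‖ * ‖r v‖ ^ 2 := by ring
  have hy2 : y = cfc (fun s : ℝ => max s 0) y - cfc (fun s : ℝ => max (-s) 0) y := by
    rw [← cfc_sub (fun s : ℝ => max s 0) (fun s : ℝ => max (-s) 0) y]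
    conv_lhs => rw [← cfc_id' ℝ y]
    exact cfc_congr fun s _ => by rcases le_total s 0 with h | h <;> simp [h]
  have e3 : ⟪v, (x' * y) v⟫_ℂ = ⟪v, x' (cfc (fun s : ℝ => max s 0) y v)⟫_ℂ
      - ⟪v, x' (cfc (fun s : ℝ => max (-s) 0) y v)⟫_ℂ := by
    rw [mul_apply_eq_comp]
    conv_lhs => rw [hy2]
    rw [sub_apply, map_sub, inner_sub_right]
  rw [e3, absOp_eq_posPart_add_negPart, add_apply, inner_add_right,
    Complex.add_re, mul_add]
  exact (norm_sub_le _ _).trans (add_le_add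
    (piece _ (by fun_prop) fun s => le_max_right _ _)
    (piece _ (by fun_prop) fun s => le_max_right _ _))

theorem abs_re_inner_mul_le_abs {M : VonNeumannAlgebra H} {y x' : H →L[ℂ] H} (hyM : y ∈ M)
    (hy : IsSelfAdjoint y) (hx' : x' ∈ M.commutant) (v : H) :
    |(⟪v, (x' * y) v⟫_ℂ).re| ≤ ‖x'‖ * (⟪v, absOp y v⟫_ℂ).re :=
  (Complex.abs_re_le_norm _).trans (norm_inner_mul_le_abs hyM hy hx' v)

end Sign

end Vale.Agent.P132.Tomita
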