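import Vale.Agent.P132.Tomita.Subspace
import Vale.Agent.P132.Tomita.Convex

/-!
# The Radon-Nikodym lemma of Sakai in the form of Rieffel and van Daele

Owner: helper14 (interface by helper76).

`exists_functional` is proved by separating in the real Hilbert space `K`: the image of a ball of
self-adjoint vectors is closed and convex, and an approximate sign of a test element refutes a
positive distance. `exists_Dconj_eq` follows by evaluating on the self-adjoint vectors of the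
commutant, which `R` and `D` send to self-adjoint vectors of `M`.
-/

namespace Vale.Agent.P132.Tomita

open Complex
open scoped InnerProductSpace ComplexConjugate

universe u

variable {H : Type u} [NormedAddCommGroup H] [InnerProductSpace ℂ H] [CompleteSpace H]
variable {M : VonNeumannAlgebra H} {Ω : H}

/-- `v ↦ P (c v)` as a real linear map. -/
noncomputable def projSmul (M : VonNeumannAlgebra H) (Ω : H) (c : ℂ) : H →L[ℝ] H :=
  (proj M Ω).comp ((c • (1 : H →L[ℂ] H)).restrictScalars ℝ)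

lemma projSmul_apply (c : ℂ) (v : H) : projSmul M Ω c v = proj M Ω (c • v) := by
  simp [projSmul]

lemma re_inner_sa_proj {a : H →L[ℂ] H} (ha : a ∈ M) (hsa : IsSelfAdjoint a) (v : H) :
    (⟪a Ω, proj M Ω v⟫_ℂ).re = (⟪a Ω, v⟫_ℂ).re := by
  rw [← re_inner_proj, proj_apply_sa ha hsa]

/-- The real part of Sakai's functional identity. -/
lemma exists_proj_eq (h : CycSep M Ω) {b : H →L[ℂ] H} (hb : b ∈ M.commutant) {l : ℂ} (hl : 0 < l.re) :
    ∃ x ∈ M, IsSelfAdjoint x ∧ proj M Ω ((2 * l) • x Ω) = proj M Ω (b Ω) := by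
  set r : ℝ := ‖b‖ / (2 * l.re) with hr
  set c : ℂ := 2 * l * (r : ℂ) with hc
  set L := projSmul M Ω c with hL
  set C := L '' saBallVec M Ω with hC
  have hdense : Dense {v : H | ∃ a ∈ M.commutant, a Ω = v} := by
    exact h.commutant.cyclic
  have hclosed : IsClosed C := isClosed_image_saBallVec hdense L
  have hconv : Convex ℝ C := (convex_saBallVec M Ω).linear_image L.toLinearMap
  have hne : C.Nonempty :=
    ⟨L 0, 0, ⟨0, zero_mem M, .zero _, by simp, by simp⟩, rfl⟩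
  set t := proj M Ω (b Ω) with ht
  suffices htC : t ∈ C by
    obtain ⟨_, ⟨x, hxM, hxs, -, rfl⟩, hx⟩ := htC
    refine ⟨(r : ℂ) • x, M.toStarSubalgebra.smul_mem hxM _, ?_, ?_⟩
    · rw [IsSelfAdjoint, star_smul, hxs.star_eq, Complex.star_def, Complex.conj_ofReal]
    · rw [← hx, hL, projSmul_apply, smul_apply, smul_smul]
  obtain ⟨v, hv, hvmin⟩ := exists_norm_eq_iInf_of_complete_convex hne hclosed.isComplete hconv t
  have hobt := (norm_eq_iInf_iff_real_inner_le_zero hconv hv).1 hvmin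
  by_contra htC
  have hvt : v ≠ t := fun e => htC (e ▸ hv)
  set k := t - v with hk
  have hkpos : 0 < ‖k‖ ^ 2 := by
    have : 0 < ‖k‖ := norm_pos_iff.2 (sub_ne_zero.2 (Ne.symm hvt))
    positivity
  have hkK : k ∈ K M Ω := by
    obtain ⟨w, -, rfl⟩ := hv
    rw [hk, hL, projSmul_apply, ht]
    exact sub_mem (proj_mem _) (proj_mem _)
  set B : ℝ := ‖b Ω‖ + ‖c‖ + 1 with hB
  have hBpos : 0 < B := by positivity
  -- approximate the separating vector by a self-adjoint vector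
  set η : ℝ := ‖k‖ ^ 2 / (4 * B) with hη
  have hηpos : 0 < η := by positivity
  obtain ⟨_, ⟨y, hyM, hys, rfl⟩, hy⟩ := Metric.mem_closure_iff.1 hkK η hηpos
  set ε : ℝ := ‖k‖ ^ 2 / (4 * (‖b‖ + 1)) with hε
  have hεpos : 0 < ε := by positivity
  obtain ⟨x, hxM, hxs, hxn, hyx, hge⟩ := exists_sign_approx hyM hys hεpos
  set c' := L (x Ω) with hc'
  have hc'C : c' ∈ C := ⟨x Ω, ⟨x, hxM, hxs, hxn, rfl⟩, rfl⟩
  have h1 : (⟪k, c' - v⟫_ℂ).re ≤ 0 := hobt c' hc'C
  have h2 : ‖k‖ ^ 2 ≤ (⟪k, t - c'⟫_ℂ).re := by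
    have e : t - c' = k - (c' - v) := by rw [hk]; abel
    rw [e, inner_sub_right, Complex.sub_re,
      show (⟪k, k⟫_ℂ).re = ‖k‖ ^ 2 from inner_self_eq_norm_sq (𝕜 := ℂ) k]
    linarith
  have hΩ2 : ‖Ω‖ ^ 2 = 1 := by rw [h.norm_one, one_pow]
  set A : ℝ := (⟪Ω, absOp y Ω⟫_ℂ).re with hA
  have h3 : (⟪y Ω, t⟫_ℂ).re ≤ ‖b‖ * A := by
    rw [ht, re_inner_sa_proj hyM hys, inner_sa_left hys, ← commute_apply hyM hb]
    exact (le_abs_self _).trans (abs_re_inner_mul_le_abs hyM hys hb Ω)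
  have h4 : ‖b‖ * (A - ε) ≤ (⟪y Ω, c'⟫_ℂ).re := by
    rw [hc', hL, projSmul_apply, re_inner_sa_proj hyM hys, inner_smul_right, Complex.mul_re,
      inner_im_eq_zero' hyM hys hxM hxs hyx, mul_zero, sub_zero]
    have hcre : c.re = ‖b‖ := by
      rw [hc, hr]
      simp only [Complex.mul_re, Complex.re_ofNat, Complex.im_ofNat, Complex.ofReal_re,
        Complex.ofReal_im]
      field_simp
      ring
    rw [hcre, inner_sa_left hys]
    have := hge Ω
    rw [hΩ2, mul_one, mul_apply_eq_comp] at this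
    exact mul_le_mul_of_nonneg_left this (norm_nonneg b)
  have h5 : (⟪k, t - c'⟫_ℂ).re ≤ (⟪y Ω, t - c'⟫_ℂ).re + η * B := by
    have e : ⟪k, t - c'⟫_ℂ = ⟪y Ω, t - c'⟫_ℂ + ⟪k - y Ω, t - c'⟫_ℂ := by
      rw [← inner_add_left]; congr 1; abel
    rw [e, Complex.add_re]
    refine add_le_add le_rfl (((Complex.re_le_norm _).trans (norm_inner_le_norm _ _)).trans ?_)
    refine mul_le_mul (by rw [← dist_eq_norm]; exact hy.le) ?_ (norm_nonneg _) hηpos.le
    have hxΩ : ‖x Ω‖ ≤ 1 := (x.le_opNorm Ω).trans (by rw [h.norm_one, mul_one]; exact hxn)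
    calc ‖t - c'‖ ≤ ‖t‖ + ‖c'‖ := norm_sub_le _ _
      _ ≤ ‖b Ω‖ + ‖c‖ := by
          refine add_le_add (norm_proj_le M Ω _) ?_
          rw [hc', hL, projSmul_apply]
          refine (norm_proj_le M Ω _).trans ?_
          rw [norm_smul]
          exact mul_le_of_le_one_right (norm_nonneg _) hxΩ
      _ ≤ B := by linarith
  simp only [inner_sub_right, Complex.sub_re] at h2 h5
  have h6 : ‖b‖ * ε ≤ ‖k‖ ^ 2 / 4 := by
    rw [hε, mul_div_assoc', div_le_div_iff₀ (by positivity) (by norm_num)]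
    nlinarith [norm_nonneg b, sq_nonneg ‖k‖]
  have h7 : η * B = ‖k‖ ^ 2 / 4 := by rw [hη]; field_simp
  nlinarith
where
  /-- Commuting self-adjoint elements have real mixed moments. -/
  inner_im_eq_zero' {y x : H →L[ℂ] H} (_ : y ∈ M) (hys : IsSelfAdjoint y) (_ : x ∈ M)
      (hxs : IsSelfAdjoint x) (hyx : y * x = x * y) : (⟪y Ω, x Ω⟫_ℂ).im = 0 := by
    refine Complex.conj_eq_iff_im.1 ?_
    rw [inner_conj_symm, inner_sa_left hxs, inner_sa_left hys]
    exact congrArg (fun T : H →L[ℂ] H => ⟪Ω, T Ω⟫_ℂ) hyx.symm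

/-- For self-adjoint `b` in the commutant and `Re l > 0` some self-adjoint `x ∈ M` represents the
functional `y ↦ ⟨Ω, b y Ω⟩`. -/
theorem exists_functional (h : CycSep M Ω) {b : H →L[ℂ] H} (hb : b ∈ M.commutant)
    (hsb : IsSelfAdjoint b) {l : ℂ} (hl : 0 < l.re) :
    ∃ x ∈ M, IsSelfAdjoint x ∧ ∀ y ∈ M,
      phi Ω (b * y) = l * phi Ω (y * x) + conj l * phi Ω (x * y) := by
  obtain ⟨x, hxM, hxs, hx⟩ := exists_proj_eq h hb hl
  refine ⟨x, hxM, hxs, ?_⟩
  have key : ∀ y ∈ M, IsSelfAdjoint y →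
      phi Ω (b * y) = l * phi Ω (y * x) + conj l * phi Ω (x * y) := by
    intro y hy hys
    have e := congrArg (fun v : H => (⟪y Ω, v⟫_ℂ).re) hx
    simp only [re_inner_sa_proj hy hys, inner_smul_right] at e
    simp only [phi, mul_apply_eq_comp]
    rw [← inner_sa_left hsb Ω (y Ω), ← inner_sa_left hys Ω (x Ω), ← inner_sa_left hxs Ω (y Ω),
      ← inner_conj_symm (x Ω) (y Ω), ← map_mul, Complex.add_conj]
    refine Complex.ext ?_ ?_
    · rw [Complex.ofReal_re, ← inner_conj_symm, Complex.conj_re, ← e]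
      simp [mul_assoc]
    · rw [Complex.ofReal_im, ← inner_conj_symm, Complex.conj_im,
        inner_im_eq_zero hy hys hb hsb, neg_zero]
  intro y hy
  obtain ⟨y₁, h₁, y₂, h₂, s₁, s₂, rfl⟩ := exists_sa_decomp hy
  have e₁ := key y₁ h₁ s₁
  have e₂ := key y₂ h₂ s₂
  simp only [phi, mul_apply_eq_comp, add_apply, smul_apply, map_add, map_smul, inner_add_right,
    inner_smul_right] at e₁ e₂ ⊢
  rw [e₁, e₂]
  ring

/-- Self-adjoint vectors of the commutant are sent by `R` and by `D` to one self-adjoint vector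
of `M`. -/
lemma exists_image (h : CycSep M Ω) {b : H →L[ℂ] H} (hb : b ∈ M.commutant)
    (hsb : IsSelfAdjoint b) :
    ∃ z ∈ M, IsSelfAdjoint z ∧ D M Ω (b Ω) = z Ω ∧ R M Ω (b Ω) = z Ω := by
  obtain ⟨z, hzM, hzs, hz⟩ := exists_proj_eq h hb (l := 1 / 2) (by norm_num)
  have e : proj M Ω (b Ω) = z Ω := by
    rw [← hz, show (2 : ℂ) * (1 / 2) = 1 by norm_num, one_smul, proj_apply_sa hzM hzs]
  exact ⟨z, hzM, hzs, by rw [D_apply_commutant hb hsb, e], by rw [R_apply_commutant hb hsb, e]⟩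

/-- Two operators agreeing against the self-adjoint vectors of the commutant are equal. -/
lemma CycSep.ext_commutant_sa (h : CycSep M Ω) {S T : H →L[ℂ] H}
    (heq : ∀ u ∈ M.commutant, IsSelfAdjoint u → ∀ v ∈ M.commutant, IsSelfAdjoint v →
      ⟪u Ω, S (v Ω)⟫_ℂ = ⟪u Ω, T (v Ω)⟫_ℂ) : S = T := by
  have h1 : ∀ v ∈ M.commutant, IsSelfAdjoint v → S (v Ω) = T (v Ω) := by
    intro v hv hvs
    refine h.commutant.cyclic.eq_of_inner_right ℂ ?_
    rintro _ ⟨u, hu, rfl⟩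
    obtain ⟨u₁, h₁, u₂, h₂, s₁, s₂, rfl⟩ := exists_sa_decomp hu
    simp [inner_add_left, inner_smul_left, heq _ h₁ s₁ v hv hvs, heq _ h₂ s₂ v hv hvs]
  refine ContinuousLinearMap.ext fun ξ => ?_
  refine h.commutant.cyclic.induction (P := fun ξ => S ξ = T ξ) ?_
    (isClosed_eq S.continuous T.continuous) ξ
  rintro _ ⟨v, hv, rfl⟩
  obtain ⟨v₁, h₁, v₂, h₂, s₁, s₂, rfl⟩ := exists_sa_decomp hv
  simp [h1 _ h₁ s₁, h1 _ h₂ s₂]

/-- The bilinear identity: `D b D = l R x (2 - R) + conj l (2 - R) x R`. -/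
theorem exists_Dconj_eq (h : CycSep M Ω) {b : H →L[ℂ] H} (hb : b ∈ M.commutant)
    (hsb : IsSelfAdjoint b) {l : ℂ} (hl : 0 < l.re) :
    ∃ x ∈ M, IsSelfAdjoint x ∧
      Dconj M Ω b = l • (R M Ω * x * ((2 : ℂ) • 1 - R M Ω)) +
        conj l • (((2 : ℂ) • 1 - R M Ω) * x * R M Ω) := by
  obtain ⟨x, hxM, hxs, hx⟩ := exists_functional h hb hsb hl
  refine ⟨x, hxM, hxs, h.ext_commutant_sa fun u hu hus v hv hvs => ?_⟩
  obtain ⟨z, hzM, hzs, hzD, hzR⟩ := exists_image h hu hus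
  obtain ⟨y, hyM, hys, hyD, hyR⟩ := exists_image h hv hvs
  have hstar : ∀ a ∈ M, IsSelfAdjoint a →
      D M Ω (a (x Ω)) = (2 : ℂ) • x (a Ω) - R M Ω (x (a Ω)) := by
    intro a ha has
    have := D_apply_star (Ω := Ω) (mul_mem hxM ha)
    rwa [star_mul, hxs.star_eq, has.star_eq, mul_apply_eq_comp, mul_apply_eq_comp] at this
  have e0 : ⟪u Ω, Dconj M Ω b (v Ω)⟫_ℂ = phi Ω (b * (y * z)) := by
    rw [Dconj_apply, hyD, inner_D, hzD, inner_sa_left hsb, inner_sa_left hys,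
      ← commute_apply hyM hb, phi, mul_apply_eq_comp, mul_apply_eq_comp]
  have e1 : phi Ω (y * z * x) =
      ⟪u Ω, (R M Ω * x * ((2 : ℂ) • 1 - R M Ω)) (v Ω)⟫_ℂ := by
    have e : phi Ω (y * z * x) = ⟪y Ω, z (x Ω)⟫_ℂ := by
      rw [inner_sa_left hys, phi, mul_apply_eq_comp, mul_apply_eq_comp]
    rw [e, ← hyD, inner_D_left, hstar z hzM hzs, ← hzR]
    simp only [mul_apply_eq_comp, sub_apply, smul_apply, one_apply_eq_self]
    simp only [inner_sub_left, inner_smul_left, inner_sub_right, inner_smul_right, map_sub,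
      map_smul, map_ofNat, inner_R, inner_sa_left hxs]
  have e2 : phi Ω (x * (y * z)) =
      ⟪u Ω, (((2 : ℂ) • 1 - R M Ω) * x * R M Ω) (v Ω)⟫_ℂ := by
    have e : phi Ω (x * (y * z)) = ⟪y (x Ω), z Ω⟫_ℂ := by
      rw [inner_sa_left hys, inner_sa_left hxs, phi, mul_apply_eq_comp, mul_apply_eq_comp]
    rw [e, ← hzD, inner_D_left', hstar y hyM hys, ← hyR]
    simp only [mul_apply_eq_comp, sub_apply, smul_apply, one_apply_eq_self]
  rw [e0, hx _ (mul_mem hyM hzM), e1, e2]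
  simp only [add_apply, smul_apply, inner_add_right, inner_smul_right]
where
  /-- `inner_D` with the arguments in the order needed here. -/
  inner_D_left' {p q : H} : ⟪p, D M Ω q⟫_ℂ = ⟪q, D M Ω p⟫_ℂ := inner_D p q

end Vale.Agent.P132.Tomita
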