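import Vale.Agent.P132.Tomita.Flow
import Vale.Agent.P132.Tomita.Kernel
import Vale.Agent.P132.Tomita.RadonNikodym
import Vale.Agent.P132.Tomita.Commutation

/-!
# Tomita's theorem for a cyclic and separating vector

`U t M U (-t) = M` and `J M J = M'`, by the method of Rieffel and van Daele.
-/

namespace Vale.Agent.P132.Tomita

open Complex Set Filter Topology MeasureTheory
open scoped InnerProductSpace ComplexConjugate

universe u

variable {H : Type u} [NormedAddCommGroup H] [InnerProductSpace ℂ H] [CompleteSpace H]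
variable {M : VonNeumannAlgebra H} {Ω : H}

section Band

/-- A continuous cut-off vanishing where `c r (2 - r) ≤ 1`. -/
noncomputable def lev (c r : ℝ) : ℂ := ((max 0 (min 1 (c * qd r - 1)) : ℝ) : ℂ)

lemma conj_lev (c r : ℝ) : conj (lev c r) = lev c r := Complex.conj_ofReal _

lemma norm_lev_le (c r : ℝ) : ‖lev c r‖ ≤ 1 := by
  rw [lev, Complex.norm_real, Real.norm_of_nonneg (le_max_left _ _)]
  exact max_le zero_le_one (min_le_left _ _)

lemma lev_eq_zero {c r : ℝ} (h : c * qd r ≤ 1) : lev c r = 0 := by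
  rw [lev, max_eq_left ((min_le_right _ _).trans (by linarith)), Complex.ofReal_zero]

lemma lev_eq_one {c r : ℝ} (h : 2 ≤ c * qd r) : lev c r = 1 := by
  rw [lev, min_eq_left (by linarith), max_eq_right zero_le_one, Complex.ofReal_one]

lemma lev_mul_lev_two {c r : ℝ} : lev c r * lev (2 * c) r = lev c r := by
  by_cases h : c * qd r ≤ 1
  · simp [lev_eq_zero h]
  · rw [lev_eq_one (c := 2 * c) (by linarith [not_le.1 h]), mul_one]

lemma continuous_lev (c : ℝ) : Continuous (lev c) := by unfold lev qd; fun_prop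

/-- The cut-off makes functions which are continuous on `(0, 2)` continuous on `[0, 2]`. -/
lemma continuousOn_lev_mul (c : ℝ) {g : ℝ → ℂ} (hg : ContinuousOn g (Ioo 0 2)) :
    ContinuousOn (fun r => lev c r * g r) (Icc 0 2) := by
  intro r hr
  by_cases h : c * qd r < 1
  · have hev : ∀ᶠ s in 𝓝 r, lev c s * g s = (fun _ => (0 : ℂ)) s := by
      have hcont : Continuous fun s => c * qd s := by unfold qd; fun_prop
      filter_upwards [hcont.continuousAt.eventually_lt continuousAt_const h] with s hs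
      rw [lev_eq_zero hs.le, zero_mul]
    exact ((continuousAt_const.congr (Filter.EventuallyEq.symm hev))).continuousWithinAt
  · have hr' : r ∈ Ioo (0 : ℝ) 2 := by
      refine ⟨lt_of_le_of_ne hr.1 ?_, lt_of_le_of_ne hr.2 ?_⟩ <;>
        (intro he; apply h; subst he; simp [qd])
    exact ((continuous_lev c).continuousAt.mul
      (hg.continuousAt (isOpen_Ioo.mem_nhds hr'))).continuousWithinAt

/-- The truncated generator of `U`. -/
noncomputable def ellc (c r : ℝ) : ℂ := lev (2 * c) r * (ell r : ℂ)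

/-- The bounded generator which agrees with the logarithm on the band of `lev c`. -/
noncomputable def Lop (M : VonNeumannAlgebra H) (Ω : H) (c : ℝ) : H →L[ℂ] H := fR M Ω (ellc c)

lemma continuousOn_ellc (c : ℝ) : ContinuousOn (ellc c) (Icc 0 2) :=
  continuousOn_lev_mul _ (Complex.continuous_ofReal.comp_continuousOn continuousOn_ell)

lemma isSelfAdjoint_Lop (c : ℝ) : IsSelfAdjoint (Lop M Ω c) :=
  isSelfAdjoint_fR fun r => by simp [ellc, conj_lev]

lemma expOp_Lop (c : ℝ) (z : ℂ) :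
    expOp (Lop M Ω c) z = fR M Ω fun r => Complex.exp (z * ellc c r) :=
  (cfc_comp' (fun s : ℂ => Complex.exp (z * s)) (fun w : ℂ => ellc c w.re) (R M Ω)
    (by fun_prop) (continuousOn_re (continuousOn_ellc c)) isStarNormal_R).symm

/-- On the band, exponentials of the truncated generator are exponentials of the logarithm. -/
lemma expOp_Lop_band (c : ℝ) (z : ℂ) {g : ℝ → ℂ}
    (hg : ContinuousOn (fun r => lev c r * g r) (Icc 0 2)) (ξ : H) :
    expOp (Lop M Ω c) z (fR M Ω (fun r => lev c r * g r) ξ) =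
      fR M Ω (fun r => lev c r * (Complex.exp (z * (ell r : ℂ)) * g r)) ξ := by
  rw [expOp_Lop, fR_mul_apply (f := fun r => Complex.exp (z * ellc c r))
    ((continuousOn_const.mul (continuousOn_ellc c)).cexp) hg]
  congr 1
  refine fR_congr fun r _ => ?_
  by_cases h : lev c r = 0
  · simp [h]
  · have h2 : lev (2 * c) r = 1 :=
      lev_eq_one (by have := not_le.1 fun hle => h (lev_eq_zero hle); linarith)
    simp only [ellc, h2, one_mul]
    ring

lemma continuousOn_lev_exp (c : ℝ) (z : ℂ) {g : ℝ → ℂ}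
    (hg : ContinuousOn g (Ioo 0 2)) :
    ContinuousOn (fun r => lev c r * (Complex.exp (z * (ell r : ℂ)) * g r)) (Icc 0 2) :=
  continuousOn_lev_mul c (((continuousOn_const.mul
    (Complex.continuous_ofReal.comp_continuousOn continuousOn_ell)).cexp).mul hg)

lemma exp_half_ell {r : ℝ} (hr : r ∈ Ioo (0 : ℝ) 2) :
    Complex.exp ((1 / 2 : ℂ) * (ell r : ℂ)) = ((√(2 - r) / √r : ℝ) : ℂ) ∧
      Complex.exp (-(1 / 2 : ℂ) * (ell r : ℂ)) = ((√r / √(2 - r) : ℝ) : ℂ) := by
  have hpos : 0 < (2 - r) / r := div_pos (by linarith [hr.2]) hr.1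
  have e : Real.exp (ell r / 2) = √(2 - r) / √r := by
    rw [ell, Real.exp_half, Real.exp_log hpos, Real.sqrt_div' _ hr.1.le]
  refine ⟨?_, ?_⟩
  · rw [← e, Complex.ofReal_exp]; congr 1; push_cast; ring
  · rw [show √r / √(2 - r) = (√(2 - r) / √r)⁻¹ from (inv_div _ _).symm, ← e, ← Real.exp_neg,
      Complex.ofReal_exp]; congr 1; push_cast; ring

/-- `√r`, as a complex number. -/
noncomputable def rootR (r : ℝ) : ℂ := (√r : ℂ)

/-- `√(2 - r)`, as a complex number. -/
noncomputable def rootS (r : ℝ) : ℂ := (√(2 - r) : ℂ)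

lemma continuous_rootR : Continuous rootR := by unfold rootR; fun_prop

lemma continuous_rootS : Continuous rootS := by unfold rootS; fun_prop

lemma CycSep.tendsto_band (h : CycSep M Ω) (ξ : H) :
    Tendsto (fun n : ℕ => fR M Ω (lev ((n : ℝ) + 1)) ξ) atTop (𝓝 ξ) := by
  have hT : ∀ η, Tendsto (fun n : ℕ => fR M Ω (lev ((n : ℝ) + 1)) (T M Ω η)) atTop
      (𝓝 (T M Ω η)) := by
    intro η
    rw [tendsto_iff_norm_sub_tendsto_zero]
    refine squeeze_zero (fun n => norm_nonneg _) (fun n => ?_)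
      (g := fun n : ℕ => √2 * (1 / √((n : ℝ) + 1)) * ‖η‖)
      (by simpa using ((tendsto_inv_sqrt_succ.const_mul (√2)).mul_const ‖η‖))
    rw [T, fR_mul_apply (continuous_lev _).continuousOn continuousOn_sq, ← sub_apply,
      ← fR_sub (f := fun r => lev ((n : ℝ) + 1) r * sq r)
        ((continuous_lev _).continuousOn.mul continuousOn_sq) continuousOn_sq]
    refine norm_fR_apply_le (by positivity) (fun r hr => ?_) η
    by_cases h2 : 2 ≤ ((n : ℝ) + 1) * qd r
    · rw [lev_eq_one h2, one_mul, sub_self, norm_zero]; positivity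
    · rw [lev, sq, ← Complex.ofReal_mul, ← Complex.ofReal_sub, Complex.norm_real, Real.norm_eq_abs,
        mul_one_div, ← Real.sqrt_div' _ (by positivity)]
      refine le_trans ?_ (Real.sqrt_le_sqrt
        (le_div_iff₀' (by positivity : (0 : ℝ) < n + 1) |>.2 (not_le.1 h2).le))
      have h0 := le_max_left 0 (min 1 (((n : ℝ) + 1) * qd r - 1))
      have h1 : max 0 (min 1 (((n : ℝ) + 1) * qd r - 1)) ≤ 1 :=
        max_le zero_le_one (min_le_left _ _)
      have := Real.sqrt_nonneg (qd r)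
      rw [abs_le]; constructor <;> nlinarith
  obtain ⟨V, hV⟩ := exists_limit (σ := RingHom.id ℂ)
    (fun n : ℕ => fR M Ω (lev ((n : ℝ) + 1))) 1
    (fun n ξ => norm_fR_apply_le zero_le_one (fun r _ => norm_lev_le _ r) ξ) _ h.denseRange_T
    (by rintro _ ⟨η, rfl⟩; exact ⟨_, hT η⟩)
  have := h.ext_T V.continuous continuous_id (fun η => tendsto_nhds_unique (hV _) (hT η)) ξ
  simpa [this] using hV ξ

end Band

/-- Conjugation by `J`. -/
noncomputable def Jconj (M : VonNeumannAlgebra H) (Ω : H) (A : H →L[ℂ] H) : H →L[ℂ] H :=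
  (J₀ M Ω).comp (A.comp (J₀ M Ω))

lemma Jconj_apply (A : H →L[ℂ] H) (ξ : H) : Jconj M Ω A ξ = J₀ M Ω (A (J₀ M Ω ξ)) := rfl

lemma CycSep.Jconj_Jconj (h : CycSep M Ω) (A : H →L[ℂ] H) : Jconj M Ω (Jconj M Ω A) = A := by
  refine ContinuousLinearMap.ext fun ξ => ?_
  rw [Jconj_apply, Jconj_apply, h.J_J, h.J_J]

lemma CycSep.Dconj_eq (h : CycSep M Ω) (A : H →L[ℂ] H) (ξ : H) :
    T M Ω (Jconj M Ω A (T M Ω ξ)) = Dconj M Ω A ξ := by
  rw [Jconj_apply, h.T_J, h.J_T, Dconj_apply]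

/-- On band vectors `Jconj b` is the operator to which the kernel identity applies. -/
lemma CycSep.inner_band (h : CycSep M Ω) {b x : H →L[ℂ] H} {l : ℂ}
    (he : Dconj M Ω b = l • (R M Ω * x * ((2 : ℂ) • 1 - R M Ω)) +
      conj l • (((2 : ℂ) • 1 - R M Ω) * x * R M Ω)) (c : ℝ) (ξ η : H) :
    ⟪fR M Ω (lev c) ξ, Jconj M Ω b (fR M Ω (lev c) η)⟫_ℂ =
      ⟪fR M Ω (lev c) ξ, (l • (expOp (Lop M Ω c) (-(1 / 2)) * x * expOp (Lop M Ω c) (1 / 2)) +
        conj l • (expOp (Lop M Ω c) (1 / 2) * x * expOp (Lop M Ω c) (-(1 / 2))))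
          (fR M Ω (lev c) η)⟫_ℂ := by
  set L := Lop M Ω c
  set v : H → H := fun ζ => fR M Ω (fun r => lev c r * (sq r)⁻¹) ζ
  have hinv : ContinuousOn (fun r => (sq r)⁻¹) (Ioo 0 2) := by
    refine (continuousOn_sq.mono Ioo_subset_Icc_self).inv₀ fun r hr => ?_
    simp only [sq, ne_eq, Complex.ofReal_eq_zero]
    exact (Real.sqrt_pos.2 (mul_pos hr.1 (by linarith [hr.2]))).ne'
  have hcv := continuousOn_lev_mul c hinv
  have hne : ∀ r ∈ Icc (0 : ℝ) 2, lev c r ≠ 0 → r ∈ Ioo (0 : ℝ) 2 := fun r hr hl => by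
    refine ⟨lt_of_le_of_ne hr.1 ?_, lt_of_le_of_ne hr.2 ?_⟩ <;>
      (intro he; apply hl; apply lev_eq_zero; subst he; simp [qd])
  -- the band vector is `T` of a band vector
  have hT : ∀ ζ, T M Ω (v ζ) = fR M Ω (lev c) ζ := fun ζ => by
    rw [T, fR_mul_apply continuousOn_sq hcv]
    congr 1
    refine fR_congr fun r hr => ?_
    by_cases hl : lev c r = 0
    · simp [hl]
    · have := hne r hr hl
      have : sq r ≠ 0 := by
        simp only [sq, ne_eq, Complex.ofReal_eq_zero]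
        exact (Real.sqrt_pos.2 (mul_pos this.1 (by linarith [this.2]))).ne'
      field_simp
  have hE : ∀ z : ℂ, ∀ ζ, expOp L z (fR M Ω (lev c) ζ) =
      fR M Ω (fun r => lev c r * Complex.exp (z * (ell r : ℂ))) ζ := fun z ζ => by
    have := expOp_Lop_band (M := M) (Ω := Ω) c z (g := fun _ => 1)
      (by simpa using (continuous_lev c).continuousOn) ζ
    simpa using this
  have hR : ∀ ζ, R M Ω (v ζ) = expOp L (-(1 / 2)) (fR M Ω (lev c) ζ) := fun ζ => by
    rw [hE, ← fR_id, fR_mul_apply (by fun_prop) hcv]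
    congr 1
    refine fR_congr fun r hr => ?_
    by_cases hl : lev c r = 0
    · simp [hl]
    · have h' := hne r hr hl
      rw [(exp_half_ell h').2, sq, qd, Real.sqrt_mul h'.1.le]
      have := (Real.sqrt_pos.2 h'.1).ne'
      have := (Real.sqrt_pos.2 (sub_pos.2 h'.2)).ne'
      push_cast
      have e : (r : ℂ) = ((√r : ℝ) : ℂ) * ((√r : ℝ) : ℂ) := by
        rw [← Complex.ofReal_mul, Real.mul_self_sqrt h'.1.le]
      conv_lhs => rw [e]
      field_simp
  have hS : ∀ ζ, ((2 : ℂ) • 1 - R M Ω) (v ζ) = expOp L (1 / 2) (fR M Ω (lev c) ζ) := fun ζ => by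
    rw [hE, ← fR_id, ← fR_const, ← fR_sub (by fun_prop) (by fun_prop),
      fR_mul_apply (by fun_prop) hcv]
    congr 1
    refine fR_congr fun r hr => ?_
    by_cases hl : lev c r = 0
    · simp [hl]
    · have h' := hne r hr hl
      rw [(exp_half_ell h').1, sq, qd, Real.sqrt_mul h'.1.le]
      have := (Real.sqrt_pos.2 h'.1).ne'
      have := (Real.sqrt_pos.2 (sub_pos.2 h'.2)).ne'
      push_cast
      have e : (2 : ℂ) - (r : ℂ) = ((√(2 - r) : ℝ) : ℂ) * ((√(2 - r) : ℝ) : ℂ) := by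
        rw [← Complex.ofReal_mul, Real.mul_self_sqrt (sub_pos.2 h'.2).le]; push_cast; rfl
      conv_lhs => rw [e]
      field_simp
  have hsaR : ∀ u w : H, ⟪R M Ω u, w⟫_ℂ = ⟪u, R M Ω w⟫_ℂ := inner_R
  have hsaS : ∀ u w : H, ⟪((2 : ℂ) • 1 - R M Ω) u, w⟫_ℂ = ⟪u, ((2 : ℂ) • 1 - R M Ω) w⟫_ℂ :=
    fun u w => by
      simp only [sub_apply, smul_apply, one_apply_eq_self, inner_sub_left, inner_sub_right,
        inner_smul_left, inner_smul_right, inner_R, map_ofNat]
  have hsaE : ∀ s : ℝ, ∀ u w : H, ⟪expOp L s u, w⟫_ℂ = ⟪u, expOp L s w⟫_ℂ := fun s u w => by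
    rw [expOp_Lop, inner_fR]
    simp [← Complex.exp_conj, ellc, conj_lev]
  have hsaE1 : ∀ u w : H, ⟪expOp L (1 / 2) u, w⟫_ℂ = ⟪u, expOp L (1 / 2) w⟫_ℂ := fun u w => by
    simpa using hsaE (1 / 2) u w
  have hsaE2 : ∀ u w : H, ⟪expOp L (-(1 / 2)) u, w⟫_ℂ = ⟪u, expOp L (-(1 / 2)) w⟫_ℂ :=
    fun u w => by simpa using hsaE (-(1 / 2)) u w
  calc ⟪fR M Ω (lev c) ξ, Jconj M Ω b (fR M Ω (lev c) η)⟫_ℂ
      = ⟪v ξ, Dconj M Ω b (v η)⟫_ℂ := by
        rw [← hT, ← hT, inner_sa_left isSelfAdjoint_T, h.Dconj_eq]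
    _ = _ := by
        rw [he]
        simp only [add_apply, smul_apply, mul_apply_eq_comp, inner_add_right, inner_smul_right,
          ← hsaR, ← hsaS, hR, hS]
        rw [hsaE1, hsaE2]

/-- The integral identity of Rieffel and van Daele, for all vectors. -/
lemma CycSep.kernel_identity (h : CycSep M Ω) {b x : H →L[ℂ] H} {θ : ℝ}
    (hθ : |θ| < Real.pi / 2)
    (he : Dconj M Ω b = cexp (I * θ) • (R M Ω * x * ((2 : ℂ) • 1 - R M Ω)) +
      conj (cexp (I * θ)) • (((2 : ℂ) • 1 - R M Ω) * x * R M Ω)) (ξ η : H) :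
    ∫ t : ℝ, ((Real.exp (2 * θ * t) / (2 * Real.cosh (Real.pi * t)) : ℝ) : ℂ) *
      ⟪ξ, U M Ω t (Jconj M Ω b (U M Ω (-t) η))⟫_ℂ = ⟪ξ, x η⟫_ℂ := by
  set A := Jconj M Ω b
  set k : ℝ → ℂ := fun t => ((Real.exp (2 * θ * t) / (2 * Real.cosh (Real.pi * t)) : ℝ) : ℂ)
  set P : ℕ → H →L[ℂ] H := fun n => fR M Ω (lev ((n : ℝ) + 1))
  have hband : ∀ n : ℕ, ∫ t : ℝ, k t * ⟪P n ξ, U M Ω t (A (U M Ω (-t) (P n η)))⟫_ℂ =
      ⟪P n ξ, x (P n η)⟫_ℂ := by
    intro n
    set c : ℝ := (n : ℝ) + 1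
    rw [← (kernel_operator (L := Lop M Ω c) (isSelfAdjoint_Lop c) x hθ (P n ξ) (P n η)).2]
    refine integral_congr_ae (Eventually.of_forall fun t => ?_)
    simp only [k]
    congr 1
    set L := Lop M Ω c
    have hU : ∀ s : ℝ, ∀ ζ, U M Ω s (P n ζ) = expOp L (I * s) (P n ζ) := fun s ζ => by
      have h0 : c * qd 0 ≤ 1 := by simp [qd]
      have h2 : c * qd 2 ≤ 1 := by simp [qd]
      simp only [P]
      rw [h.U_fR s (continuous_lev _).continuousOn (lev_eq_zero h0) (lev_eq_zero h2)]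
      have := expOp_Lop_band (M := M) (Ω := Ω) c (I * s) (g := fun _ => 1)
        (by simpa using (continuous_lev c).continuousOn) ζ
      simp only [mul_one] at this
      rw [this]
      refine congrArg (fun B : H →L[ℂ] H => B ζ) (fR_congr fun r _ => ?_)
      rw [mul_comm, phase]; congr 2; push_cast; ring
    have hsub : ∀ z : ℂ, ∀ ζ, expOp L z (P n ζ) = P n (expOp L z ζ) := fun z ζ => by
      have hc : ContinuousOn (fun r => Complex.exp (z * ellc c r)) (Icc 0 2) :=
        (continuousOn_const.mul (continuousOn_ellc c)).cexp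
      simp only [P, L, expOp_Lop]
      rw [fR_mul_apply hc (continuous_lev _).continuousOn,
        fR_mul_apply (continuous_lev _).continuousOn hc]
      exact congrArg (fun B : H →L[ℂ] H => B ζ) (fR_congr fun r _ => mul_comm _ _)
    rw [show ⟪P n ξ, U M Ω t (A (U M Ω (-t) (P n η)))⟫_ℂ =
      ⟪U M Ω (-t) (P n ξ), A (U M Ω (-t) (P n η))⟫_ℂ by rw [h.inner_U (-t), neg_neg]]
    simp only [hU, hsub]
    rw [h.inner_band he c, mul_apply_eq_comp, mul_apply_eq_comp, ← hsub, ← hsub]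
    rw [expOp_Lop, inner_fR]
    simp [← Complex.exp_conj, ellc, conj_lev, expOp_Lop, L]
  have hlim : Tendsto (fun n => ∫ t : ℝ, k t * ⟪P n ξ, U M Ω t (A (U M Ω (-t) (P n η)))⟫_ℂ)
      atTop (𝓝 (∫ t : ℝ, k t * ⟪ξ, U M Ω t (A (U M Ω (-t) η))⟫_ℂ)) := by
    have h2θ : |2 * θ| < Real.pi := by rw [abs_mul, abs_two]; linarith
    have hU : ∀ u : H, Continuous fun t => U M Ω t u := h.U_continuous
    have hcont : ∀ u w : H, Continuous fun t => ⟪U M Ω (-t) u, A (U M Ω (-t) w)⟫_ℂ := fun u w =>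
      ((hU u).comp continuous_neg).inner (A.continuous.comp ((hU w).comp continuous_neg))
    have hrw : ∀ u w : H, ∀ t, ⟪u, U M Ω t (A (U M Ω (-t) w))⟫_ℂ =
        ⟪U M Ω (-t) u, A (U M Ω (-t) w)⟫_ℂ := fun u w t => by rw [h.inner_U (-t), neg_neg]
    simp only [hrw]
    refine tendsto_integral_of_dominated_convergence
      (fun t => kerc (2 * θ) t * (‖ξ‖ * (‖A‖ * ‖η‖))) (fun n => ?_)
      ((integrable_kerc h2θ).mul_const _) (fun n => Eventually.of_forall fun t => ?_)
      (Eventually.of_forall fun t => ?_)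
    · exact (Continuous.mul (Complex.continuous_ofReal.comp (continuous_kerc (2 * θ)))
        (hcont _ _)).aestronglyMeasurable
    · have hP : ∀ ζ : H, ‖P n ζ‖ ≤ ‖ζ‖ := fun ζ => by
        simpa using norm_fR_apply_le (M := M) (Ω := Ω) zero_le_one
          (fun r _ => norm_lev_le _ r) ζ
      rw [norm_mul]
      gcongr
      · exact (kerc_pos _ _).le
      · rw [Complex.norm_real]
        exact (Real.norm_of_nonneg (kerc_pos (2 * θ) t).le).le
      · exact (norm_inner_le_norm _ _).trans <| mul_le_mul ((h.norm_U_le _ _).trans (hP _))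
          ((A.le_opNorm _).trans
            (mul_le_mul_of_nonneg_left ((h.norm_U_le _ _).trans (hP _)) (norm_nonneg _)))
          (norm_nonneg _) (norm_nonneg _)
    · exact Tendsto.const_mul _ (Tendsto.inner
        (((U M Ω (-t)).continuous.tendsto _).comp (h.tendsto_band ξ))
        ((A.continuous.tendsto _).comp
          (((U M Ω (-t)).continuous.tendsto _).comp (h.tendsto_band η))))
  refine tendsto_nhds_unique hlim ?_
  simp only [hband]
  exact (h.tendsto_band ξ).inner ((x.continuous.tendsto _).comp (h.tendsto_band η))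

/-- The core of Tomita's theorem: `U t J M' J U (-t) ⊆ M`. -/
theorem CycSep.U_Jconj_mem (h : CycSep M Ω) {b : H →L[ℂ] H} (hb : b ∈ M.commutant) (t : ℝ) :
    U M Ω t * Jconj M Ω b * U M Ω (-t) ∈ M := by
  suffices hsa : ∀ b ∈ M.commutant, IsSelfAdjoint b → U M Ω t * Jconj M Ω b * U M Ω (-t) ∈ M by
    obtain ⟨b₁, h₁, b₂, h₂, s₁, s₂, rfl⟩ := exists_sa_decomp hb
    have e : Jconj M Ω (b₁ + I • b₂) = Jconj M Ω b₁ + (-I) • Jconj M Ω b₂ := by
      ext ξ
      simp [Jconj_apply, map_smulₛₗ]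
    rw [e, mul_add, add_mul, mul_smul_comm, smul_mul_assoc]
    exact add_mem (hsa _ h₁ s₁) (M.toStarSubalgebra.smul_mem (hsa _ h₂ s₂) _)
  intro b hb hsb
  rw [← M.commutant_commutant, VonNeumannAlgebra.mem_commutant_iff]
  intro c hc
  refine ContinuousLinearMap.ext fun η => ext_inner_left ℂ fun ξ => ?_
  set σ : ℝ → H → H := fun s v => U M Ω s (Jconj M Ω b (U M Ω (-s) v))
  set g : ℝ → ℂ := fun s => ⟪star c ξ, σ s η⟫_ℂ - ⟪ξ, σ s (c η)⟫_ℂ
  suffices hg : g = 0 by
    have := congrFun hg t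
    simp only [g, Pi.zero_apply, sub_eq_zero] at this
    rw [inner_star_left] at this
    simpa [mul_apply_eq_comp, σ] using this
  have hσ : ∀ u w : H, Continuous fun s => ⟪u, σ s w⟫_ℂ := fun u w => by
    have he : (fun s => ⟪u, σ s w⟫_ℂ) =
        fun s => ⟪U M Ω (-s) u, Jconj M Ω b (U M Ω (-s) w)⟫_ℂ := by
      funext s; simp only [σ]; rw [h.inner_U (-s), neg_neg]
    rw [he]
    exact ((h.U_continuous u).comp continuous_neg).inner
      ((Jconj M Ω b).continuous.comp ((h.U_continuous w).comp continuous_neg))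
  have hbound : ∀ u w : H, ∀ s, ‖⟪u, σ s w⟫_ℂ‖ ≤ ‖u‖ * (‖Jconj M Ω b‖ * ‖w‖) := fun u w s =>
    (norm_inner_le_norm _ _).trans <| mul_le_mul_of_nonneg_left
      ((h.norm_U_le _ _).trans ((ContinuousLinearMap.le_opNorm _ _).trans
        (mul_le_mul_of_nonneg_left (h.norm_U_le _ _) (norm_nonneg _)))) (norm_nonneg _)
  refine eq_zero_of_kernel g ((hσ _ _).sub (hσ _ _))
    ⟨_, fun s => (norm_sub_le _ _).trans (add_le_add (hbound _ _ s) (hbound _ _ s))⟩ fun θ hθ => ?_
  have hl : 0 < (cexp (I * θ)).re := by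
    rw [Complex.exp_re]
    simp only [mul_re, I_re, ofReal_re, zero_mul, I_im, ofReal_im, mul_zero, sub_self,
      Real.exp_zero, one_mul, mul_im, zero_add]
    exact Real.cos_pos_of_mem_Ioo ⟨by linarith [(abs_lt.1 hθ).1], (abs_lt.1 hθ).2⟩
  obtain ⟨x, hx, -, he⟩ := exists_Dconj_eq h hb hsb hl
  have h2θ : |2 * θ| < Real.pi := by rw [abs_mul, abs_two]; linarith
  have hint : ∀ u w : H, Integrable fun s =>
      ((Real.exp (2 * θ * s) / (2 * Real.cosh (Real.pi * s)) : ℝ) : ℂ) * ⟪u, σ s w⟫_ℂ := by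
    intro u w
    refine ((integrable_kerc h2θ).mul_const (‖u‖ * (‖Jconj M Ω b‖ * ‖w‖))).mono'
      ((Complex.continuous_ofReal.comp (continuous_kerc (2 * θ))).mul
        (hσ u w)).aestronglyMeasurable (Eventually.of_forall fun s => ?_)
    rw [norm_mul, Complex.norm_real]
    change ‖kerc (2 * θ) s‖ * _ ≤ _
    rw [Real.norm_of_nonneg (kerc_pos _ _).le]
    exact mul_le_mul_of_nonneg_left (hbound u w s) (kerc_pos _ _).le
  simp only [g, mul_sub]
  rw [integral_sub (hint _ _) (hint _ _)]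
  simp only [σ]
  rw [h.kernel_identity hθ he, h.kernel_identity hθ he, inner_star_left, commute_apply hx hc,
    sub_self]

/-! ## Passing to the commutant -/

lemma CycSep.fR_commutant (h : CycSep M Ω) {f : ℝ → ℂ} (hf : ContinuousOn f (Icc 0 2)) :
    fR M.commutant Ω f = fR M Ω fun r => f (2 - r) := by
  have hrefl : MapsTo (fun r : ℝ => 2 - r) (Icc 0 2) (Icc 0 2) := fun r hr =>
    ⟨by linarith [hr.2], by linarith [hr.1]⟩
  have he : R M.commutant Ω = cfc (fun z : ℂ => 2 - z) (R M Ω) := by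
    rw [cfc_sub _ _ (R M Ω) (by fun_prop) (by fun_prop), cfc_const _ _ isStarNormal_R,
      cfc_id' ℂ (R M Ω) isStarNormal_R, h.R_commutant, Algebra.algebraMap_eq_smul_one]
  rw [fR, he, ← cfc_comp' (fun z : ℂ => f z.re) (fun z : ℂ => 2 - z) (R M Ω) ?_ (by fun_prop)
    isStarNormal_R]
  · exact cfc_congr fun z _ => by simp
  · refine hf.comp Complex.continuous_re.continuousOn ?_
    rintro _ ⟨z, hz, rfl⟩
    simpa using hrefl (re_mem_Icc hz).1

lemma CycSep.J_commutant' (h : CycSep M Ω) : J₀ M.commutant Ω = J₀ M Ω := by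
  refine ContinuousLinearMap.ext fun ξ => tendsto_nhds_unique (h.commutant.tendsto_J ξ) ?_
  refine (h.tendsto_J ξ).congr fun n => ?_
  change D M Ω (fR M Ω (invSq n) ξ) = D M.commutant Ω (fR M.commutant Ω (invSq n) ξ)
  rw [h.fR_commutant (continuousOn_invSq n), h.D_commutant]
  simp only [invSq_refl]

/-- `J M J ⊆ M'`. -/
theorem CycSep.Jconj_mem_commutant (h : CycSep M Ω) {a : H →L[ℂ] H} (ha : a ∈ M) :
    Jconj M Ω a ∈ M.commutant := by
  have h' := h.commutant.U_Jconj_mem (b := a) (by rwa [M.commutant_commutant]) 0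
  rw [neg_zero, h.commutant.U_zero, one_mul, mul_one] at h'
  rwa [Jconj, ← h.J_commutant']

/-- `J M' J ⊆ M`. -/
theorem CycSep.Jconj_mem (h : CycSep M Ω) {b : H →L[ℂ] H} (hb : b ∈ M.commutant) :
    Jconj M Ω b ∈ M := by
  have := h.U_Jconj_mem hb 0
  rwa [neg_zero, h.U_zero, one_mul, mul_one] at this

/-- Tomita's theorem: `U t M U (-t) ⊆ M`. -/
theorem CycSep.sigma_mem (h : CycSep M Ω) (t : ℝ) {a : H →L[ℂ] H} (ha : a ∈ M) :
    U M Ω t * a * U M Ω (-t) ∈ M := by
  have := h.U_Jconj_mem (h.Jconj_mem_commutant ha) t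
  rwa [h.Jconj_Jconj] at this

end Vale.Agent.P132.Tomita
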