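import Vale.Agent.P132.Setup
import Vale.Agent.P132.Tomita.Main

/-!
# The modular data of a standard form

The KMS condition and `J Δ^{1/2} x Ω = x* Ω` for entire elements, and the resulting instance of
`P132.Modular`.
-/

namespace Vale.Agent.P132.Tomita

open Complex Set Filter Topology
open scoped InnerProductSpace ComplexConjugate

universe u

variable {H : Type u} [NormedAddCommGroup H] [InnerProductSpace ℂ H] [CompleteSpace H]
variable {M : VonNeumannAlgebra H} {Ω : H}

lemma differentiable_expOp_apply (c : ℝ) (a : ℂ) (ξ : H) :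
    Differentiable ℂ fun z : ℂ => expOp (Lop M Ω c) (a * z) ξ := by
  have hN : IsStarNormal (Lop M Ω c) := (isSelfAdjoint_Lop c).isStarNormal
  have he : ∀ w : ℂ, expOp (Lop M Ω c) w = NormedSpace.exp (w • Lop M Ω c) := fun w => by
    have : IsStarNormal (w • Lop M Ω c) := by
      refine ⟨?_⟩
      rw [star_smul]
      exact (hN.star_comm_self.smul_left _).smul_right _
    rw [← CFC.complex_exp_eq_normedSpace_exp, expOp, ← cfc_comp_smul w Complex.exp (Lop M Ω c)]
    rfl
  simp only [he]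
  intro z
  exact (ContinuousLinearMap.apply ℂ H ξ).differentiable.differentiableAt.comp z
    ((hasDerivAt_exp_smul_const (Lop M Ω c) (a * z)).differentiableAt.comp z
      (differentiableAt_id.const_mul a))

lemma lev_zero (c : ℝ) : lev c 0 = 0 := lev_eq_zero (by simp [qd])

lemma lev_two (c : ℝ) : lev c 2 = 0 := lev_eq_zero (by simp [qd])

/-- An entire extension of `t ↦ U t ξ` is, on each band, given by the exponential of `ell`. -/
lemma CycSep.fR_lev_entire (h : CycSep M Ω) {v : ℂ → H} (hv : Differentiable ℂ v) {ξ : H}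
    (he : ∀ t : ℝ, v t = U M Ω t ξ) (c : ℝ) {g : ℝ → ℂ}
    (hg : ContinuousOn g (Ioo 0 2)) (z : ℂ) :
    fR M Ω (fun r => lev c r * g r) (v z) =
      fR M Ω (fun r => lev c r * (Complex.exp (I * z * (ell r : ℂ)) * g r)) ξ := by
  set A := fR M Ω (fun r => lev c r * g r)
  have hcA := continuousOn_lev_mul c hg
  have hA0 : (fun r => lev c r * g r) 0 = 0 := by simp [lev_zero]
  have hA2 : (fun r => lev c r * g r) 2 = 0 := by simp [lev_two]
  have h1 : Differentiable ℂ fun z => A (v z) := A.differentiable.comp hv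
  have h2 : Differentiable ℂ fun z => expOp (Lop M Ω c) (I * z) (A ξ) :=
    differentiable_expOp_apply c I _
  have hreal : ∀ t : ℝ, A (v t) = expOp (Lop M Ω c) (I * t) (A ξ) := fun t => by
    have hcomm : ∀ n, A (USeq M Ω t n ξ) = USeq M Ω t n (A ξ) := fun n => by
      have hp := continuousOn_phase_mul t (continuousOn_chi n) (chi_zero n) (chi_two n)
      simp only [A, USeq]
      rw [fR_mul_apply hcA hp, fR_mul_apply hp hcA]
      exact congrArg (fun B : H →L[ℂ] H => B ξ) (fR_congr fun r _ => mul_comm _ _)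
    have hAU : A (U M Ω t ξ) = U M Ω t (A ξ) := tendsto_nhds_unique
      (((A.continuous.tendsto _).comp (h.tendsto_U t ξ)).congr fun n => hcomm n)
      (h.tendsto_U t _)
    rw [he, hAU, h.U_fR t hcA hA0 hA2, expOp_Lop_band c _ hcA]
    refine congrArg (fun B : H →L[ℂ] H => B ξ) (fR_congr fun r _ => ?_)
    rw [phase, show ((t * ell r : ℝ) : ℂ) * I = I * t * (ell r : ℂ) by push_cast; ring]
    ring
  have hfreq : ∃ᶠ w in 𝓝[≠] (0 : ℂ), A (v w) = expOp (Lop M Ω c) (I * w) (A ξ) := by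
    have ht : Tendsto (fun n : ℕ => ((1 / ((n : ℝ) + 1) : ℝ) : ℂ)) atTop (𝓝[≠] 0) := by
      refine tendsto_nhdsWithin_iff.2 ⟨?_, Eventually.of_forall fun n => ?_⟩
      · simpa [Function.comp_def] using (Complex.continuous_ofReal.tendsto _).comp
          (tendsto_one_div_add_atTop_nhds_zero_nat (𝕜 := ℝ))
      · simp only [mem_compl_iff, mem_singleton_iff, Complex.ofReal_eq_zero]
        positivity
    exact ht.frequently (Frequently.of_forall fun n => hreal _)
  have := congrFun (AnalyticOnNhd.eq_of_frequently_eq (fun w _ => h1.analyticAt w)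
    (fun w _ => h2.analyticAt w) hfreq) z
  simp only [A] at this
  rw [this, expOp_Lop_band c _ hcA]

lemma CycSep.tendsto_lev_mul (h : CycSep M Ω) {g : ℝ → ℂ} (hg : Continuous g) (ξ : H) :
    Tendsto (fun n : ℕ => fR M Ω (fun r => lev ((n : ℝ) + 1) r * g r) ξ) atTop
      (𝓝 (fR M Ω g ξ)) := by
  refine (h.tendsto_band (fR M Ω g ξ)).congr fun n => ?_
  rw [fR_mul_apply (continuous_lev _).continuousOn hg.continuousOn]

/-- From a band relation to a global one. -/
lemma CycSep.eq_of_band (h : CycSep M Ω) {f g : ℝ → ℂ} (hf : Continuous f) (hg : Continuous g)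
    {u w : H} (he : ∀ c : ℝ, fR M Ω (fun r => lev c r * f r) u = fR M Ω (fun r => lev c r * g r) w) :
    fR M Ω f u = fR M Ω g w :=
  tendsto_nhds_unique (h.tendsto_lev_mul hf u)
    ((h.tendsto_lev_mul hg w).congr fun _ => (he _).symm)

lemma exp_half_mul_rootR {r : ℝ} (hr : r ∈ Ioo (0 : ℝ) 2) :
    Complex.exp ((1 / 2 : ℂ) * (ell r : ℂ)) * rootR r = rootS r := by
  rw [(exp_half_ell hr).1, rootR, rootS, ← Complex.ofReal_mul,
    div_mul_cancel₀ _ (Real.sqrt_pos.2 hr.1).ne']

lemma lev_ne_zero_mem {c r : ℝ} (hr : r ∈ Icc (0 : ℝ) 2) (hl : lev c r ≠ 0) :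
    r ∈ Ioo (0 : ℝ) 2 := by
  refine ⟨lt_of_le_of_ne hr.1 ?_, lt_of_le_of_ne hr.2 ?_⟩ <;>
    (intro he; apply hl; subst he; simp [lev_zero, lev_two])

/-- `√R` times the value at `-i/2` is `√(2 - R)` times the value at `0`. -/
lemma CycSep.root_half (h : CycSep M Ω) {v : ℂ → H} (hv : Differentiable ℂ v) {ξ : H}
    (he : ∀ t : ℝ, v t = U M Ω t ξ) :
    fR M Ω rootR (v (-(I / 2))) = fR M Ω rootS ξ := by
  refine h.eq_of_band continuous_rootR continuous_rootS fun c => ?_
  rw [h.fR_lev_entire hv he c continuous_rootR.continuousOn]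
  refine congrArg (fun B : H →L[ℂ] H => B ξ) (fR_congr fun r hr => ?_)
  by_cases hl : lev c r = 0
  · simp [hl]
  · rw [show I * -(I / 2) = (1 / 2 : ℂ) by rw [mul_neg, ← mul_div_assoc, I_mul_I]; ring,
      exp_half_mul_rootR (lev_ne_zero_mem hr hl)]

/-- `√R` times the value at `-i` is `√(2 - R)` times the value at `-i/2`. -/
lemma CycSep.root_one (h : CycSep M Ω) {v : ℂ → H} (hv : Differentiable ℂ v) {ξ : H}
    (he : ∀ t : ℝ, v t = U M Ω t ξ) :
    fR M Ω rootR (v (-I)) = fR M Ω rootS (v (-(I / 2))) := by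
  refine h.eq_of_band continuous_rootR continuous_rootS fun c => ?_
  rw [h.fR_lev_entire hv he c continuous_rootR.continuousOn,
    h.fR_lev_entire hv he c continuous_rootS.continuousOn]
  refine congrArg (fun B : H →L[ℂ] H => B ξ) (fR_congr fun r hr => ?_)
  by_cases hl : lev c r = 0
  · simp [hl]
  · rw [show I * -I = (1 / 2 : ℂ) + 1 / 2 by rw [mul_neg, I_mul_I]; norm_num,
      show I * -(I / 2) = (1 / 2 : ℂ) by rw [mul_neg, ← mul_div_assoc, I_mul_I]; ring,
      add_mul, Complex.exp_add, mul_assoc (Complex.exp _),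
      exp_half_mul_rootR (lev_ne_zero_mem hr hl)]

lemma rootR_mul_rootS {r : ℝ} (hr : r ∈ Icc (0 : ℝ) 2) : rootR r * rootS r = sq r := by
  rw [rootR, rootS, sq, qd, Real.sqrt_mul hr.1, Complex.ofReal_mul]

lemma rootS_rootS (ξ : H) :
    fR M Ω rootS (fR M Ω rootS ξ) = (2 : ℂ) • ξ - R M Ω ξ := by
  rw [fR_mul_apply continuous_rootS.continuousOn continuous_rootS.continuousOn,
    fR_congr (g := fun r => (2 : ℂ) - (r : ℂ)) fun r hr => by
      rw [rootS, ← Complex.ofReal_mul, Real.mul_self_sqrt (by linarith [hr.2])]; push_cast; rfl,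
    fR_sub (by fun_prop) (by fun_prop), fR_const, fR_id]
  simp

lemma CycSep.rootS_injective (h : CycSep M Ω) {u w : H}
    (he : fR M Ω rootS u = fR M Ω rootS w) : u = w :=
  h.two_sub_R_injective (by simpa only [rootS_rootS] using congrArg (fR M Ω rootS) he)

/-- `√R J a Ω = √(2 - R) a* Ω`. -/
lemma CycSep.root_J (h : CycSep M Ω) {a : H →L[ℂ] H} (ha : a ∈ M) :
    fR M Ω rootR (J₀ M Ω (a Ω)) = fR M Ω rootS (star a Ω) := by
  refine h.rootS_injective ?_
  rw [rootS_rootS, ← D_apply_star (star_mem ha : star a ∈ M), star_star, ← h.T_J, T,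
    fR_mul_apply continuous_rootS.continuousOn continuous_rootR.continuousOn]
  exact congrArg (fun B : H →L[ℂ] H => B _)
    (fR_congr fun r hr => by rw [mul_comm, rootR_mul_rootS hr])

/-- `J Δ^{1/2} a Ω = a* Ω`. -/
lemma CycSep.J_half (h : CycSep M Ω) {a : H →L[ℂ] H} (ha : a ∈ M) {v : ℂ → H}
    (hv : Differentiable ℂ v) (he : ∀ t : ℝ, v t = U M Ω t (a Ω)) :
    J₀ M Ω (v (-(I / 2))) = star a Ω := by
  have hTS : ∀ ζ, T M Ω ζ = fR M Ω rootS (fR M Ω rootR ζ) := fun ζ => by
    rw [T, fR_mul_apply continuous_rootS.continuousOn continuous_rootR.continuousOn]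
    exact congrArg (fun B : H →L[ℂ] H => B _)
      (fR_congr fun r hr => by rw [mul_comm, rootR_mul_rootS hr])
  have hT : T M Ω (v (-(I / 2))) = T M Ω (J₀ M Ω (star a Ω)) := by
    rw [hTS, h.root_half hv he, rootS_rootS, h.T_J, D_apply_star ha]
  have : v (-(I / 2)) = J₀ M Ω (star a Ω) := by
    refine sub_eq_zero.1 (h.D_injective ?_)
    rw [← norm_eq_zero, norm_D_eq, map_sub, hT, sub_self, norm_zero]
  rw [this, h.J_J]

/-- The KMS identity in vector form: `⟪a* Ω, b Ω⟫ = ⟪b* Ω, Δ a Ω⟫`. -/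
lemma CycSep.kms (h : CycSep M Ω) {a b : H →L[ℂ] H} (ha : a ∈ M) (hb : b ∈ M) {v : ℂ → H}
    (hv : Differentiable ℂ v) (he : ∀ t : ℝ, v t = U M Ω t (a Ω)) :
    ⟪star a Ω, b Ω⟫_ℂ = ⟪star b Ω, v (-I)⟫_ℂ := by
  set p := J₀ M Ω (b Ω)
  set q := v (-(I / 2))
  have e1 : ⟪star a Ω, b Ω⟫_ℂ = ⟪p, q⟫_ℂ := by
    rw [← h.J_half ha hv he]
    exact h.inner_J _ _
  rw [e1]
  have hsum : ∀ u w : H, ⟪fR M Ω rootS u, fR M Ω rootS w⟫_ℂ +
      ⟪fR M Ω rootR u, fR M Ω rootR w⟫_ℂ = 2 * ⟪u, w⟫_ℂ := by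
    intro u w
    have hRR : ∀ ζ, fR M Ω rootR (fR M Ω rootR ζ) = R M Ω ζ := fun ζ => by
      rw [fR_mul_apply continuous_rootR.continuousOn continuous_rootR.continuousOn,
        fR_congr (g := fun r => (r : ℂ)) fun r hr => by
          rw [rootR, ← Complex.ofReal_mul, Real.mul_self_sqrt hr.1], fR_id]
    rw [inner_sa_left (isSelfAdjoint_fR (f := rootS) fun r => Complex.conj_ofReal _),
      inner_sa_left (isSelfAdjoint_fR (f := rootR) fun r => Complex.conj_ofReal _),
      rootS_rootS, hRR, ← inner_add_right, sub_add_cancel, inner_smul_right]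
  refine mul_left_cancel₀ (two_ne_zero : (2 : ℂ) ≠ 0) ?_
  rw [← hsum, ← hsum]
  have hswap : ∀ u w : H, ⟪fR M Ω rootS u, fR M Ω rootR w⟫_ℂ =
      ⟪fR M Ω rootR u, fR M Ω rootS w⟫_ℂ := fun u w => by
    rw [inner_sa_left (isSelfAdjoint_fR (f := rootS) fun r => Complex.conj_ofReal _),
      inner_sa_left (isSelfAdjoint_fR (f := rootR) fun r => Complex.conj_ofReal _),
      fR_mul_apply continuous_rootS.continuousOn continuous_rootR.continuousOn,
      fR_mul_apply continuous_rootR.continuousOn continuous_rootS.continuousOn]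
    congr 2
    exact fR_congr fun r _ => mul_comm _ _
  rw [show fR M Ω rootS q = fR M Ω rootR (v (-I)) from (h.root_one hv he).symm, hswap p,
    h.root_J hb]
  congr 1
  rw [hswap, ← h.root_one hv he]

end Vale.Agent.P132.Tomita

namespace P132

open Complex Vale.Agent.P132.Tomita
open scoped InnerProductSpace

variable {H : Type*} [NormedAddCommGroup H] [InnerProductSpace ℂ H] [CompleteSpace H]

lemma Std.cycSep (S : Std H) : CycSep S.M S.Ω := by
  refine ⟨S.norm_Ω, ?_, S.separating⟩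
  simpa only [Set.image, SetLike.mem_coe] using S.cyclic

/-- Tomita-Takesaki theory of a standard form. -/
noncomputable def Std.modular (S : Std H) : Modular S where
  U := Vale.Agent.P132.Tomita.U S.M S.Ω
  U_zero := S.cycSep.U_zero
  U_add := S.cycSep.U_add
  U_star := S.cycSep.star_U
  U_cont := S.cycSep.U_continuous
  U_Ω := S.cycSep.U_omega
  σ_mem t _ hx := S.cycSep.sigma_mem t hx
  J := Vale.Agent.P132.Tomita.J S.cycSep
  J_J := S.cycSep.J_J
  J_Ω := S.cycSep.J_omega
  J_U := S.cycSep.J_U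
  J_commutant x hx y hy v := (commute_apply hx (S.cycSep.Jconj_mem_commutant hy) v).symm
  kms x F hF hmem ht y hy := by
    have hx : x ∈ S.M := by
      have h0 := hmem (0 : ℂ)
      rw [show (0 : ℂ) = ((0 : ℝ) : ℂ) by simp, ht 0, neg_zero, S.cycSep.U_zero] at h0
      simpa using h0
    have he : ∀ t : ℝ, F t S.Ω = Vale.Agent.P132.Tomita.U S.M S.Ω t (x S.Ω) := fun t => by
      rw [ht, mul_apply_eq_comp, mul_apply_eq_comp, S.cycSep.U_omega]
    have := S.cycSep.kms hx hy (hF.clm_apply (differentiable_const S.Ω)) he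
    simp only [Std.φ, mul_apply_eq_comp]
    rw [← inner_star_left x S.Ω, ← inner_star_left y S.Ω, this]
  J_half x F hF hmem ht := by
    have hx : x ∈ S.M := by
      have h0 := hmem (0 : ℂ)
      rw [show (0 : ℂ) = ((0 : ℝ) : ℂ) by simp, ht 0, neg_zero, S.cycSep.U_zero] at h0
      simpa using h0
    have he : ∀ t : ℝ, F t S.Ω = Vale.Agent.P132.Tomita.U S.M S.Ω t (x S.Ω) := fun t => by
      rw [ht, mul_apply_eq_comp, mul_apply_eq_comp, S.cycSep.U_omega]
    exact S.cycSep.J_half hx (hF.clm_apply (differentiable_const S.Ω)) he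

end P132
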