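import Mathlib

/-!
Gaussian smoothing along a one-parameter unitary group that normalises a von Neumann algebra:
every element is a strong limit of elements whose orbit extends to an entire function.
-/

open MeasureTheory Filter Topology Complex
open scoped InnerProductSpace

noncomputable section

namespace Vale.Agent.P132.Tomita

variable {H : Type*} [NormedAddCommGroup H] [InnerProductSpace ℂ H] [CompleteSpace H]

/-- A strongly continuous one-parameter unitary group normalising `M`. -/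
structure NormalisingGroup (M : VonNeumannAlgebra H) (U : ℝ → H →L[ℂ] H) : Prop where
  zero : U 0 = 1
  add : ∀ s t, U (s + t) = U s * U t
  star_eq : ∀ t, star (U t) = U (-t)
  cont : ∀ v, Continuous fun t => U t v
  conj_mem : ∀ t, ∀ x ∈ M, U t * x * U (-t) ∈ M

/-- The Gaussian of total mass one, continued to the plane. -/
def gk (a : ℝ) (w : ℂ) : ℂ := (Real.sqrt (a / Real.pi) : ℂ) * cexp (-((a : ℂ) * w ^ 2))

/-- Its derivative, with the sign of `d/dz gk a (t - z)`. -/
def gk' (a : ℝ) (w : ℂ) : ℂ := 2 * (a : ℂ) * w * gk a w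

lemma norm_gk (a : ℝ) (w : ℂ) :
    ‖gk a w‖ = Real.sqrt (a / Real.pi) * Real.exp (a * w.im ^ 2) * Real.exp (-a * w.re ^ 2) := by
  rw [gk, norm_mul, norm_real, Real.norm_of_nonneg (Real.sqrt_nonneg _), Complex.norm_exp,
    mul_assoc, ← Real.exp_add]
  congr 2
  simp [sq, Complex.mul_re, Complex.mul_im]
  ring

lemma gk_ofReal (a t : ℝ) :
    gk a t = ((Real.sqrt (a / Real.pi) * Real.exp (-a * t ^ 2) : ℝ) : ℂ) := by
  rw [gk]; push_cast; ring_nf

lemma integral_norm_gk {a : ℝ} (ha : 0 < a) : ∫ t : ℝ, ‖gk a t‖ = 1 := by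
  simp only [norm_gk, ofReal_re, ofReal_im]
  rw [integral_const_mul, integral_gaussian]
  have hpi := Real.pi_pos
  rw [show (0 : ℝ) ^ 2 = 0 by norm_num, mul_zero, Real.exp_zero, mul_one,
    ← Real.sqrt_mul (by positivity), show a / Real.pi * (Real.pi / a) = 1 by field_simp,
    Real.sqrt_one]

lemma integrable_gk {a : ℝ} (ha : 0 < a) (z : ℂ) :
    Integrable fun t : ℝ => gk a ((t : ℂ) - z) := by
  have h := ((integrable_exp_neg_mul_sq ha).comp_sub_right z.re).const_mul
    (Real.sqrt (a / Real.pi) * Real.exp (a * z.im ^ 2))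
  refine h.mono' (Continuous.aestronglyMeasurable (by unfold gk; fun_prop))
    (Eventually.of_forall fun t => le_of_eq ?_)
  simp [norm_gk]

/-- The constant in the second-order estimate of the kernel. -/
def gkC (a : ℝ) (q : ℝ) : ℝ :=
  Real.sqrt (a / Real.pi) * Real.exp (a * q ^ 2) * ((2 + a) * Real.exp (6 * a * |q| + 21 * a))

lemma gk_diff_le {a : ℝ} (ha : 0 < a) (w h : ℂ) (hh : ‖h‖ ≤ 1) :
    ‖gk a (w - h) - gk a w - h * gk' a w‖
      ≤ ‖h‖ ^ 2 * (gkC a w.im * Real.exp (-(a / 2) * w.re ^ 2)) := by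
  set u : ℂ := 2 * a * w * h - a * h ^ 2 with hu
  have e : gk a (w - h) - gk a w - h * gk' a w
      = gk a w * ((cexp u - 1 - u) - (a : ℂ) * h ^ 2) := by
    have : gk a (w - h) = gk a w * cexp u := by
      rw [gk, gk, mul_assoc, ← Complex.exp_add, hu]
      congr 2
      ring
    rw [this, gk', hu]
    ring
  set M := 2 * a * ‖w‖ + a with hM
  have hu1 : ‖u‖ ≤ ‖h‖ * M := by
    refine (norm_sub_le _ _).trans ?_
    simp only [norm_mul, norm_pow, norm_real, Real.norm_of_nonneg ha.le, RCLike.norm_ofNat]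
    have : a * ‖h‖ ^ 2 ≤ a * ‖h‖ := by
      rw [sq]; exact mul_le_mul_of_nonneg_left (mul_le_of_le_one_right (norm_nonneg _) hh) ha.le
    rw [hM]; linarith
  have hM0 : 0 ≤ M := by positivity
  have h2 : ‖cexp u - 1 - u‖ ≤ ‖h‖ ^ 2 * (2 * Real.exp M * Real.exp (‖h‖ * M)) := by
    have h3 := Complex.norm_exp_sub_sum_le_norm_mul_exp u 2
    rw [Finset.sum_range_succ, Finset.sum_range_one] at h3
    simp only [pow_zero, pow_one, Nat.factorial_zero, Nat.factorial_one, Nat.cast_one, div_one,
      ← sub_sub] at h3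
    refine h3.trans ((mul_le_mul (pow_le_pow_left₀ (norm_nonneg _) hu1 2)
      (Real.exp_le_exp.2 hu1) (Real.exp_pos _).le (sq_nonneg _)).trans_eq' rfl |>.trans ?_)
    rw [mul_pow, mul_assoc (‖h‖ ^ 2)]
    refine mul_le_mul_of_nonneg_left (mul_le_mul_of_nonneg_right ?_ (Real.exp_pos _).le) (sq_nonneg _)
    have := Real.quadratic_le_exp_of_nonneg hM0
    linarith
  have h4 : ‖(cexp u - 1 - u) - (a : ℂ) * h ^ 2‖ ≤ ‖h‖ ^ 2 * ((2 + a) * Real.exp (2 * M)) := by
    refine (norm_sub_le _ _).trans ?_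
    rw [norm_mul, norm_pow, norm_real, Real.norm_of_nonneg ha.le]
    have h5 : Real.exp M * Real.exp (‖h‖ * M) ≤ Real.exp (2 * M) := by
      rw [← Real.exp_add]
      exact Real.exp_le_exp.2 (by linarith [mul_le_of_le_one_left hM0 hh])
    have h6 : a * ‖h‖ ^ 2 ≤ ‖h‖ ^ 2 * (a * Real.exp (2 * M)) := by
      rw [mul_comm a]
      exact mul_le_mul_of_nonneg_left
        (le_mul_of_one_le_right ha.le (Real.one_le_exp (by positivity))) (sq_nonneg _)
    have h7 := mul_le_mul_of_nonneg_left
      (mul_le_mul_of_nonneg_left h5 zero_le_two) (sq_nonneg ‖h‖)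
    linarith
  rw [e, norm_mul, norm_gk]
  refine (mul_le_mul_of_nonneg_left h4 (by positivity)).trans ?_
  have h8 : Real.exp (-a * w.re ^ 2) * Real.exp (2 * M)
      ≤ Real.exp (6 * a * |w.im| + 21 * a) * Real.exp (-(a / 2) * w.re ^ 2) := by
    rw [← Real.exp_add, ← Real.exp_add]
    refine Real.exp_le_exp.2 ?_
    have hw := Complex.norm_le_abs_re_add_abs_im w
    have h9 := mul_le_mul_of_nonneg_left hw ha.le
    have h10 : 0 ≤ a * (|w.re| - 4) ^ 2 := mul_nonneg ha.le (sq_nonneg _)
    rw [sub_sq, sq_abs] at h10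
    rw [hM]
    nlinarith [mul_nonneg ha.le (abs_nonneg w.im)]
  rw [gkC]
  calc Real.sqrt (a / Real.pi) * Real.exp (a * w.im ^ 2) * Real.exp (-a * w.re ^ 2)
      * (‖h‖ ^ 2 * ((2 + a) * Real.exp (2 * M)))
      = ‖h‖ ^ 2 * (Real.sqrt (a / Real.pi) * Real.exp (a * w.im ^ 2) * (2 + a))
        * (Real.exp (-a * w.re ^ 2) * Real.exp (2 * M)) := by ring
    _ ≤ ‖h‖ ^ 2 * (Real.sqrt (a / Real.pi) * Real.exp (a * w.im ^ 2) * (2 + a))
        * (Real.exp (6 * a * |w.im| + 21 * a) * Real.exp (-(a / 2) * w.re ^ 2)) :=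
      mul_le_mul_of_nonneg_left h8 (by positivity)
    _ = _ := by ring

lemma integrable_gk' {a : ℝ} (ha : 0 < a) (z : ℂ) :
    Integrable fun t : ℝ => gk' a ((t : ℂ) - z) := by
  have hr : Integrable fun t : ℝ =>
      gk a ((t : ℂ) - (z + 1)) - gk a ((t : ℂ) - z) - gk' a ((t : ℂ) - z) := by
    have h := ((integrable_exp_neg_mul_sq (half_pos ha)).comp_sub_right z.re).const_mul
      (gkC a (-z.im))
    refine h.mono' (Continuous.aestronglyMeasurable (by unfold gk' gk; fun_prop))
      (Eventually.of_forall fun t => ?_)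
    have := gk_diff_le ha ((t : ℂ) - z) 1 (by simp)
    simpa [sub_sub] using this
  refine (((integrable_gk ha (z + 1)).sub (integrable_gk ha z)).sub hr).congr
    (Eventually.of_forall fun t => ?_)
  simp

variable {M : VonNeumannAlgebra H} {U : ℝ → H →L[ℂ] H}

namespace NormalisingGroup

lemma norm_apply (hU : NormalisingGroup M U) (t : ℝ) (v : H) : ‖U t v‖ = ‖v‖ := by
  have h : star (U t) * U t = 1 := by
    rw [hU.star_eq, ← hU.add, neg_add_cancel, hU.zero]
  refine (sq_eq_sq₀ (norm_nonneg _) (norm_nonneg _)).1 ?_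
  have e : ⟪v, (star (U t) * U t) v⟫_ℂ = ⟪v, v⟫_ℂ := by rw [h]; rfl
  rw [mul_apply_eq_comp, ContinuousLinearMap.star_eq_adjoint,
    ContinuousLinearMap.adjoint_inner_right, inner_self_eq_norm_sq_to_K,
    inner_self_eq_norm_sq_to_K] at e
  exact_mod_cast e

lemma continuous_apply (hU : NormalisingGroup M U) {g : ℝ → H} (hg : Continuous g) :
    Continuous fun t => U t (g t) := by
  refine continuous_iff_continuousAt.2 fun t => ?_
  refine tendsto_iff_norm_sub_tendsto_zero.2 (squeeze_zero (fun _ => norm_nonneg _)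
    (g := fun s => ‖g s - g t‖ + ‖U s (g t) - U t (g t)‖) (fun s => ?_) ?_)
  · calc ‖U s (g s) - U t (g t)‖ = ‖U s (g s - g t) + (U s (g t) - U t (g t))‖ := by
          rw [map_sub]; abel_nf
      _ ≤ _ := (norm_add_le _ _).trans (by rw [hU.norm_apply])
  · have h1 := tendsto_iff_norm_sub_tendsto_zero.1 (hg.tendsto t)
    have h2 := tendsto_iff_norm_sub_tendsto_zero.1 ((hU.cont (g t)).tendsto t)
    simpa using h1.add h2

lemma continuous_orbit (hU : NormalisingGroup M U) (x : H →L[ℂ] H) (v : H) :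
    Continuous fun t => U t (x (U (-t) v)) :=
  hU.continuous_apply (x.continuous.comp ((hU.cont v).comp continuous_neg))

lemma norm_orbit_le (hU : NormalisingGroup M U) (x : H →L[ℂ] H) (v : H) (t : ℝ) :
    ‖U t (x (U (-t) v))‖ ≤ ‖x‖ * ‖v‖ := by
  rw [hU.norm_apply]
  exact (x.le_opNorm _).trans (by rw [hU.norm_apply])

lemma integrable_smul_orbit (hU : NormalisingGroup M U) {k : ℝ → ℂ} (hk : Integrable k)
    (x : H →L[ℂ] H) (v : H) : Integrable fun t => k t • U t (x (U (-t) v)) :=
  (hk.norm.mul_const (‖x‖ * ‖v‖)).mono'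
    (hk.aestronglyMeasurable.smul (hU.continuous_orbit x v).aestronglyMeasurable)
    (Eventually.of_forall fun t => by
      rw [norm_smul]; exact mul_le_mul_of_nonneg_left (hU.norm_orbit_le x v t) (norm_nonneg _))

end NormalisingGroup

/-- `∫ k t • U t x U (-t)`, as an operator. -/
def avgOp (hU : NormalisingGroup M U) {k : ℝ → ℂ} (hk : Integrable k) (x : H →L[ℂ] H) :
    H →L[ℂ] H :=
  LinearMap.mkContinuous
    { toFun := fun v => ∫ t, k t • U t (x (U (-t) v))
      map_add' := fun v w => by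
        simp only [map_add, smul_add]
        exact integral_add (hU.integrable_smul_orbit hk x v) (hU.integrable_smul_orbit hk x w)
      map_smul' := fun c v => by
        simp only [map_smul, RingHom.id_apply, smul_comm _ c]
        exact integral_smul c _ }
    ((∫ t, ‖k t‖) * ‖x‖) fun v => by
      refine (norm_integral_le_of_norm_le (g := fun t => ‖k t‖ * (‖x‖ * ‖v‖))
        (hk.norm.mul_const _) (Eventually.of_forall fun t => by
          rw [norm_smul]
          exact mul_le_mul_of_nonneg_left (hU.norm_orbit_le x v t) (norm_nonneg _))).trans_eq ?_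
      rw [integral_mul_const, mul_assoc]

lemma avgOp_apply (hU : NormalisingGroup M U) {k : ℝ → ℂ} (hk : Integrable k) (x : H →L[ℂ] H)
    (v : H) : avgOp hU hk x v = ∫ t, k t • U t (x (U (-t) v)) := rfl

lemma norm_avgOp_le (hU : NormalisingGroup M U) {k : ℝ → ℂ} (hk : Integrable k)
    (x : H →L[ℂ] H) : ‖avgOp hU hk x‖ ≤ (∫ t, ‖k t‖) * ‖x‖ :=
  LinearMap.mkContinuous_norm_le _
    (mul_nonneg (integral_nonneg fun _ => norm_nonneg _) (norm_nonneg _)) _

lemma avgOp_mem (hU : NormalisingGroup M U) {k : ℝ → ℂ} (hk : Integrable k) {x : H →L[ℂ] H}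
    (hx : x ∈ M) : avgOp hU hk x ∈ M := by
  suffices avgOp hU hk x ∈ M.commutant.commutant by
    rwa [VonNeumannAlgebra.commutant_commutant] at this
  rw [VonNeumannAlgebra.mem_commutant_iff]
  intro y hy
  ext v
  simp only [mul_apply_eq_comp, avgOp_apply]
  rw [← y.integral_comp_comm (hU.integrable_smul_orbit hk x v)]
  refine integral_congr_ae (Eventually.of_forall fun t => ?_)
  have h := congrArg (fun T : H →L[ℂ] H => T v)
    (VonNeumannAlgebra.mem_commutant_iff.1 hy _ (hU.conj_mem t x hx))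
  simp only [mul_apply_eq_comp] at h
  simp only [map_smul, ← h]

/-- The entire extension of the orbit of the smoothed element. -/
def smoothAt (hU : NormalisingGroup M U) {a : ℝ} (ha : 0 < a) (x : H →L[ℂ] H) (z : ℂ) :
    H →L[ℂ] H :=
  avgOp hU (integrable_gk ha z) x

/-- The smoothed element. -/
def smooth (hU : NormalisingGroup M U) {a : ℝ} (ha : 0 < a) (x : H →L[ℂ] H) : H →L[ℂ] H :=
  smoothAt hU ha x 0

variable {a : ℝ}

lemma smoothAt_mem (hU : NormalisingGroup M U) (ha : 0 < a) {x : H →L[ℂ] H} (hx : x ∈ M)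
    (z : ℂ) : smoothAt hU ha x z ∈ M :=
  avgOp_mem hU _ hx

lemma norm_smooth_le (hU : NormalisingGroup M U) (ha : 0 < a) (x : H →L[ℂ] H) :
    ‖smooth hU ha x‖ ≤ ‖x‖ := by
  refine (norm_avgOp_le hU (integrable_gk ha 0) x).trans_eq ?_
  simp only [sub_zero]
  rw [integral_norm_gk ha, one_mul]

lemma differentiable_smoothAt (hU : NormalisingGroup M U) (ha : 0 < a) (x : H →L[ℂ] H) :
    Differentiable ℂ fun z => smoothAt hU ha x z := by
  intro z
  set D := avgOp hU (integrable_gk' ha z) x with hD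
  set B := (∫ t : ℝ, gkC a (-z.im) * Real.exp (-(a / 2) * (t - z.re) ^ 2)) * ‖x‖ with hB
  have hB0 : 0 ≤ B := mul_nonneg (integral_nonneg fun t => by unfold gkC; positivity)
    (norm_nonneg _)
  have key : ∀ h : ℂ, ‖h‖ ≤ 1 →
      ‖smoothAt hU ha x (z + h) - smoothAt hU ha x z - h • D‖ ≤ B * ‖h‖ ^ 2 := by
    intro h hh
    refine ContinuousLinearMap.opNorm_le_bound _ (by positivity) fun v => ?_
    simp only [sub_apply, smul_apply, smoothAt, hD, avgOp_apply]
    rw [← integral_smul, ← integral_sub (hU.integrable_smul_orbit (integrable_gk ha _) x v)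
      (hU.integrable_smul_orbit (integrable_gk ha z) x v),
      ← integral_sub ((hU.integrable_smul_orbit (integrable_gk ha _) x v).sub'
        (hU.integrable_smul_orbit (integrable_gk ha z) x v))
      ((hU.integrable_smul_orbit (integrable_gk' ha z) x v).fun_smul h)]
    refine (norm_integral_le_of_norm_le
      (g := fun t => gkC a (-z.im) * Real.exp (-(a / 2) * (t - z.re) ^ 2)
        * (‖h‖ ^ 2 * (‖x‖ * ‖v‖))) ?_ (Eventually.of_forall fun t => ?_)).trans_eq ?_
    · exact ((((integrable_exp_neg_mul_sq (half_pos ha)).comp_sub_right z.re).const_mul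
        _).mul_const _)
    · rw [smul_smul, ← sub_smul, ← sub_smul, norm_smul]
      have h1 := gk_diff_le ha ((t : ℂ) - z) h hh
      simp only [sub_sub, sub_re, sub_im, ofReal_re, ofReal_im, zero_sub] at h1 ⊢
      refine (mul_le_mul h1 (hU.norm_orbit_le x v t) (norm_nonneg _)
        (mul_nonneg (sq_nonneg _) (by unfold gkC; positivity))).trans_eq ?_
      ring
    · rw [integral_mul_const, hB]; ring
  refine HasDerivAt.differentiableAt (f' := D) (hasDerivAt_iff_isLittleO_nhds_zero.2 ?_)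
  refine (Asymptotics.IsBigO.of_bound B ?_).trans_isLittleO
    (Asymptotics.isLittleO_pow_id (𝕜 := ℂ) one_lt_two)
  filter_upwards [Metric.closedBall_mem_nhds (0 : ℂ) one_pos] with h hh
  rw [norm_pow]
  exact key h (by simpa using hh)

lemma smoothAt_add (hU : NormalisingGroup M U) (ha : 0 < a) (x : H →L[ℂ] H) (z : ℂ) (t : ℝ) :
    smoothAt hU ha x (z + t) = U t * smoothAt hU ha x z * U (-t) := by
  ext v
  simp only [mul_apply_eq_comp, smoothAt, avgOp_apply]
  rw [← (U t).integral_comp_comm (hU.integrable_smul_orbit (integrable_gk ha z) x _),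
    ← integral_add_right_eq_self _ t]
  refine integral_congr_ae (Eventually.of_forall fun s => ?_)
  simp only [map_smul]
  congr 1
  · push_cast; ring_nf
  · rw [← mul_apply_eq_comp (U t) (U s), ← hU.add, ← mul_apply_eq_comp (U (-s)) (U (-t)),
      ← hU.add, ← neg_add, add_comm t s]

lemma smoothAt_ofReal (hU : NormalisingGroup M U) (ha : 0 < a) (x : H →L[ℂ] H) (t : ℝ) :
    smoothAt hU ha x t = U t * smooth hU ha x * U (-t) := by
  rw [smooth, ← smoothAt_add, zero_add]

lemma star_smooth (hU : NormalisingGroup M U) (ha : 0 < a) (x : H →L[ℂ] H) :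
    star (smooth hU ha x) = smooth hU ha (star x) := by
  rw [ContinuousLinearMap.star_eq_adjoint]
  symm
  rw [ContinuousLinearMap.eq_adjoint_iff]
  intro v w
  simp only [smooth, smoothAt, avgOp_apply, sub_zero]
  have hi : ∀ (y : H →L[ℂ] H) (u : H), Integrable fun t : ℝ => gk a t • U t (y (U (-t) u)) :=
    fun y u => hU.integrable_smul_orbit (by simpa using integrable_gk ha 0) y u
  rw [← integral_inner (hi x w), ← inner_conj_symm, ← integral_inner (hi _ v), ← integral_conj]
  refine integral_congr_ae (Eventually.of_forall fun t => ?_)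
  simp only [inner_conj_symm]
  rw [gk_ofReal, inner_smul_left, inner_smul_right, conj_ofReal]
  congr 1
  have hs : ∀ (s : ℝ) (p r : H), ⟪U s p, r⟫_ℂ = ⟪p, U (-s) r⟫_ℂ := fun s p r => by
    rw [← ContinuousLinearMap.adjoint_inner_right, ← ContinuousLinearMap.star_eq_adjoint,
      hU.star_eq]
  rw [hs, ContinuousLinearMap.star_eq_adjoint, ContinuousLinearMap.adjoint_inner_left, hs, neg_neg]

lemma tendsto_smooth (hU : NormalisingGroup M U) {b : ℕ → ℝ} (hb : ∀ n, 0 < b n)
    (hlim : Tendsto b atTop atTop) (x : H →L[ℂ] H) (v : H) :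
    Tendsto (fun n => smooth hU (hb n) x v) atTop (𝓝 (x v)) := by
  set g : ℝ → H := fun t => U t (x (U (-t) v)) with hg
  have hg0 : g 0 = x v := by simp [hg, hU.zero]
  have e : ∀ n, smooth hU (hb n) x v = ∫ t : ℝ, gk 1 t • g ((Real.sqrt (b n))⁻¹ * t) := by
    intro n
    have hsq : 0 < Real.sqrt (b n) := Real.sqrt_pos.2 (hb n)
    have h := Measure.integral_comp_mul_left (fun t : ℝ => gk (b n) t • g t)
      (Real.sqrt (b n))⁻¹
    rw [inv_inv, abs_of_pos hsq] at h
    simp only [smooth, smoothAt, avgOp_apply, sub_zero]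
    refine smul_right_injective H hsq.ne' ?_
    simp only
    rw [← h, ← integral_smul]
    refine integral_congr_ae (Eventually.of_forall fun t => ?_)
    simp only
    rw [← smul_assoc]
    congr 1
    rw [gk_ofReal, gk_ofReal, Complex.real_smul, ← ofReal_mul]
    congr 1
    rw [mul_pow, inv_pow, Real.sq_sqrt (hb n).le, ← mul_assoc,
      show -b n * (b n)⁻¹ * t ^ 2 = -1 * t ^ 2 by field_simp [(hb n).ne'],
      show b n / Real.pi = b n * (1 / Real.pi) by ring, Real.sqrt_mul (hb n).le, mul_assoc]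
  simp only [e]
  have hlim2 : ∫ t : ℝ, gk 1 t • x v = x v := by
    rw [integral_smul_const]
    simp only [gk_ofReal]
    rw [integral_complex_ofReal, integral_const_mul, integral_gaussian, ← Real.sqrt_mul
      (by positivity), show (1 : ℝ) / Real.pi * (Real.pi / 1) = 1 by field_simp, Real.sqrt_one,
      ofReal_one, one_smul]
  rw [← hlim2]
  have hk1 : Integrable fun t : ℝ => gk 1 t := by simpa using integrable_gk one_pos 0
  refine tendsto_integral_of_dominated_convergence (fun t => ‖gk 1 t‖ * (‖x‖ * ‖v‖))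
    (fun n => hk1.aestronglyMeasurable.smul
      ((hU.continuous_orbit x v).comp (continuous_const_mul _)).aestronglyMeasurable)
    (hk1.norm.mul_const _)
    (fun n => Eventually.of_forall fun t => by
      rw [norm_smul]; exact mul_le_mul_of_nonneg_left (hU.norm_orbit_le x v _) (norm_nonneg _))
    (Eventually.of_forall fun t => ?_)
  refine Tendsto.const_smul ?_ _
  rw [← hg0]
  refine ((hU.continuous_orbit x v).tendsto 0).comp ?_
  have h1 := (tendsto_inv_atTop_zero.comp (Real.tendsto_sqrt_atTop.comp hlim)).mul_const t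
  rw [zero_mul] at h1
  exact h1

/-- **Entire elements are strongly dense**, with control of the norm and of the adjoint. -/
theorem exists_entire_approx {M : VonNeumannAlgebra H} {U : ℝ → H →L[ℂ] H} (h0 : U 0 = 1)
    (hadd : ∀ s t, U (s + t) = U s * U t) (hstar : ∀ t, star (U t) = U (-t))
    (hcont : ∀ v, Continuous fun t => U t v) (hmem : ∀ t, ∀ x ∈ M, U t * x * U (-t) ∈ M)
    {x : H →L[ℂ] H} (hx : x ∈ M) :
    ∃ xs : ℕ → H →L[ℂ] H, (∀ n, xs n ∈ M ∧ ‖xs n‖ ≤ ‖x‖ ∧
        ∃ F : ℂ → H →L[ℂ] H, Differentiable ℂ F ∧ (∀ z, F z ∈ M) ∧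
          (∀ z (t : ℝ), F (z + t) = U t * F z * U (-t)) ∧
          ∀ t : ℝ, F t = U t * xs n * U (-t)) ∧
      (∀ v, Tendsto (fun n => xs n v) atTop (𝓝 (x v))) ∧
      ∀ v, Tendsto (fun n => star (xs n) v) atTop (𝓝 (star x v)) := by
  have hU : NormalisingGroup M U := ⟨h0, hadd, hstar, hcont, hmem⟩
  have hb : ∀ n : ℕ, (0 : ℝ) < n + 1 := fun n => by positivity
  have hlim : Tendsto (fun n : ℕ => (n : ℝ) + 1) atTop atTop :=
    tendsto_natCast_atTop_atTop.atTop_add tendsto_const_nhds
  refine ⟨fun n => smooth hU (hb n) x, fun n => ⟨smoothAt_mem hU _ hx 0, norm_smooth_le hU _ x,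
    fun z => smoothAt hU (hb n) x z, differentiable_smoothAt hU _ x, smoothAt_mem hU _ hx,
    fun z t => smoothAt_add hU _ x z t, smoothAt_ofReal hU _ x⟩, tendsto_smooth hU hb hlim x,
    fun v => ?_⟩
  simp only [star_smooth]
  exact tendsto_smooth hU hb hlim (star x) v

end Vale.Agent.P132.Tomita
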