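import Mathlib

/-!
# A von Neumann algebra with a cyclic and separating vector

The real subspace `K`, its orthogonal projection `proj`, and the two bounded operators
`R = P + Q` and `D = P - Q` of Rieffel and van Daele, where `Q` is the projection on `i K`.
-/

namespace Vale.Agent.P132.Tomita

open Complex
open scoped InnerProductSpace ComplexConjugate

universe u

variable {H : Type u} [NormedAddCommGroup H] [InnerProductSpace ℂ H] [CompleteSpace H]

/-- `Ω` is a cyclic and separating unit vector for `M`. -/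
structure CycSep (M : VonNeumannAlgebra H) (Ω : H) : Prop where
  norm_one : ‖Ω‖ = 1
  cyclic : Dense ((fun a : H →L[ℂ] H => a Ω) '' (M : Set (H →L[ℂ] H)))
  separating : ∀ a ∈ M, a Ω = 0 → a = 0

/-- The vector state of `Ω`. -/
noncomputable def phi (Ω : H) (a : H →L[ℂ] H) : ℂ := ⟪Ω, a Ω⟫_ℂ

/-- `H` as a real Hilbert space. -/
noncomputable scoped instance realInner : InnerProductSpace ℝ H :=
  InnerProductSpace.complexToReal

/-- The vectors `a Ω` with `a` a self-adjoint element of `M`, as a real subspace. -/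
def saVectors (M : VonNeumannAlgebra H) (Ω : H) : Submodule ℝ H where
  carrier := {ξ | ∃ a ∈ M, IsSelfAdjoint a ∧ a Ω = ξ}
  add_mem' := by
    rintro _ _ ⟨a, ha, ha', rfl⟩ ⟨b, hb, hb', rfl⟩
    exact ⟨a + b, add_mem ha hb, ha'.add hb', rfl⟩
  zero_mem' := ⟨0, zero_mem M, .zero _, rfl⟩
  smul_mem' := by
    rintro r _ ⟨a, ha, ha', rfl⟩
    refine ⟨(r : ℂ) • a, M.toStarSubalgebra.smul_mem ha (r : ℂ), ?_, ?_⟩
    · rw [IsSelfAdjoint, star_smul, ha'.star_eq, Complex.star_def, Complex.conj_ofReal]
    · simp [Complex.coe_smul]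

/-- The closure of the self-adjoint vectors. -/
noncomputable def K (M : VonNeumannAlgebra H) (Ω : H) : Submodule ℝ H :=
  (saVectors M Ω).topologicalClosure

instance instCompleteK (M : VonNeumannAlgebra H) (Ω : H) : CompleteSpace (K M Ω) :=
  (saVectors M Ω).isClosed_topologicalClosure.completeSpace_coe

/-- The real orthogonal projection on `K`. -/
noncomputable def proj (M : VonNeumannAlgebra H) (Ω : H) : H →L[ℝ] H :=
  (K M Ω).starProjection

/-- The real orthogonal projection on `i K`, as a map. -/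
noncomputable def projI (M : VonNeumannAlgebra H) (Ω : H) (ξ : H) : H :=
  I • proj M Ω (-I • ξ)

lemma norm_proj_le (M : VonNeumannAlgebra H) (Ω ξ : H) : ‖proj M Ω ξ‖ ≤ ‖ξ‖ := by
  calc ‖proj M Ω ξ‖ ≤ ‖(K M Ω).starProjection‖ * ‖ξ‖ := ContinuousLinearMap.le_opNorm _ _
    _ ≤ 1 * ‖ξ‖ := by gcongr; exact Submodule.starProjection_norm_le _
    _ = ‖ξ‖ := one_mul _

omit [CompleteSpace H] in
/-- An additive map commuting with real scalars and with `I` is determined on scalars. -/
lemma map_smul_of_I (f : H → H) (hadd : ∀ ξ η, f (ξ + η) = f ξ + f η)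
    (hreal : ∀ (r : ℝ) (ξ : H), f (r • ξ) = r • f ξ) (d : ℂ)
    (hI : ∀ ξ, f (I • ξ) = d • f ξ) (c : ℂ) (ξ : H) :
    f (c • ξ) = ((c.re : ℂ) + (c.im : ℂ) * d) • f ξ := by
  conv_lhs => rw [← Complex.re_add_im c, add_smul, mul_smul, Complex.coe_smul, Complex.coe_smul]
  rw [hadd, hreal, hreal, hI, add_smul, mul_smul, Complex.coe_smul, Complex.coe_smul]

lemma projI_add (M : VonNeumannAlgebra H) (Ω ξ η : H) :
    projI M Ω (ξ + η) = projI M Ω ξ + projI M Ω η := by
  simp only [projI, smul_add, map_add]

lemma projI_smul (M : VonNeumannAlgebra H) (Ω : H) (r : ℝ) (ξ : H) :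
    projI M Ω (r • ξ) = r • projI M Ω ξ := by
  simp only [projI, smul_comm (-I) r ξ, map_smul, smul_comm I r]

lemma projI_I_smul (M : VonNeumannAlgebra H) (Ω ξ : H) :
    projI M Ω (I • ξ) = I • proj M Ω ξ := by
  simp [projI, smul_smul]

lemma proj_I_smul (M : VonNeumannAlgebra H) (Ω ξ : H) :
    proj M Ω (I • ξ) = I • projI M Ω ξ := by
  simp [projI, smul_smul, neg_smul]

/-- The complex linear operator `P + Q`. -/
noncomputable def R (M : VonNeumannAlgebra H) (Ω : H) : H →L[ℂ] H :=
  LinearMap.mkContinuous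
    { toFun := fun ξ => proj M Ω ξ + projI M Ω ξ
      map_add' := fun ξ η => by
        simp only [projI, smul_add, map_add]; abel
      map_smul' := fun c ξ => by
        rw [map_smul_of_I (fun ξ => proj M Ω ξ + projI M Ω ξ)
          (fun ξ η => by simp only [map_add, projI_add]; abel)
          (fun r ξ => by simp only [map_smul, projI_smul, smul_add]) I
          (fun ξ => by simp only [proj_I_smul, projI_I_smul, smul_add]; abel) c ξ,
          Complex.re_add_im, RingHom.id_apply] }
    2 fun ξ => by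
      refine (norm_add_le _ _).trans ?_
      have h1 := norm_proj_le M Ω ξ
      have h2 := norm_proj_le M Ω (-I • ξ)
      simp only [projI, norm_smul, Complex.norm_I, one_mul, norm_neg] at h2 ⊢
      linarith

/-- The conjugate linear operator `P - Q`. -/
noncomputable def D (M : VonNeumannAlgebra H) (Ω : H) : H →L⋆[ℂ] H :=
  LinearMap.mkContinuous
    { toFun := fun ξ => proj M Ω ξ - projI M Ω ξ
      map_add' := fun ξ η => by
        simp only [projI, smul_add, map_add]; abel
      map_smul' := fun c ξ => by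
        rw [map_smul_of_I (fun ξ => proj M Ω ξ - projI M Ω ξ)
          (fun ξ η => by simp only [map_add, projI_add]; abel)
          (fun r ξ => by simp only [map_smul, projI_smul, smul_sub]) (-I)
          (fun ξ => by simp only [proj_I_smul, projI_I_smul, neg_smul, smul_sub]; abel) c ξ]
        congr 1
        refine Complex.ext ?_ ?_ <;> simp }
    2 fun ξ => by
      refine (norm_sub_le _ _).trans ?_
      have h1 := norm_proj_le M Ω ξ
      have h2 := norm_proj_le M Ω (-I • ξ)
      simp only [projI, norm_smul, Complex.norm_I, one_mul, norm_neg] at h2 ⊢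
      linarith

lemma R_apply (M : VonNeumannAlgebra H) (Ω ξ : H) :
    R M Ω ξ = proj M Ω ξ + projI M Ω ξ := rfl

lemma D_apply (M : VonNeumannAlgebra H) (Ω ξ : H) :
    D M Ω ξ = proj M Ω ξ - projI M Ω ξ := rfl

/-- `D A D`, a complex linear operator. -/
noncomputable def Dconj (M : VonNeumannAlgebra H) (Ω : H) (A : H →L[ℂ] H) : H →L[ℂ] H :=
  (D M Ω).comp (A.comp (D M Ω))

lemma Dconj_apply (M : VonNeumannAlgebra H) (Ω : H) (A : H →L[ℂ] H) (ξ : H) :
    Dconj M Ω A ξ = D M Ω (A (D M Ω ξ)) := rfl

end Vale.Agent.P132.Tomita
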