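import Vale.Agent.P132.Tomita.Subspace

/-!
# Functional calculus of `R`

`fR M Ω f` is the continuous functional calculus of the operator `R`, whose spectrum lies in
`[0, 2]`, applied to a complex function `f` of a real variable.
-/

namespace Vale.Agent.P132.Tomita

open Complex Set Filter Topology Polynomial
open scoped InnerProductSpace ComplexConjugate

universe u

variable {H : Type u} [NormedAddCommGroup H] [InnerProductSpace ℂ H] [CompleteSpace H]
variable {M : VonNeumannAlgebra H} {Ω : H}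

/-- The functional calculus of `R` for functions of a real variable. -/
noncomputable def fR (M : VonNeumannAlgebra H) (Ω : H) (f : ℝ → ℂ) : H →L[ℂ] H :=
  cfc (fun z : ℂ => f z.re) (R M Ω)

lemma R_nonneg : 0 ≤ R M Ω := by
  rw [ContinuousLinearMap.nonneg_iff_isPositive]
  refine ⟨inner_R, fun ξ => ?_⟩
  rw [ContinuousLinearMap.reApplyInnerSelf_apply, inner_R]
  change 0 ≤ (⟪ξ, R M Ω ξ⟫_ℂ).re
  rw [re_inner_R_self]
  positivity

lemma R_le_two : R M Ω ≤ algebraMap ℝ (H →L[ℂ] H) 2 := by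
  rw [ContinuousLinearMap.le_def]
  refine ⟨ContinuousLinearMap.isSelfAdjoint_iff_isSymmetric.1
    (((IsSelfAdjoint.all (2 : ℝ)).algebraMap _).sub isSelfAdjoint_R), fun ξ => ?_⟩
  rw [ContinuousLinearMap.reApplyInnerSelf_apply, Algebra.algebraMap_eq_smul_one, sub_apply,
    smul_apply, one_apply_eq_self, inner_sub_left, map_sub]
  change 0 ≤ (⟪(2 : ℝ) • ξ, ξ⟫_ℂ).re - (⟪R M Ω ξ, ξ⟫_ℂ).re
  rw [inner_R, re_inner_R_self, ← Complex.coe_smul, inner_smul_left, Complex.conj_ofReal,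
    Complex.re_ofReal_mul, show (⟪ξ, ξ⟫_ℂ).re = ‖ξ‖ ^ 2 from inner_self_eq_norm_sq (𝕜 := ℂ) ξ]
  have h1 := norm_proj_le M Ω ξ
  have h2 : ‖projI M Ω ξ‖ ≤ ‖ξ‖ := by
    simpa [projI, norm_smul] using norm_proj_le M Ω (-I • ξ)
  nlinarith [norm_nonneg (proj M Ω ξ), norm_nonneg (projI M Ω ξ)]

lemma re_mem_Icc {z : ℂ} (hz : z ∈ spectrum ℂ (R M Ω)) :
    z.re ∈ Icc (0 : ℝ) 2 ∧ (z.re : ℂ) = z := by
  have hR : IsSelfAdjoint (R M Ω) := isSelfAdjoint_R
  have hz' := hR.mem_spectrum_eq_re hz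
  have hre : z.re ∈ spectrum ℝ (R M Ω) := by
    rw [← spectrum.algebraMap_mem_iff ℂ]
    change (z.re : ℂ) ∈ _
    rwa [← hz']
  exact ⟨⟨spectrum_nonneg_of_nonneg R_nonneg hre,
    (le_algebraMap_iff_spectrum_le (ha := hR)).1 R_le_two _ hre⟩, hz'.symm⟩

lemma continuousOn_re {f : ℝ → ℂ} (hf : ContinuousOn f (Icc 0 2)) :
    ContinuousOn (fun z : ℂ => f z.re) (spectrum ℂ (R M Ω)) :=
  hf.comp Complex.continuous_re.continuousOn fun _ hz => (re_mem_Icc hz).1

lemma isStarNormal_R : IsStarNormal (R M Ω) := isSelfAdjoint_R.isStarNormal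

lemma fR_congr {f g : ℝ → ℂ} (h : EqOn f g (Icc 0 2)) : fR M Ω f = fR M Ω g :=
  cfc_congr fun _ hz => h (re_mem_Icc hz).1

lemma fR_const (c : ℂ) : fR M Ω (fun _ => c) = c • 1 := by
  rw [fR, cfc_const c (R M Ω) isStarNormal_R, Algebra.algebraMap_eq_smul_one]

lemma fR_id : fR M Ω (fun r => (r : ℂ)) = R M Ω :=
  (cfc_congr fun _ hz => (re_mem_Icc hz).2).trans (cfc_id' ℂ (R M Ω) isStarNormal_R)

lemma fR_add {f g : ℝ → ℂ} (hf : ContinuousOn f (Icc 0 2)) (hg : ContinuousOn g (Icc 0 2)) :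
    fR M Ω (fun r => f r + g r) = fR M Ω f + fR M Ω g :=
  cfc_add (a := R M Ω) (fun z : ℂ => f z.re) (fun z : ℂ => g z.re) (continuousOn_re hf)
    (continuousOn_re hg)

lemma fR_sub {f g : ℝ → ℂ} (hf : ContinuousOn f (Icc 0 2)) (hg : ContinuousOn g (Icc 0 2)) :
    fR M Ω (fun r => f r - g r) = fR M Ω f - fR M Ω g :=
  cfc_sub (fun z : ℂ => f z.re) (fun z : ℂ => g z.re) (R M Ω) (continuousOn_re hf)
    (continuousOn_re hg)

lemma fR_mul {f g : ℝ → ℂ} (hf : ContinuousOn f (Icc 0 2)) (hg : ContinuousOn g (Icc 0 2)) :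
    fR M Ω (fun r => f r * g r) = fR M Ω f * fR M Ω g :=
  cfc_mul (fun z : ℂ => f z.re) (fun z : ℂ => g z.re) (R M Ω) (continuousOn_re hf)
    (continuousOn_re hg)

lemma fR_mul_apply {f g : ℝ → ℂ} (hf : ContinuousOn f (Icc 0 2)) (hg : ContinuousOn g (Icc 0 2))
    (ξ : H) : fR M Ω f (fR M Ω g ξ) = fR M Ω (fun r => f r * g r) ξ := by
  rw [fR_mul hf hg, mul_apply_eq_comp]

lemma fR_const_mul (c : ℂ) {f : ℝ → ℂ} (hf : ContinuousOn f (Icc 0 2)) :
    fR M Ω (fun r => c * f r) = c • fR M Ω f := by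
  rw [fR_mul continuousOn_const hf, fR_const, smul_mul_assoc, one_mul]

lemma fR_star (f : ℝ → ℂ) : star (fR M Ω f) = fR M Ω (fun r => conj (f r)) :=
  (cfc_star (fun z : ℂ => f z.re) (R M Ω)).symm

lemma isSelfAdjoint_fR {f : ℝ → ℂ} (hf : ∀ r, conj (f r) = f r) :
    IsSelfAdjoint (fR M Ω f) := by
  rw [IsSelfAdjoint, fR_star, funext hf]

lemma inner_fR (f : ℝ → ℂ) (ξ η : H) :
    ⟪fR M Ω f ξ, η⟫_ℂ = ⟪ξ, fR M Ω (fun r => conj (f r)) η⟫_ℂ := by
  rw [← fR_star, ← inner_star_left, star_star]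

lemma norm_fR_le {f : ℝ → ℂ} {c : ℝ} (hc : 0 ≤ c) (h : ∀ r ∈ Icc (0 : ℝ) 2, ‖f r‖ ≤ c) :
    ‖fR M Ω f‖ ≤ c :=
  norm_cfc_le hc fun _ hz => h _ (re_mem_Icc hz).1

lemma norm_fR_apply_le {f : ℝ → ℂ} {c : ℝ} (hc : 0 ≤ c)
    (h : ∀ r ∈ Icc (0 : ℝ) 2, ‖f r‖ ≤ c) (ξ : H) : ‖fR M Ω f ξ‖ ≤ c * ‖ξ‖ :=
  (ContinuousLinearMap.le_opNorm _ _).trans
    (mul_le_mul_of_nonneg_right (norm_fR_le hc h) (norm_nonneg ξ))

lemma commute_fR {A : H →L[ℂ] H} (h : Commute (R M Ω) A) (f : ℝ → ℂ) : Commute (fR M Ω f) A :=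
  isSelfAdjoint_R.commute_cfc h _

/-- Approximation of a continuous function by polynomials. -/
lemma exists_polynomial {f : ℝ → ℂ} (hf : ContinuousOn f (Icc 0 2)) {ε : ℝ} (hε : 0 < ε) :
    ∃ p : ℂ[X], ∀ r ∈ Icc (0 : ℝ) 2, ‖f r - p.eval (r : ℂ)‖ < ε := by
  obtain ⟨p, hp⟩ := exists_polynomial_near_of_continuousOn 0 2 (fun r => (f r).re)
    (Complex.continuous_re.comp_continuousOn hf) (ε / 2) (by positivity)
  obtain ⟨q, hq⟩ := exists_polynomial_near_of_continuousOn 0 2 (fun r => (f r).im)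
    (Complex.continuous_im.comp_continuousOn hf) (ε / 2) (by positivity)
  refine ⟨p.map Complex.ofRealHom + Polynomial.C I * q.map Complex.ofRealHom, fun r hr => ?_⟩
  have e : ∀ s : ℝ[X], (s.map Complex.ofRealHom).eval (r : ℂ) = ((s.eval r : ℝ) : ℂ) := fun s =>
    (Polynomial.eval_map _ _).trans (Polynomial.eval₂_at_apply Complex.ofRealHom r)
  rw [eval_add, eval_mul, eval_C, e, e]
  refine (Complex.norm_le_abs_re_add_abs_im _).trans_lt ?_
  simp only [sub_re, add_re, mul_re, I_re, I_im, ofReal_re, ofReal_im, sub_im, add_im, mul_im,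
    zero_mul, one_mul, mul_zero, sub_self, add_zero, zero_add]
  rw [abs_sub_comm, abs_sub_comm (f r).im]
  linarith [hp r hr, hq r hr]

/-- A closed linear condition on `fR f` only has to be checked on the monomials. -/
lemma fR_induction {E : Type*} [NormedAddCommGroup E] (Φ : (ℝ → ℂ) → E) {C : ℝ}
    (hC : ∀ f : ℝ → ℂ, ContinuousOn f (Icc 0 2) → ∀ c, 0 ≤ c →
      (∀ r ∈ Icc (0 : ℝ) 2, ‖f r‖ ≤ c) → ‖Φ f‖ ≤ C * c)
    (hadd : ∀ f g : ℝ → ℂ, ContinuousOn f (Icc 0 2) → ContinuousOn g (Icc 0 2) →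
      Φ (fun r => f r + g r) = Φ f + Φ g)
    (hmon : ∀ (c : ℂ) (n : ℕ), Φ (fun r : ℝ => c * (r : ℂ) ^ n) = 0)
    {f : ℝ → ℂ} (hf : ContinuousOn f (Icc 0 2)) : Φ f = 0 := by
  have hpoly : ∀ p : ℂ[X], Φ (fun r : ℝ => p.eval (r : ℂ)) = 0 := fun p => by
    induction p using Polynomial.induction_on' with
    | add p q hp hq =>
      simp only [eval_add]
      rw [hadd _ _ (by fun_prop) (by fun_prop), hp, hq, add_zero]
    | monomial n c => simpa only [eval_monomial] using hmon c n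
  by_contra h0
  have hpos : 0 < ‖Φ f‖ := norm_pos_iff.2 h0
  have hε : 0 < ‖Φ f‖ / (2 * (|C| + 1)) := by positivity
  obtain ⟨p, hp⟩ := exists_polynomial hf hε
  have hcp : ContinuousOn (fun r : ℝ => p.eval (r : ℂ)) (Icc 0 2) := by fun_prop
  have hd : ContinuousOn (fun r => f r - p.eval (r : ℂ)) (Icc 0 2) := hf.sub hcp
  have e : Φ f = Φ (fun r => f r - p.eval (r : ℂ)) := by
    have h := hadd _ _ hd hcp
    simp only [sub_add_cancel] at h
    rw [h, hpoly, add_zero]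
  have := hC _ hd _ hε.le fun r hr => (hp r hr).le
  rw [← e] at this
  have h1 : C * (‖Φ f‖ / (2 * (|C| + 1))) ≤ |C| * (‖Φ f‖ / (2 * (|C| + 1))) := by
    gcongr; exact le_abs_self C
  have h2 : |C| * (‖Φ f‖ / (2 * (|C| + 1))) < ‖Φ f‖ := by
    rw [← mul_div_assoc, div_lt_iff₀ (by positivity)]
    nlinarith [abs_nonneg C]
  linarith

lemma fR_pow (c : ℂ) (n : ℕ) :
    fR M Ω (fun r : ℝ => c * (r : ℂ) ^ n) = c • R M Ω ^ n := by
  induction n with
  | zero => simpa using fR_const c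
  | succ n ih =>
    simp only [pow_succ, ← mul_assoc]
    rw [fR_mul (by fun_prop) (by fun_prop), ih, fR_id, smul_mul_assoc]

/-- `D f(R) = conj f (2 - R) D`. -/
lemma D_fR {f : ℝ → ℂ} (hf : ContinuousOn f (Icc 0 2)) (ξ : H) :
    D M Ω (fR M Ω f ξ) = fR M Ω (fun r => conj (f (2 - r))) (D M Ω ξ) := by
  have hrefl : ∀ {g : ℝ → ℂ}, ContinuousOn g (Icc 0 2) →
      ContinuousOn (fun r => conj (g (2 - r))) (Icc 0 2) := fun hg =>
    Complex.continuous_conj.comp_continuousOn (hg.comp (by fun_prop) fun r hr => by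
      simp only [mem_Icc] at hr ⊢; constructor <;> linarith [hr.1, hr.2])
  rw [← sub_eq_zero]
  refine fR_induction (fun g => D M Ω (fR M Ω g ξ) -
    fR M Ω (fun r => conj (g (2 - r))) (D M Ω ξ)) (C := ‖D M Ω‖ * ‖ξ‖ + ‖D M Ω ξ‖) ?_ ?_ ?_ hf
  · intro g _ c hc hb
    refine (norm_sub_le _ _).trans ?_
    have h1 : ‖D M Ω (fR M Ω g ξ)‖ ≤ ‖D M Ω‖ * (c * ‖ξ‖) :=
      ((D M Ω).le_opNorm _).trans
        (mul_le_mul_of_nonneg_left (norm_fR_apply_le hc hb ξ) (norm_nonneg _))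
    have h2 : ‖fR M Ω (fun r => conj (g (2 - r))) (D M Ω ξ)‖ ≤ c * ‖D M Ω ξ‖ :=
      norm_fR_apply_le hc (fun r hr => by
        rw [RCLike.norm_conj]; exact hb _ ⟨by linarith [hr.2], by linarith [hr.1]⟩) _
    nlinarith
  · intro g g' hg hg'
    simp only [map_add]
    rw [fR_add hg hg', fR_add (hrefl hg) (hrefl hg'), add_apply, add_apply, map_add]
    abel
  · intro c n
    rw [sub_eq_zero, fR_pow, smul_apply, map_smulₛₗ]
    simp only [map_mul, map_pow, Complex.conj_ofReal]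
    rw [fR_const_mul _ (by fun_prop), smul_apply]
    congr 1
    induction n with
    | zero => simp [fR_const]
    | succ n ih =>
      rw [pow_succ', mul_apply_eq_comp, D_R, ih]
      simp only [pow_succ']
      rw [fR_mul (by fun_prop) (by fun_prop), mul_apply_eq_comp]
      simp only [Complex.ofReal_sub]
      rw [fR_sub (by fun_prop) (by fun_prop), fR_id, Complex.ofReal_ofNat, fR_const, sub_apply,
        smul_apply, one_apply_eq_self]

/-- `Ω` is an eigenvector of every `fR f`, for the value at `1`. -/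
lemma fR_omega {f : ℝ → ℂ} (hf : ContinuousOn f (Icc 0 2)) : fR M Ω f Ω = f 1 • Ω := by
  rw [← sub_eq_zero]
  refine fR_induction (fun g => fR M Ω g Ω - g 1 • Ω) (C := 2 * ‖Ω‖) ?_ ?_ ?_ hf
  · intro g _ c hc hb
    refine (norm_sub_le _ _).trans ?_
    have h1 : ‖fR M Ω g Ω‖ ≤ c * ‖Ω‖ := norm_fR_apply_le hc hb Ω
    have h2 : ‖g 1 • Ω‖ ≤ c * ‖Ω‖ := by
      rw [norm_smul]; gcongr; exact hb 1 ⟨by norm_num, by norm_num⟩
    nlinarith
  · intro g g' hg hg'
    rw [fR_add hg hg', add_apply, add_smul]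
    abel
  · intro c n
    rw [sub_eq_zero, fR_pow, smul_apply]
    simp only [Complex.ofReal_one, one_pow, mul_one]
    congr 1
    induction n with
    | zero => rfl
    | succ n ih => rw [pow_succ, mul_apply_eq_comp, R_omega, ih]

/-- Norm continuity of `fR` in a parameter. -/
lemma continuous_fR_param {X : Type*} [TopologicalSpace X] {F : X → ℝ → ℂ} {s : Set X}
    (hF : ContinuousOn (fun p : X × ℝ => F p.1 p.2) (s ×ˢ Icc 0 2)) :
    ContinuousOn (fun x => fR M Ω (F x)) s := by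
  intro x hx
  refine tendsto_cfc_fun (Metric.tendstoUniformlyOn_iff.2 fun ε hε => ?_) ?_
  · obtain ⟨v, hv, h⟩ := isCompact_Icc.mem_uniformity_of_prod (f := F)
      (by simpa [Function.uncurry_def] using hF) hx (Metric.dist_mem_uniformity hε)
    filter_upwards [hv] with y hy z hz
    rw [dist_comm]
    exact h y hy _ (re_mem_Icc hz).1
  · filter_upwards [self_mem_nhdsWithin] with y hy
    exact continuousOn_re (ContinuousOn.comp (f := fun r : ℝ => (y, r)) hF (by fun_prop)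
      fun r hr => ⟨hy, hr⟩)

end Vale.Agent.P132.Tomita
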