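import Vale.Agent.P132.Tomita.FC

/-!
# The modular unitary group and the modular conjugation

`U t` is the strong limit of the bounded functions `chi n r * ((2 - r) / r) ^ (i t)` of `R`, and
`J` is the strong limit of `D` composed with approximate inverses of `√(R (2 - R))`.
-/

namespace Vale.Agent.P132.Tomita

open Complex Set Filter Topology
open scoped InnerProductSpace ComplexConjugate

universe u

variable {H : Type u} [NormedAddCommGroup H] [InnerProductSpace ℂ H] [CompleteSpace H]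
variable {M : VonNeumannAlgebra H} {Ω : H}

section Scalar

/-- `r (2 - r)`. -/
def qd (r : ℝ) : ℝ := r * (2 - r)

/-- `√(r (2 - r))`, as a complex number. -/
noncomputable def sq (r : ℝ) : ℂ := (√(qd r) : ℂ)

/-- A cut-off tending to `1` on `(0, 2)`. -/
noncomputable def chi (n : ℕ) (r : ℝ) : ℂ := (((n + 1) * qd r / ((n + 1) * qd r + 1) : ℝ) : ℂ)

/-- A cut-off of `1 / √(r (2 - r))`. -/
noncomputable def invSq (n : ℕ) (r : ℝ) : ℂ :=
  (((n + 1) * √(qd r) / ((n + 1) * qd r + 1) : ℝ) : ℂ)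

/-- `log ((2 - r) / r)`. -/
noncomputable def ell (r : ℝ) : ℝ := Real.log ((2 - r) / r)

/-- `((2 - r) / r) ^ (i t)`. -/
noncomputable def phase (t r : ℝ) : ℂ := Complex.exp (((t * ell r : ℝ) : ℂ) * I)

lemma qd_nonneg {r : ℝ} (hr : r ∈ Icc (0 : ℝ) 2) : 0 ≤ qd r :=
  mul_nonneg hr.1 (by linarith [hr.2])

lemma qd_refl (r : ℝ) : qd (2 - r) = qd r := by unfold qd; ring

lemma sq_refl (r : ℝ) : sq (2 - r) = sq r := by rw [sq, qd_refl, sq]

lemma chi_refl (n : ℕ) (r : ℝ) : chi n (2 - r) = chi n r := by rw [chi, qd_refl, chi]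

lemma conj_sq (r : ℝ) : conj (sq r) = sq r := Complex.conj_ofReal _

lemma conj_chi (n : ℕ) (r : ℝ) : conj (chi n r) = chi n r := Complex.conj_ofReal _

lemma conj_invSq (n : ℕ) (r : ℝ) : conj (invSq n r) = invSq n r := Complex.conj_ofReal _

lemma invSq_refl (n : ℕ) (r : ℝ) : invSq n (2 - r) = invSq n r := by rw [invSq, qd_refl, invSq]

lemma sq_mul_sq {r : ℝ} (hr : r ∈ Icc (0 : ℝ) 2) : sq r * sq r = (qd r : ℂ) := by
  rw [sq, ← Complex.ofReal_mul, Real.mul_self_sqrt (qd_nonneg hr)]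

lemma sq_mul_invSq (n : ℕ) {r : ℝ} (hr : r ∈ Icc (0 : ℝ) 2) : sq r * invSq n r = chi n r := by
  rw [sq, invSq, chi, ← Complex.ofReal_mul, ← mul_div_assoc, mul_left_comm,
    Real.mul_self_sqrt (qd_nonneg hr)]

lemma denom_pos (n : ℕ) {r : ℝ} (hr : r ∈ Icc (0 : ℝ) 2) : 0 < ((n : ℝ) + 1) * qd r + 1 := by
  have := qd_nonneg hr; positivity

lemma continuousOn_sq : ContinuousOn sq (Icc 0 2) := by
  unfold sq qd; fun_prop

lemma continuousOn_chi (n : ℕ) : ContinuousOn (chi n) (Icc 0 2) :=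
  Complex.continuous_ofReal.comp_continuousOn <| by
    refine ContinuousOn.div ?_ ?_ fun r hr => (denom_pos n hr).ne' <;> (unfold qd; fun_prop)

lemma continuousOn_invSq (n : ℕ) : ContinuousOn (invSq n) (Icc 0 2) :=
  Complex.continuous_ofReal.comp_continuousOn <| by
    refine ContinuousOn.div ?_ ?_ fun r hr => (denom_pos n hr).ne' <;> (unfold qd; fun_prop)

lemma norm_chi_le (n : ℕ) {r : ℝ} (hr : r ∈ Icc (0 : ℝ) 2) : ‖chi n r‖ ≤ 1 := by
  have h := qd_nonneg hr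
  rw [chi, Complex.norm_real, Real.norm_of_nonneg (by positivity),
    div_le_one (denom_pos n hr)]
  linarith

lemma norm_phase (t r : ℝ) : ‖phase t r‖ = 1 := Complex.norm_exp_ofReal_mul_I _

lemma phase_zero (r : ℝ) : phase 0 r = 1 := by simp [phase]

lemma phase_add (s t r : ℝ) : phase (s + t) r = phase s r * phase t r := by
  simp only [phase, ← Complex.exp_add]; congr 1; push_cast; ring

lemma conj_phase (t r : ℝ) : conj (phase t r) = phase (-t) r := by
  simp only [phase, ← Complex.exp_conj, map_mul, Complex.conj_ofReal, Complex.conj_I]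
  congr 1; push_cast; ring

lemma ell_refl (r : ℝ) : ell (2 - r) = -ell r := by
  simp only [ell, sub_sub_cancel, ← Real.log_inv, inv_div]

lemma phase_refl (t r : ℝ) : phase t (2 - r) = phase (-t) r := by
  simp only [phase, ell_refl]; congr 3; ring

lemma phase_one (t : ℝ) : phase t 1 = 1 := by norm_num [phase, ell]

lemma continuousOn_ell : ContinuousOn ell (Ioo 0 2) := by
  refine ContinuousOn.log (ContinuousOn.div (by fun_prop) (by fun_prop) fun r hr => hr.1.ne')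
    fun r hr => (div_pos (by linarith [hr.2]) hr.1).ne'

/-- Multiplying a phase by a function vanishing at the end points gives a continuous function. -/
lemma continuousOn_phase_mul_param {f : ℝ → ℂ} (hf : ContinuousOn f (Icc 0 2)) (h0 : f 0 = 0)
    (h2 : f 2 = 0) :
    ContinuousOn (fun p : ℝ × ℝ => phase p.1 p.2 * f p.2) (univ ×ˢ Icc 0 2) := by
  rintro ⟨t, r⟩ ⟨-, hr⟩
  have hf' : ContinuousWithinAt (fun p : ℝ × ℝ => f p.2) (univ ×ˢ Icc 0 2) (t, r) :=
    (hf r hr).comp continuousWithinAt_snd fun p hp => hp.2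
  by_cases hend : r ∈ Ioo (0 : ℝ) 2
  · refine ContinuousWithinAt.mul ?_ hf'
    have hl : ContinuousAt (fun p : ℝ × ℝ => ell p.2) (t, r) :=
      (continuousOn_ell.continuousAt (isOpen_Ioo.mem_nhds hend)).comp' continuousAt_snd
    exact (Complex.continuous_exp.continuousAt.comp'
      ((Complex.continuous_ofReal.continuousAt.comp' (continuousAt_fst.mul hl)).mul
        continuousAt_const)).continuousWithinAt
  · have hfr : f r = 0 := by
      simp only [mem_Icc] at hr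
      rcases eq_or_lt_of_le hr.1 with h | h
      · rw [← h, h0]
      · rw [show r = 2 by by_contra hne; exact hend ⟨h, lt_of_le_of_ne hr.2 hne⟩, h2]
    unfold ContinuousWithinAt at hf' ⊢
    simp only [hfr, mul_zero] at hf' ⊢
    refine squeeze_zero_norm (fun p => le_of_eq ?_) (by simpa using hf'.norm)
    rw [norm_mul, norm_phase, one_mul]

lemma continuousOn_phase_mul (t : ℝ) {f : ℝ → ℂ} (hf : ContinuousOn f (Icc 0 2)) (h0 : f 0 = 0)
    (h2 : f 2 = 0) : ContinuousOn (fun r => phase t r * f r) (Icc 0 2) :=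
  (continuousOn_phase_mul_param hf h0 h2).comp (f := fun r : ℝ => (t, r)) (by fun_prop)
    fun r hr => ⟨mem_univ _, hr⟩

lemma sq_zero' : sq 0 = 0 := by simp [sq, qd]

lemma sq_two : sq 2 = 0 := by simp [sq, qd]

lemma chi_zero (n : ℕ) : chi n 0 = 0 := by simp [chi, qd]

lemma chi_two (n : ℕ) : chi n 2 = 0 := by simp [chi, qd]

/-- `(1 - chi n) √(r (2-r))` is uniformly small. -/
lemma norm_chi_sub_mul_sq (n : ℕ) {r : ℝ} (hr : r ∈ Icc (0 : ℝ) 2) :
    ‖chi n r * sq r - sq r‖ ≤ 1 / √((n : ℝ) + 1) := by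
  have ha := qd_nonneg hr
  have hd := denom_pos n hr
  set N : ℝ := (n : ℝ) + 1
  have hN : 0 < N := by positivity
  set s := √(qd r)
  have hs : s * s = qd r := Real.mul_self_sqrt ha
  rw [chi, sq, ← Complex.ofReal_mul, ← Complex.ofReal_sub, Complex.norm_real,
    show N * qd r / (N * qd r + 1) * s - s = -(s / (N * qd r + 1)) by field_simp; ring,
    norm_neg, Real.norm_of_nonneg (by positivity), div_le_div_iff₀ hd (by positivity), one_mul]
  have hq : √N * √N = N := Real.mul_self_sqrt hN.le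
  nlinarith [sq_nonneg (√N * s - 1), mul_nonneg (Real.sqrt_nonneg N) (Real.sqrt_nonneg (qd r))]

lemma tendsto_inv_sqrt_succ :
    Tendsto (fun n : ℕ => 1 / √((n : ℝ) + 1)) atTop (𝓝 0) := by
  simp only [one_div]
  refine Tendsto.inv_tendsto_atTop (Real.tendsto_sqrt_atTop.comp ?_)
  exact tendsto_atTop_add_const_right _ _ tendsto_natCast_atTop_atTop

end Scalar

/-- Pointwise limit of a bounded sequence of operators converging on a dense set. -/
lemma exists_limit {σ : ℂ →+* ℂ} (A : ℕ → H →SL[σ] H) (C : ℝ)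
    (hC : ∀ n ξ, ‖A n ξ‖ ≤ C * ‖ξ‖) (s : Set H) (hs : Dense s)
    (hlim : ∀ ξ ∈ s, ∃ η, Tendsto (fun n => A n ξ) atTop (𝓝 η)) :
    ∃ V : H →SL[σ] H, ∀ ξ, Tendsto (fun n => A n ξ) atTop (𝓝 (V ξ)) := by
  have hC' : ∀ n ξ, ‖A n ξ‖ ≤ (|C| + 1) * ‖ξ‖ := fun n ξ =>
    (hC n ξ).trans (mul_le_mul_of_nonneg_right ((le_abs_self C).trans (by linarith)) (norm_nonneg _))
  have hall : ∀ ξ, ∃ η, Tendsto (fun n => A n ξ) atTop (𝓝 η) := by
    intro ξ
    refine cauchySeq_tendsto_of_complete (Metric.cauchySeq_iff.2 fun ε hε => ?_)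
    have hK : 0 < |C| + 1 := by positivity
    obtain ⟨ζ, hζ, hd⟩ := hs.exists_dist_lt ξ (show 0 < ε / (4 * (|C| + 1)) by positivity)
    obtain ⟨η, hη⟩ := hlim ζ hζ
    obtain ⟨N, hN⟩ := Metric.cauchySeq_iff.1 hη.cauchySeq (ε / 2) (by positivity)
    refine ⟨N, fun m hm n hn => ?_⟩
    have e : ∀ k, dist (A k ξ) (A k ζ) < ε / 4 := fun k => by
      rw [dist_eq_norm, ← map_sub]
      refine lt_of_le_of_lt (hC' k _) ?_
      rw [← dist_eq_norm]
      calc (|C| + 1) * dist ξ ζ < (|C| + 1) * (ε / (4 * (|C| + 1))) := by gcongr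
        _ = ε / 4 := by field_simp
    linarith [dist_triangle4 (A m ξ) (A m ζ) (A n ζ) (A n ξ), hN m hm n hn, e m, e n,
      dist_comm (A n ζ) (A n ξ)]
  choose f hf using hall
  refine ⟨LinearMap.mkContinuous
    { toFun := f
      map_add' := fun x y => tendsto_nhds_unique (hf (x + y))
        (by simpa only [map_add] using (hf x).add (hf y))
      map_smul' := fun c x => tendsto_nhds_unique (hf (c • x))
        (by simpa only [map_smulₛₗ] using (hf x).const_smul (σ c)) }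
    (|C| + 1) fun x => le_of_tendsto (hf x).norm (Eventually.of_forall fun n => hC' n x), hf⟩

/-- `√(R (2 - R))`. -/
noncomputable def T (M : VonNeumannAlgebra H) (Ω : H) : H →L[ℂ] H := fR M Ω sq

lemma isSelfAdjoint_T : IsSelfAdjoint (T M Ω) := isSelfAdjoint_fR conj_sq

lemma D_T (ξ : H) : D M Ω (T M Ω ξ) = T M Ω (D M Ω ξ) := by
  rw [T, D_fR continuousOn_sq]
  simp only [sq_refl, conj_sq]

lemma T_T (ξ : H) : T M Ω (T M Ω ξ) = D M Ω (D M Ω ξ) := by
  rw [T, fR_mul_apply continuousOn_sq continuousOn_sq,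
    fR_congr (g := fun r => (r : ℂ) * ((2 : ℂ) - (r : ℂ))) fun r hr => by
      simp only [sq_mul_sq hr, qd]; push_cast; rfl,
    fR_mul (by fun_prop) (by fun_prop), mul_apply_eq_comp, fR_id,
    fR_sub (by fun_prop) (by fun_prop), fR_id, fR_const, D_D]
  simp

lemma norm_D_eq (ξ : H) : ‖D M Ω ξ‖ = ‖T M Ω ξ‖ := by
  have h : ⟪D M Ω ξ, D M Ω ξ⟫_ℂ = ⟪T M Ω ξ, T M Ω ξ⟫_ℂ := by
    rw [inner_sa_left isSelfAdjoint_T, T_T]
    exact inner_D _ _
  have h' := congrArg Complex.re h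
  rwa [show ∀ v : H, (⟪v, v⟫_ℂ).re = ‖v‖ ^ 2 from inner_self_eq_norm_sq (𝕜 := ℂ),
    show ∀ v : H, (⟪v, v⟫_ℂ).re = ‖v‖ ^ 2 from inner_self_eq_norm_sq (𝕜 := ℂ),
    pow_left_inj₀ (norm_nonneg _) (norm_nonneg _) two_ne_zero] at h'

lemma CycSep.D_injective (h : CycSep M Ω) {ξ : H} (hξ : D M Ω ξ = 0) : ξ = 0 := by
  have hD := D_D (M := M) (Ω := Ω) ξ
  rw [hξ, map_zero] at hD
  exact h.two_sub_R_injective (a₂ := 0)
    (by simpa using h.R_injective (hD.symm.trans (map_zero _).symm))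

lemma CycSep.denseRange_T (h : CycSep M Ω) : Dense (range (T M Ω)) := by
  have hbot : (LinearMap.range (T M Ω).toLinearMap)ᗮ = ⊥ := by
    refine (Submodule.eq_bot_iff _).2 fun ξ hξ => h.D_injective ?_
    rw [← norm_eq_zero, norm_D_eq, norm_eq_zero]
    refine ext_inner_left ℂ fun v => ?_
    rw [inner_zero_right, ← inner_sa_left isSelfAdjoint_T]
    exact hξ _ (LinearMap.mem_range_self _ v)
  rw [← Submodule.topologicalClosure_eq_top_iff, ← Submodule.dense_iff_topologicalClosure_eq_top]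
    at hbot
  simpa [LinearMap.coe_range] using hbot

/-- Two continuous maps which agree on the range of `T` are equal. -/
lemma CycSep.ext_T (h : CycSep M Ω) {f g : H → H} (hf : Continuous f) (hg : Continuous g)
    (he : ∀ η, f (T M Ω η) = g (T M Ω η)) (ξ : H) : f ξ = g ξ :=
  congrFun (Continuous.ext_on h.denseRange_T hf hg (by rintro _ ⟨η, rfl⟩; exact he η)) ξ

/-- The approximations of `U t`. -/
noncomputable def USeq (M : VonNeumannAlgebra H) (Ω : H) (t : ℝ) (n : ℕ) : H →L[ℂ] H :=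
  fR M Ω fun r => phase t r * chi n r

open scoped Classical in
/-- The modular unitary group `Δ^{it}`. -/
noncomputable def U (M : VonNeumannAlgebra H) (Ω : H) (t : ℝ) : H →L[ℂ] H :=
  if h : ∃ V : H →L[ℂ] H, ∀ ξ, Tendsto (fun n => USeq M Ω t n ξ) atTop (𝓝 (V ξ)) then h.choose
  else 0

lemma tendsto_fR_chi {f : ℝ → ℂ} (hf : ContinuousOn f (Icc 0 2))
    (hfb : ∀ r ∈ Icc (0 : ℝ) 2, ‖f r‖ ≤ ‖sq r‖) (ξ : H) :
    Tendsto (fun n => fR M Ω (fun r => f r * chi n r) ξ) atTop (𝓝 (fR M Ω f ξ)) := by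
  rw [tendsto_iff_norm_sub_tendsto_zero]
  refine squeeze_zero (fun n => norm_nonneg _) (fun n => ?_)
    (g := fun n : ℕ => 1 / √((n : ℝ) + 1) * ‖ξ‖) (by simpa using tendsto_inv_sqrt_succ.mul_const ‖ξ‖)
  rw [← sub_apply, ← fR_sub (f := fun r => f r * chi n r) (hf.mul (continuousOn_chi n)) hf]
  refine norm_fR_apply_le (by positivity) (fun r hr => ?_) ξ
  refine le_trans ?_ (norm_chi_sub_mul_sq n hr)
  rw [show f r * chi n r - f r = (chi n r - 1) * f r by ring,
    show chi n r * sq r - sq r = (chi n r - 1) * sq r by ring, norm_mul, norm_mul]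
  exact mul_le_mul_of_nonneg_left (hfb r hr) (norm_nonneg _)

lemma USeq_T (t : ℝ) (n : ℕ) (η : H) :
    USeq M Ω t n (T M Ω η) = fR M Ω (fun r => phase t r * sq r * chi n r) η := by
  rw [USeq, T, fR_mul_apply
    (continuousOn_phase_mul t (continuousOn_chi n) (chi_zero n) (chi_two n)) continuousOn_sq]
  congr 1
  exact fR_congr fun r _ => by ring

lemma tendsto_USeq_T (t : ℝ) (η : H) :
    Tendsto (fun n => USeq M Ω t n (T M Ω η)) atTop
      (𝓝 (fR M Ω (fun r => phase t r * sq r) η)) := by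
  simp only [USeq_T]
  exact tendsto_fR_chi (continuousOn_phase_mul t continuousOn_sq sq_zero' sq_two)
    (fun r _ => by rw [norm_mul, norm_phase, one_mul]) η

lemma norm_USeq_le (t : ℝ) (n : ℕ) (ξ : H) : ‖USeq M Ω t n ξ‖ ≤ 1 * ‖ξ‖ :=
  norm_fR_apply_le zero_le_one (fun r hr => by
    rw [norm_mul, norm_phase, one_mul]; exact norm_chi_le n hr) ξ

lemma CycSep.tendsto_U (h : CycSep M Ω) (t : ℝ) (ξ : H) :
    Tendsto (fun n => USeq M Ω t n ξ) atTop (𝓝 (U M Ω t ξ)) := by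
  have hex := exists_limit (fun n => USeq M Ω t n) 1 (norm_USeq_le t) _ h.denseRange_T
    (by rintro _ ⟨η, rfl⟩; exact ⟨_, tendsto_USeq_T t η⟩)
  rw [U, dif_pos hex]
  exact hex.choose_spec ξ

lemma CycSep.U_T (h : CycSep M Ω) (t : ℝ) (η : H) :
    U M Ω t (T M Ω η) = fR M Ω (fun r => phase t r * sq r) η :=
  tendsto_nhds_unique (h.tendsto_U t _) (tendsto_USeq_T t η)

lemma CycSep.norm_U_le (h : CycSep M Ω) (t : ℝ) (ξ : H) : ‖U M Ω t ξ‖ ≤ ‖ξ‖ :=
  le_of_tendsto (h.tendsto_U t ξ).norm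
    (Eventually.of_forall fun n => by simpa using norm_USeq_le t n ξ)

/-- `U t` on the range of a function vanishing at the end points. -/
lemma CycSep.U_fR (h : CycSep M Ω) (t : ℝ) {f : ℝ → ℂ} (hf : ContinuousOn f (Icc 0 2))
    (h0 : f 0 = 0) (h2 : f 2 = 0) (ξ : H) :
    U M Ω t (fR M Ω f ξ) = fR M Ω (fun r => phase t r * f r) ξ := by
  refine h.ext_T (f := fun ξ => U M Ω t (fR M Ω f ξ))
    (g := fun ξ => fR M Ω (fun r => phase t r * f r) ξ) (by fun_prop) (by fun_prop) (fun η => ?_) ξ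
  have hpf := continuousOn_phase_mul t hf h0 h2
  have hps := continuousOn_phase_mul t continuousOn_sq sq_zero' sq_two
  calc U M Ω t (fR M Ω f (T M Ω η)) = U M Ω t (T M Ω (fR M Ω f η)) := by
        rw [T, fR_mul_apply hf continuousOn_sq, fR_mul_apply continuousOn_sq hf]
        congr 2
        exact fR_congr fun r _ => mul_comm _ _
    _ = fR M Ω (fun r => phase t r * sq r) (fR M Ω f η) := h.U_T t _
    _ = fR M Ω (fun r => phase t r * f r) (T M Ω η) := by
        rw [T, fR_mul_apply hps hf, fR_mul_apply hpf continuousOn_sq]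
        congr 1
        exact fR_congr fun r _ => by ring

lemma CycSep.U_zero (h : CycSep M Ω) : U M Ω 0 = 1 := by
  refine ContinuousLinearMap.ext (h.ext_T (U M Ω 0).continuous continuous_id fun η => ?_)
  rw [h.U_T]
  simp [phase_zero, T]

lemma CycSep.U_add (h : CycSep M Ω) (s t : ℝ) : U M Ω (s + t) = U M Ω s * U M Ω t := by
  refine ContinuousLinearMap.ext (h.ext_T (U M Ω (s + t)).continuous
    (U M Ω s * U M Ω t).continuous fun η => ?_)
  rw [mul_apply_eq_comp, h.U_T, h.U_T,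
    h.U_fR s (continuousOn_phase_mul t continuousOn_sq sq_zero' sq_two) (by simp [sq_zero'])
      (by simp [sq_two])]
  congr 1
  exact fR_congr fun r _ => by rw [phase_add]; ring

lemma CycSep.inner_U (h : CycSep M Ω) (t : ℝ) (ξ η : H) :
    ⟪U M Ω t ξ, η⟫_ℂ = ⟪ξ, U M Ω (-t) η⟫_ℂ := by
  refine tendsto_nhds_unique ((h.tendsto_U t ξ).inner tendsto_const_nhds) ?_
  refine Tendsto.congr (fun n => ?_)
    (Tendsto.inner (𝕜 := ℂ) (tendsto_const_nhds (x := ξ)) (h.tendsto_U (-t) η))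
  rw [USeq, USeq, inner_fR]
  simp [conj_phase, conj_chi]

lemma CycSep.star_U (h : CycSep M Ω) (t : ℝ) : star (U M Ω t) = U M Ω (-t) := by
  refine ContinuousLinearMap.ext fun ξ => ext_inner_right ℂ fun η => ?_
  rw [inner_star_left, h.inner_U, neg_neg]

lemma CycSep.U_neg_apply (h : CycSep M Ω) (t : ℝ) (ξ : H) :
    U M Ω (-t) (U M Ω t ξ) = ξ := by
  rw [← mul_apply_eq_comp, ← h.U_add, neg_add_cancel, h.U_zero, one_apply_eq_self]

lemma CycSep.U_continuous (h : CycSep M Ω) (ξ : H) : Continuous fun t => U M Ω t ξ := by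
  refine continuous_of_uniform_approx_of_continuous fun u hu => ?_
  obtain ⟨ε, hε, hsub⟩ := Metric.mem_uniformity_dist.1 hu
  obtain ⟨_, ⟨η, rfl⟩, hd⟩ := h.denseRange_T.exists_dist_lt ξ hε
  refine ⟨fun t => fR M Ω (fun r => phase t r * sq r) η, ?_, fun t => hsub ?_⟩
  · have hc := (continuous_fR_param (M := M) (Ω := Ω) (F := fun t r => phase t r * sq r)
      (s := univ) (continuousOn_phase_mul_param continuousOn_sq sq_zero' sq_two))
    exact (ContinuousLinearMap.apply ℂ H η).continuous.comp (continuousOn_univ.1 hc)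
  · change dist (U M Ω t ξ) (fR M Ω (fun r => phase t r * sq r) η) < ε
    rw [← h.U_T, dist_eq_norm, ← map_sub]
    exact lt_of_le_of_lt (h.norm_U_le t _) (by rwa [← dist_eq_norm])

lemma CycSep.U_omega (h : CycSep M Ω) (t : ℝ) : U M Ω t Ω = Ω := by
  refine tendsto_nhds_unique (h.tendsto_U t Ω) ?_
  have hc : Tendsto (fun n => chi n 1) atTop (𝓝 1) := by
    have h1 := tendsto_natCast_div_add_atTop (1 : ℝ)
    have h2 : Tendsto (fun n : ℕ => (((n : ℝ) + 1) * qd 1 / (((n : ℝ) + 1) * qd 1 + 1) : ℝ))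
        atTop (𝓝 1) := by
      refine ((h1.comp (tendsto_add_atTop_nat 1)).congr fun n => ?_)
      simp [qd]; norm_num
    exact (Complex.continuous_ofReal.tendsto 1).comp h2
  refine (by simpa using hc.smul_const Ω : Tendsto (fun n => chi n 1 • Ω) atTop (𝓝 Ω)).congr
    fun n => ?_
  rw [USeq, fR_omega (continuousOn_phase_mul t (continuousOn_chi n) (chi_zero n) (chi_two n)),
    phase_one, one_mul]

/-! ## The modular conjugation -/

/-- The approximations of `J`. -/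
noncomputable def JSeq (M : VonNeumannAlgebra H) (Ω : H) (n : ℕ) : H →L⋆[ℂ] H :=
  (D M Ω).comp (fR M Ω (invSq n))

open scoped Classical in
/-- The modular conjugation as a continuous conjugate linear map. -/
noncomputable def J₀ (M : VonNeumannAlgebra H) (Ω : H) : H →L⋆[ℂ] H :=
  if h : ∃ V : H →L⋆[ℂ] H, ∀ ξ, Tendsto (fun n => JSeq M Ω n ξ) atTop (𝓝 (V ξ)) then h.choose
  else 0

lemma norm_JSeq_le (n : ℕ) (ξ : H) : ‖JSeq M Ω n ξ‖ ≤ 1 * ‖ξ‖ := by
  change ‖D M Ω (fR M Ω (invSq n) ξ)‖ ≤ _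
  rw [norm_D_eq, T, fR_mul_apply continuousOn_sq (continuousOn_invSq n)]
  exact norm_fR_apply_le zero_le_one (fun r hr => by
    rw [sq_mul_invSq n hr]; exact norm_chi_le n hr) ξ

lemma tendsto_T_chi (η : H) :
    Tendsto (fun n => T M Ω (fR M Ω (chi n) η)) atTop (𝓝 (T M Ω η)) := by
  refine (tendsto_fR_chi continuousOn_sq (fun r _ => le_rfl) η).congr fun n => ?_
  rw [T, fR_mul_apply continuousOn_sq (continuousOn_chi n)]

lemma tendsto_JSeq_T (η : H) :
    Tendsto (fun n => JSeq M Ω n (T M Ω η)) atTop (𝓝 (D M Ω η)) := by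
  rw [tendsto_iff_norm_sub_tendsto_zero]
  refine (tendsto_iff_norm_sub_tendsto_zero.1 (tendsto_T_chi (M := M) (Ω := Ω) η)).congr fun n => ?_
  change _ = ‖D M Ω (fR M Ω (invSq n) (T M Ω η)) - D M Ω η‖
  conv_rhs => rw [← map_sub, norm_D_eq, map_sub]
  congr 2
  rw [T, fR_mul_apply continuousOn_sq (continuousOn_chi n),
    fR_mul_apply (continuousOn_invSq n) continuousOn_sq,
    fR_mul_apply (f := sq) (g := fun r => invSq n r * sq r) continuousOn_sq
      ((continuousOn_invSq n).mul continuousOn_sq)]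
  refine congrArg (fun A : H →L[ℂ] H => A η) (fR_congr fun r hr => ?_)
  rw [mul_comm (invSq n r), sq_mul_invSq n hr]

lemma CycSep.tendsto_J (h : CycSep M Ω) (ξ : H) :
    Tendsto (fun n => JSeq M Ω n ξ) atTop (𝓝 (J₀ M Ω ξ)) := by
  have hex := exists_limit (fun n => JSeq M Ω n) 1 norm_JSeq_le _ h.denseRange_T
    (by rintro _ ⟨η, rfl⟩; exact ⟨_, tendsto_JSeq_T η⟩)
  rw [J₀, dif_pos hex]
  exact hex.choose_spec ξ

/-- `D = J T`. -/
lemma CycSep.J_T (h : CycSep M Ω) (η : H) : J₀ M Ω (T M Ω η) = D M Ω η :=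
  tendsto_nhds_unique (h.tendsto_J _) (tendsto_JSeq_T η)

/-- `D = T J`. -/
lemma CycSep.T_J (h : CycSep M Ω) (η : H) : T M Ω (J₀ M Ω η) = D M Ω η := by
  refine h.ext_T (f := fun η => T M Ω (J₀ M Ω η)) (g := fun η => D M Ω η) (by fun_prop)
    (by fun_prop) (fun ζ => ?_) η
  rw [h.J_T, D_T]

lemma CycSep.J_J (h : CycSep M Ω) (ξ : H) : J₀ M Ω (J₀ M Ω ξ) = ξ := by
  have hinj : ∀ v w : H, T M Ω v = T M Ω w → v = w := fun v w hvw => by
    refine sub_eq_zero.1 (h.D_injective ?_)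
    rw [← norm_eq_zero, norm_D_eq, map_sub, hvw, sub_self, norm_zero]
  refine hinj _ _ ?_
  rw [h.T_J]
  refine hinj _ _ ?_
  rw [← D_T, h.T_J, T_T]

lemma CycSep.inner_J (h : CycSep M Ω) (ξ η : H) : ⟪J₀ M Ω ξ, η⟫_ℂ = ⟪J₀ M Ω η, ξ⟫_ℂ := by
  refine congrFun (Continuous.ext_on h.denseRange_T (f := fun ξ => ⟪J₀ M Ω ξ, η⟫_ℂ)
    (g := fun ξ => ⟪J₀ M Ω η, ξ⟫_ℂ) (by fun_prop) (by fun_prop) ?_) ξ
  rintro _ ⟨ζ, rfl⟩
  simp only
  rw [h.J_T, inner_D_left, ← inner_sa_left isSelfAdjoint_T, h.T_J]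

lemma CycSep.norm_J (h : CycSep M Ω) (ξ : H) : ‖J₀ M Ω ξ‖ = ‖ξ‖ := by
  have h' := congrArg Complex.re (h.inner_J ξ (J₀ M Ω ξ))
  rw [h.J_J, show ∀ v : H, (⟪v, v⟫_ℂ).re = ‖v‖ ^ 2 from inner_self_eq_norm_sq (𝕜 := ℂ),
    show ∀ v : H, (⟪v, v⟫_ℂ).re = ‖v‖ ^ 2 from inner_self_eq_norm_sq (𝕜 := ℂ)] at h'
  exact (pow_left_inj₀ (norm_nonneg _) (norm_nonneg _) two_ne_zero).1 h'

/-- The modular conjugation. -/
noncomputable def J (h : CycSep M Ω) : H ≃ₗᵢ⋆[ℂ] H where
  toFun := J₀ M Ω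
  invFun := J₀ M Ω
  map_add' := map_add _
  map_smul' := map_smulₛₗ _
  left_inv := h.J_J
  right_inv := h.J_J
  norm_map' := h.norm_J

@[simp] lemma CycSep.J_apply (h : CycSep M Ω) (ξ : H) : J h ξ = J₀ M Ω ξ := rfl

lemma CycSep.J_fR (h : CycSep M Ω) {f : ℝ → ℂ} (hf : ContinuousOn f (Icc 0 2)) (ξ : H) :
    J₀ M Ω (fR M Ω f ξ) = fR M Ω (fun r => conj (f (2 - r))) (J₀ M Ω ξ) := by
  refine h.ext_T (f := fun ξ => J₀ M Ω (fR M Ω f ξ))
    (g := fun ξ => fR M Ω (fun r => conj (f (2 - r))) (J₀ M Ω ξ)) (by fun_prop) (by fun_prop)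
    (fun η => ?_) ξ
  calc J₀ M Ω (fR M Ω f (T M Ω η)) = J₀ M Ω (T M Ω (fR M Ω f η)) := by
        rw [T, fR_mul_apply hf continuousOn_sq, fR_mul_apply continuousOn_sq hf]
        congr 2
        exact fR_congr fun r _ => mul_comm _ _
    _ = D M Ω (fR M Ω f η) := h.J_T _
    _ = fR M Ω (fun r => conj (f (2 - r))) (D M Ω η) := D_fR hf η
    _ = fR M Ω (fun r => conj (f (2 - r))) (J₀ M Ω (T M Ω η)) := by rw [h.J_T]

lemma CycSep.J_U (h : CycSep M Ω) (t : ℝ) (ξ : H) :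
    J₀ M Ω (U M Ω t ξ) = U M Ω t (J₀ M Ω ξ) := by
  refine tendsto_nhds_unique (((J₀ M Ω).continuous.tendsto _).comp (h.tendsto_U t ξ)) ?_
  refine (h.tendsto_U t (J₀ M Ω ξ)).congr fun n => ?_
  simp only [Function.comp_apply, USeq]
  rw [h.J_fR (continuousOn_phase_mul t (continuousOn_chi n) (chi_zero n) (chi_two n))]
  simp [phase_refl, chi_refl, conj_phase, conj_chi]

lemma CycSep.J_omega (h : CycSep M Ω) : J₀ M Ω Ω = Ω := by
  have hT : T M Ω Ω = Ω := by
    rw [T, fR_omega continuousOn_sq]; norm_num [sq, qd]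
  calc J₀ M Ω Ω = J₀ M Ω (T M Ω Ω) := by rw [hT]
    _ = Ω := by rw [h.J_T, D_omega]

end Vale.Agent.P132.Tomita
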