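import Vale.Agent.P132.Tomita.Defs

/-!
# The subspace `K` of a cyclic and separating vector

Elementary properties of the projection on `K`, of `R = P + Q` and of `D = P - Q`.
-/

namespace Vale.Agent.P132.Tomita

open Complex
open scoped InnerProductSpace ComplexConjugate

universe u

variable {H : Type u} [NormedAddCommGroup H] [InnerProductSpace ℂ H] [CompleteSpace H]

omit [CompleteSpace H] in
lemma real_inner_def (ξ η : H) : ⟪ξ, η⟫_ℝ = (⟪ξ, η⟫_ℂ).re := rfl

variable {M : VonNeumannAlgebra H} {Ω : H}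

lemma inner_sa_left {a : H →L[ℂ] H} (ha : IsSelfAdjoint a) (ξ η : H) :
    ⟪a ξ, η⟫_ℂ = ⟪ξ, a η⟫_ℂ := by
  conv_rhs => rw [← ha.star_eq, ContinuousLinearMap.star_eq_adjoint,
    ContinuousLinearMap.adjoint_inner_right]

lemma inner_star_left (a : H →L[ℂ] H) (ξ η : H) : ⟪star a ξ, η⟫_ℂ = ⟪ξ, a η⟫_ℂ := by
  rw [ContinuousLinearMap.star_eq_adjoint, ContinuousLinearMap.adjoint_inner_left]

/-- Elements of `M` and of the commutant commute. -/
lemma commute_apply {a b : H →L[ℂ] H} (ha : a ∈ M) (hb : b ∈ M.commutant) (ξ : H) :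
    b (a ξ) = a (b ξ) := by
  have h := congrArg (fun T : H →L[ℂ] H => T ξ)
    (VonNeumannAlgebra.mem_commutant_iff.1 hb a ha)
  simpa [mul_apply_eq_comp] using h.symm

/-- Every element of `M` is a combination of two self-adjoint ones. -/
lemma exists_sa_decomp {a : H →L[ℂ] H} (ha : a ∈ M) :
    ∃ a₁ ∈ M, ∃ a₂ ∈ M, IsSelfAdjoint a₁ ∧ IsSelfAdjoint a₂ ∧ a = a₁ + I • a₂ := by
  refine ⟨(1 / 2 : ℂ) • (a + star a), M.toStarSubalgebra.smul_mem (add_mem ha (star_mem ha)) _,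
    (-I / 2) • (a - star a), M.toStarSubalgebra.smul_mem (sub_mem ha (star_mem ha)) _, ?_, ?_, ?_⟩
  · simp [IsSelfAdjoint, star_smul, add_comm]
  · simp only [IsSelfAdjoint, star_smul, star_sub, star_star, Complex.star_def, map_div₀, map_neg,
      Complex.conj_I, map_ofNat]
    module
  · rw [smul_smul, show I * (-I / 2) = (1 / 2 : ℂ) by rw [← mul_div_assoc, mul_neg, I_mul_I]; ring]
    module

/-- The commutant of an algebra with a cyclic separating vector has the same property. -/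
lemma CycSep.commutant (h : CycSep M Ω) : CycSep M.commutant Ω := by
  refine ⟨h.norm_one, ?_, ?_⟩
  · let S : Submodule ℂ H :=
      { carrier := (fun a : H →L[ℂ] H => a Ω) '' (M.commutant : Set (H →L[ℂ] H))
        add_mem' := by
          rintro _ _ ⟨a, ha, rfl⟩ ⟨b, hb, rfl⟩
          exact ⟨a + b, add_mem ha hb, rfl⟩
        zero_mem' := ⟨0, zero_mem M.commutant, rfl⟩
        smul_mem' := by
          rintro c _ ⟨a, ha, rfl⟩
          exact ⟨c • a, M.commutant.toStarSubalgebra.smul_mem ha c, rfl⟩ }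
    have : CompleteSpace S.topologicalClosure :=
      S.isClosed_topologicalClosure.completeSpace_coe
    set G := S.topologicalClosure
    set e := G.starProjection
    have hinv : ∀ y ∈ M.commutant, ∀ x ∈ G, y x ∈ G := by
      intro y hy x hx
      refine map_mem_closure (f := y) y.continuous hx ?_
      rintro _ ⟨a, ha, rfl⟩
      exact ⟨y * a, mul_mem hy ha, rfl⟩
    have he : e ∈ M := by
      rw [VonNeumannAlgebra.IsStarProjection.mem_iff isStarProjection_starProjection]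
      intro y hy x hx
      rw [Submodule.mem_comap, show LinearMap.range e.toLinearMap = G from
        Submodule.range_starProjection G] at *
      exact hinv y hy x hx
    have hΩ : Ω ∈ G := S.le_topologicalClosure ⟨1, one_mem M.commutant, rfl⟩
    have he1 : 1 - e = 0 := h.separating _ (sub_mem (one_mem M) he) (by
      simp [e, Submodule.starProjection_eq_self_iff.2 hΩ])
    intro x
    have hx : e x = x := by
      have := congrArg (fun T : H →L[ℂ] H => T x) he1
      exact (sub_eq_zero.1 (by simpa using this)).symm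
    exact (Submodule.starProjection_eq_self_iff.1 hx : x ∈ G)
  · intro b hb hbΩ
    refine ContinuousLinearMap.ext fun ξ => ?_
    refine h.cyclic.induction (P := fun ξ => b ξ = (0 : H →L[ℂ] H) ξ) ?_
      (isClosed_eq b.continuous (ContinuousLinearMap.continuous _)) ξ
    rintro _ ⟨a, ha, rfl⟩
    simp [commute_apply ha hb, hbΩ]

lemma apply_mem_K {a : H →L[ℂ] H} (ha : a ∈ M) (hsa : IsSelfAdjoint a) : a Ω ∈ K M Ω :=
  (saVectors M Ω).le_topologicalClosure ⟨a, ha, hsa, rfl⟩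

lemma omega_mem_K : Ω ∈ K M Ω := apply_mem_K (a := 1) (one_mem M) (.one _)

/-- To test orthogonality to `K` it is enough to test on the self-adjoint vectors. -/
lemma proj_eq_zero_of (ξ : H)
    (hξ : ∀ a ∈ M, IsSelfAdjoint a → (⟪a Ω, ξ⟫_ℂ).re = 0) : proj M Ω ξ = 0 := by
  refine (Submodule.starProjection_apply_eq_zero_iff (K M Ω)).2 fun w hw => ?_
  refine closure_minimal (t := {w : H | ⟪w, ξ⟫_ℝ = 0}) ?_
    (isClosed_eq (by fun_prop) continuous_const) hw
  rintro _ ⟨a, ha, hsa, rfl⟩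
  exact hξ a ha hsa

lemma proj_mem (ξ : H) : proj M Ω ξ ∈ K M Ω := Submodule.starProjection_apply_mem _ _

lemma proj_eq_self {ξ : H} (hξ : ξ ∈ K M Ω) : proj M Ω ξ = ξ :=
  Submodule.starProjection_eq_self_iff.2 hξ

lemma proj_proj (ξ : H) : proj M Ω (proj M Ω ξ) = proj M Ω ξ := proj_eq_self (proj_mem ξ)

lemma re_inner_proj (ξ η : H) : (⟪proj M Ω ξ, η⟫_ℂ).re = (⟪ξ, proj M Ω η⟫_ℂ).re :=
  Submodule.inner_starProjection_left_eq_right (K M Ω) ξ η

lemma projI_projI (ξ : H) : projI M Ω (projI M Ω ξ) = projI M Ω ξ := by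
  conv_lhs => arg 3; rw [projI]
  rw [projI_I_smul, proj_proj]; rfl

lemma re_inner_projI (ξ η : H) : (⟪projI M Ω ξ, η⟫_ℂ).re = (⟪ξ, projI M Ω η⟫_ℂ).re := by
  simp only [projI]
  have h := re_inner_proj (M := M) (Ω := Ω) (-I • ξ) (-I • η)
  rw [inner_smul_left, inner_smul_right] at h ⊢
  simpa using h

lemma proj_apply_sa {a : H →L[ℂ] H} (ha : a ∈ M) (hsa : IsSelfAdjoint a) :
    proj M Ω (a Ω) = a Ω :=
  proj_eq_self (apply_mem_K ha hsa)

/-- Self-adjoint vectors of `M` and of the commutant have real inner products. -/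
lemma inner_im_eq_zero {a b : H →L[ℂ] H} (ha : a ∈ M) (hsa : IsSelfAdjoint a)
    (hb : b ∈ M.commutant) (hsb : IsSelfAdjoint b) : (⟪a Ω, b Ω⟫_ℂ).im = 0 := by
  have h : (starRingEnd ℂ) ⟪a Ω, b Ω⟫_ℂ = ⟪a Ω, b Ω⟫_ℂ := by
    rw [inner_conj_symm, inner_sa_left hsb, inner_sa_left hsa, commute_apply ha hb]
  exact Complex.conj_eq_iff_im.1 h

lemma projI_apply_commutant {b : H →L[ℂ] H} (hb : b ∈ M.commutant) (hsb : IsSelfAdjoint b) :
    projI M Ω (b Ω) = 0 := by
  rw [projI, proj_eq_zero_of, smul_zero]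
  intro a ha hsa
  simp [inner_smul_right, inner_im_eq_zero ha hsa hb hsb]

lemma R_apply_commutant {b : H →L[ℂ] H} (hb : b ∈ M.commutant) (hsb : IsSelfAdjoint b) :
    R M Ω (b Ω) = proj M Ω (b Ω) := by
  rw [R_apply, projI_apply_commutant hb hsb, add_zero]

lemma D_apply_commutant {b : H →L[ℂ] H} (hb : b ∈ M.commutant) (hsb : IsSelfAdjoint b) :
    D M Ω (b Ω) = proj M Ω (b Ω) := by
  rw [D_apply, projI_apply_commutant hb hsb, sub_zero]

lemma inner_R (ξ η : H) : ⟪R M Ω ξ, η⟫_ℂ = ⟪ξ, R M Ω η⟫_ℂ := by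
  have hre : ∀ u v : H, (⟪R M Ω u, v⟫_ℂ).re = (⟪u, R M Ω v⟫_ℂ).re := fun u v => by
    rw [R_apply, R_apply, inner_add_left, inner_add_right, Complex.add_re, Complex.add_re,
      re_inner_proj, re_inner_projI]
  refine Complex.ext (hre ξ η) ?_
  have h := hre (I • ξ) η
  simpa [map_smul, inner_smul_left] using h

lemma isSelfAdjoint_R : IsSelfAdjoint (R M Ω) :=
  ContinuousLinearMap.isSelfAdjoint_iff_isSymmetric.2 inner_R

lemma inner_D (ξ η : H) : ⟪ξ, D M Ω η⟫_ℂ = ⟪η, D M Ω ξ⟫_ℂ := by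
  have hre : ∀ u v : H, (⟪u, D M Ω v⟫_ℂ).re = (⟪v, D M Ω u⟫_ℂ).re := fun u v => by
    rw [← inner_conj_symm u, Complex.conj_re]
    rw [D_apply, D_apply, inner_sub_left, inner_sub_right, Complex.sub_re, Complex.sub_re,
      re_inner_proj, re_inner_projI]
  refine Complex.ext (hre ξ η) ?_
  have h := hre (I • ξ) η
  simpa [map_smulₛₗ, inner_smul_left, inner_smul_right] using h

lemma inner_D_left (ξ η : H) : ⟪D M Ω ξ, η⟫_ℂ = ⟪D M Ω η, ξ⟫_ℂ := by
  rw [← inner_conj_symm, inner_D, inner_conj_symm]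

/-- `D² = R (2 - R)`. -/
lemma D_D (ξ : H) : D M Ω (D M Ω ξ) = R M Ω ((2 : ℂ) • ξ - R M Ω ξ) := by
  simp only [D_apply, R_apply, map_sub, map_add, two_smul, proj_proj, projI_projI]
  abel

/-- `D R = (2 - R) D`. -/
lemma D_R (ξ : H) : D M Ω (R M Ω ξ) = (2 : ℂ) • D M Ω ξ - R M Ω (D M Ω ξ) := by
  simp only [D_apply, R_apply, map_sub, map_add, two_smul, proj_proj, projI_projI]
  abel

lemma re_inner_R_self (ξ : H) :
    (⟪ξ, R M Ω ξ⟫_ℂ).re = ‖proj M Ω ξ‖ ^ 2 + ‖projI M Ω ξ‖ ^ 2 := by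
  rw [R_apply, inner_add_right, Complex.add_re]
  congr 1
  · conv_lhs => rw [← proj_proj, ← re_inner_proj]
    exact inner_self_eq_norm_sq (𝕜 := ℂ) _
  · conv_lhs => rw [← projI_projI, ← re_inner_projI]
    exact inner_self_eq_norm_sq (𝕜 := ℂ) _

lemma R_omega : R M Ω Ω = Ω := by
  rw [R_apply, proj_eq_self omega_mem_K]
  simpa using projI_apply_commutant (M := M) (Ω := Ω) (one_mem M.commutant) (.one _)

lemma D_omega : D M Ω Ω = Ω := by
  rw [D_apply, proj_eq_self omega_mem_K]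
  simpa using projI_apply_commutant (M := M) (Ω := Ω) (one_mem M.commutant) (.one _)

/-- The bounded form of `S (a Ω) = a* Ω`. -/
lemma D_apply_star {a : H →L[ℂ] H} (ha : a ∈ M) :
    D M Ω (star a Ω) = (2 : ℂ) • a Ω - R M Ω (a Ω) := by
  have hsa : ∀ b ∈ M, IsSelfAdjoint b → D M Ω (b Ω) = (2 : ℂ) • b Ω - R M Ω (b Ω) := by
    intro b hb hb'
    rw [D_apply, R_apply, proj_apply_sa hb hb', two_smul]
    abel
  obtain ⟨a₁, h₁, a₂, h₂, s₁, s₂, rfl⟩ := exists_sa_decomp ha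
  simp only [star_add, star_smul, s₁.star_eq, s₂.star_eq, add_apply,
    smul_apply, map_add, map_smulₛₗ, hsa _ h₁ s₁, hsa _ h₂ s₂]
  simp [smul_comm (2 : ℂ) I]
  module

/-- `R` is injective. -/
lemma CycSep.R_injective (h : CycSep M Ω) : Function.Injective (R M Ω) := by
  refine (injective_iff_map_eq_zero _).2 fun ξ hξ => ?_
  have h0 := re_inner_R_self (M := M) (Ω := Ω) ξ
  rw [hξ, inner_zero_right, Complex.zero_re] at h0
  have hp : proj M Ω ξ = 0 := by
    rw [← norm_eq_zero]; nlinarith [sq_nonneg ‖projI M Ω ξ‖, norm_nonneg (proj M Ω ξ)]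
  have hq : proj M Ω (-I • ξ) = 0 := by
    have : projI M Ω ξ = 0 := by
      rw [← norm_eq_zero]; nlinarith [sq_nonneg ‖proj M Ω ξ‖, norm_nonneg (projI M Ω ξ)]
    simpa [projI, I_ne_zero] using this
  refine h.cyclic.eq_zero_of_inner_left ℂ ?_
  rintro _ ⟨a, ha, rfl⟩
  have hsa : ∀ b ∈ M, IsSelfAdjoint b → ⟪ξ, b Ω⟫_ℂ = 0 := by
    intro b hb hb'
    have e1 := re_inner_proj (M := M) (Ω := Ω) ξ (b Ω)
    have e2 := re_inner_proj (M := M) (Ω := Ω) (-I • ξ) (b Ω)
    rw [hp, proj_apply_sa hb hb', inner_zero_left] at e1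
    rw [hq, proj_apply_sa hb hb', inner_zero_left, inner_smul_left] at e2
    refine Complex.ext e1.symm ?_
    simpa [eq_comm] using e2
  obtain ⟨a₁, h₁, a₂, h₂, s₁, s₂, rfl⟩ := exists_sa_decomp ha
  simp [inner_add_right, inner_smul_right, hsa _ h₁ s₁, hsa _ h₂ s₂]

/-- `2 - R` is injective. -/
lemma CycSep.two_sub_R_injective (h : CycSep M Ω) :
    Function.Injective fun ξ => (2 : ℂ) • ξ - R M Ω ξ := by
  intro ξ η hξη
  let d := ξ - η
  have hd : R M Ω d = (2 : ℂ) • d := by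
    simp only [d, map_sub, smul_sub]
    simp only at hξη
    rw [sub_eq_sub_iff_sub_eq_sub] at hξη
    exact hξη.symm
  have h0 := re_inner_R_self (M := M) (Ω := Ω) d
  have hself : (⟪d, (2 : ℂ) • d⟫_ℂ).re = 2 * ‖d‖ ^ 2 := by
    rw [inner_smul_right, Complex.mul_re, show (⟪d, d⟫_ℂ).re = ‖d‖ ^ 2 from
      inner_self_eq_norm_sq (𝕜 := ℂ) d]
    simp
  rw [hd, hself] at h0
  have hp := norm_proj_le M Ω d
  have hq : ‖projI M Ω d‖ ≤ ‖d‖ := by
    simpa [projI, norm_smul] using norm_proj_le M Ω (-I • d)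
  have e1 : ‖proj M Ω d‖ = ‖d‖ := by
    nlinarith [norm_nonneg (proj M Ω d), norm_nonneg (projI M Ω d), norm_nonneg d]
  have e2 : ‖proj M Ω (-I • d)‖ = ‖-I • d‖ := by
    have : ‖projI M Ω d‖ = ‖d‖ := by
      nlinarith [norm_nonneg (proj M Ω d), norm_nonneg (projI M Ω d), norm_nonneg d]
    simpa [projI, norm_smul] using this
  have hmem : ∀ v : H, ‖proj M Ω v‖ = ‖v‖ → v ∈ K M Ω := fun v hv => by
    have hpy := (K M Ω).norm_sq_eq_add_norm_sq_starProjection v
    have h2 : ‖(K M Ω)ᗮ.starProjection v‖ = 0 := by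
      change ‖proj M Ω v‖ = ‖v‖ at hv
      rw [show ‖(K M Ω).starProjection v‖ = ‖v‖ from hv] at hpy
      nlinarith [norm_nonneg ((K M Ω)ᗮ.starProjection v)]
    rw [norm_eq_zero, Submodule.starProjection_apply_eq_zero_iff,
      Submodule.orthogonal_orthogonal] at h2
    exact h2
  -- vectors of `K` have real inner products with the self-adjoint vectors of the commutant
  have him : ∀ v ∈ K M Ω, ∀ b ∈ M.commutant, IsSelfAdjoint b → (⟪v, b Ω⟫_ℂ).im = 0 := by
    intro v hv b hb hb'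
    refine closure_minimal (t := {v : H | (⟪v, b Ω⟫_ℂ).im = 0}) ?_
      (isClosed_eq (by fun_prop) continuous_const) hv
    rintro _ ⟨a, ha, hsa, rfl⟩
    exact inner_im_eq_zero ha hsa hb hb'
  have hzero : d = 0 := by
    refine h.commutant.cyclic.eq_zero_of_inner_left ℂ ?_
    rintro _ ⟨b, hb, rfl⟩
    have hsb : ∀ c ∈ M.commutant, IsSelfAdjoint c → ⟪d, c Ω⟫_ℂ = 0 := by
      intro c hc hc'
      refine Complex.ext ?_ (him d (hmem d e1) c hc hc')
      have := him _ (hmem _ e2) c hc hc'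
      simpa [inner_smul_left] using this
    obtain ⟨b₁, h₁, b₂, h₂, s₁, s₂, rfl⟩ := exists_sa_decomp hb
    simp [inner_add_right, inner_smul_right, hsb _ h₁ s₁, hsb _ h₂ s₂]
  exact sub_eq_zero.1 hzero

end Vale.Agent.P132.Tomita
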